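import Vale.Agent.P356.MathlibUsed
import Vale.Agent.P356.Defs
import Vale.Agent.P356.SpreadDefs

set_option linter.all false

section

section

namespace Vale.Agent.P356

/-- four Ising spins at one site -/
abbrev S4 := Fin 2 × Fin 2 × Fin 2 × Fin 2

/-- integer Ising sign -/
def sz (s : Fin 2) : ℤ := if s = 0 then 1 else -1

/-- the four rotated spin variables -/
def phi (a : Fin 4) (s : S4) : ℤ :=
  match a with
  | 0 => (sz s.1 + sz s.2.1 + sz s.2.2.1 + sz s.2.2.2) / 2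
  | 1 => (sz s.1 + sz s.2.1 - sz s.2.2.1 - sz s.2.2.2) / 2
  | 2 => (sz s.1 - sz s.2.1 + sz s.2.2.1 - sz s.2.2.2) / 2
  | 3 => (- sz s.1 + sz s.2.1 + sz s.2.2.1 - sz s.2.2.2) / 2

def fe (a : Fin 4) (s : S4) : ℤ := if phi a s = 2 ∨ phi a s = -2 then 1 else 0
def fo (a : Fin 4) (s : S4) : ℤ := if phi a s = 2 then 1 else if phi a s = -2 then -1 else 0
def ty (s : S4) : ℤ := if phi 0 s = 1 ∨ phi 0 s = -1 then 1 else 0

/-- the orthogonal basis of functions on four spins -/
def fb (k : Fin 16) (s : S4) : ℤ :=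
  match k with
  | 0 => fe 0 s | 1 => fe 1 s | 2 => fe 2 s | 3 => fe 3 s
  | 4 => fo 0 s | 5 => fo 1 s | 6 => fo 2 s | 7 => fo 3 s
  | 8 => ty s
  | 9 => ty s * phi 0 s | 10 => ty s * phi 1 s | 11 => ty s * phi 2 s | 12 => ty s * phi 3 s
  | 13 => ty s * phi 0 s * phi 1 s | 14 => ty s * phi 0 s * phi 2 s
  | _ => ty s * phi 0 s * phi 3 s

/-- weights: eight divided by the squared norms -/
def wt (k : Fin 16) : ℤ := if k.val < 8 then 4 else 1

def perm12 (k : Fin 16) : Fin 16 :=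
  match k with
  | 2 => 3 | 3 => 2 | 6 => 7 | 7 => 6 | 11 => 12 | 12 => 11 | 14 => 15 | 15 => 14
  | k => k

def dsign (k : Fin 16) : ℤ :=
  match k with
  | 6 => -1 | 7 => -1 | 11 => -1 | 12 => -1 | 14 => -1 | 15 => -1
  | _ => 1

def swap12 (s : S4) : S4 := (s.2.1, s.1, s.2.2.1, s.2.2.2)
def swap34 (s : S4) : S4 := (s.1, s.2.1, s.2.2.2, s.2.2.1)

def g1 : S4 := (1, 0, 0, 0)
def g2 : S4 := (0, 1, 0, 0)
def g3 : S4 := (0, 0, 1, 0)
def g4 : S4 := (0, 0, 0, 1)

set_option maxRecDepth 100000 in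
theorem fb_orth : ∀ k k' : Fin 16, k ≠ k' → ∑ s : S4, fb k s * fb k' s = 0 := by
  (clear * -; decide +kernel)

set_option maxRecDepth 100000 in
theorem fb_complete : ∀ s s' : S4, ∑ k : Fin 16, wt k * fb k s * fb k s' = if s = s' then 8 else 0 := by
  (clear * -; decide +kernel)

set_option maxRecDepth 100000 in
theorem fb_norm_nonneg : ∀ k k' : Fin 16, 0 ≤ ∑ s : S4, fb k s * fb k' s := by
  (clear * -; decide +kernel)

set_option maxRecDepth 100000 in
theorem fb_phi_nonneg : ∀ (a : Fin 4) (k k' : Fin 16), 0 ≤ ∑ s : S4, fb k s * phi a s * fb k' s := by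
  (clear * -; decide +kernel)

set_option maxRecDepth 100000 in
theorem fb_phi_sq_nonneg : ∀ (a : Fin 4) (k k' : Fin 16),
    0 ≤ ∑ s : S4, fb k s * (phi a s * phi a s) * fb k' s := by
  (clear * -; decide +kernel)

set_option maxRecDepth 100000 in
theorem fb_flip_nonneg : ∀ (k k' : Fin 16),
    0 ≤ ∑ s : S4, fb k s * (fb k' (s + g1) + fb k' (s + g2) + fb k' (s + g3) + fb k' (s + g4)) := by
  (clear * -; decide +kernel)

set_option maxRecDepth 100000 in
theorem fb_perm : ∀ (k : Fin 16) (s : S4), fb (perm12 k) s = fb k (swap12 s) := by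
  (clear * -; decide +kernel)

set_option maxRecDepth 100000 in
theorem fb_dsign : ∀ (k : Fin 16) (s : S4), fb k (swap12 (swap34 s)) = dsign k * fb k s := by
  (clear * -; decide +kernel)

set_option maxRecDepth 100000 in
theorem phi_sq_sum : ∀ (s t : S4), ∑ a : Fin 4, phi a s * phi a t =
    sz s.1 * sz t.1 + sz s.2.1 * sz t.2.1 + sz s.2.2.1 * sz t.2.2.1 + sz s.2.2.2 * sz t.2.2.2 := by
  (clear * -; decide +kernel)

theorem phi01 : ∀ (s : S4), phi 0 s + phi 1 s = sz s.1 + sz s.2.1 ∧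
    phi 0 s - phi 1 s = sz s.2.2.1 + sz s.2.2.2 := by
  (clear * -; decide +kernel)

theorem perm12_invol : ∀ k, perm12 (perm12 k) = k := by (clear * -; decide +kernel)

end Vale.Agent.P356
end
end

section

section

namespace Vale.Agent.P356
open Finset

variable {V : Type*} [Fintype V] [DecidableEq V]

/-- product basis function -/
noncomputable def FB (k : V → Fin 16) (c : V → S4) : ℝ := ∏ x, (fb (k x) (c x) : ℝ)

lemma tensor_form (o : V → S4 → S4 → ℝ) (k k' : V → Fin 16) :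
    ∑ c : V → S4, ∑ c' : V → S4, FB k c * (∏ x, o x (c x) (c' x)) * FB k' c' =
      ∏ x, ∑ s, ∑ s', (fb (k x) s : ℝ) * o x s s' * (fb (k' x) s' : ℝ) := by
  rw [Fintype.prod_sum]
  refine Finset.sum_congr rfl fun c _ => ?_
  rw [Fintype.prod_sum]
  refine Finset.sum_congr rfl fun c' _ => ?_
  simp only [FB, prod_mul_distrib]

lemma FB_orth (k k' : V → Fin 16) (h : k ≠ k') : ∑ c : V → S4, FB k c * FB k' c = 0 := by
  obtain ⟨x, hx⟩ := Function.ne_iff.mp h
  have : ∑ c : V → S4, FB k c * FB k' c = ∏ x, ∑ s, (fb (k x) s : ℝ) * (fb (k' x) s : ℝ) := by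
    rw [Fintype.prod_sum]
    refine Finset.sum_congr rfl fun c _ => ?_
    simp only [FB, Finset.prod_mul_distrib]
  rw [this]
  refine Finset.prod_eq_zero (Finset.mem_univ x) ?_
  have := fb_orth (k x) (k' x) hx
  exact_mod_cast this

/-- inverse squared norms of the product basis -/
noncomputable def WT (k : V → Fin 16) : ℝ := ∏ x, ((wt (k x) : ℝ) / 8)

lemma FB_complete (c c' : V → S4) : ∑ k : V → Fin 16, WT k * FB k c * FB k c' = if c = c' then 1 else 0 := by
  have h1 : ∑ k : V → Fin 16, WT k * FB k c * FB k c' =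
      ∏ x, ∑ i : Fin 16, ((wt i : ℝ) / 8) * (fb i (c x) : ℝ) * (fb i (c' x) : ℝ) := by
    rw [Fintype.prod_sum]
    refine Finset.sum_congr rfl fun k _ => ?_
    simp only [FB, WT, Finset.prod_mul_distrib]
  have h2 : ∀ s s' : S4, ∑ i : Fin 16, ((wt i : ℝ) / 8) * (fb i s : ℝ) * (fb i s' : ℝ) =
      if s = s' then 1 else 0 := by
    intro s s'
    have h3 : ∑ i : Fin 16, ((wt i : ℝ) / 8) * (fb i s : ℝ) * (fb i s' : ℝ) =
      (∑ i : Fin 16, (wt i : ℝ) * (fb i s : ℝ) * (fb i s' : ℝ)) / 8 := by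
      rw [Finset.sum_div]
      refine Finset.sum_congr rfl fun k _ => ?_
      ring
    have h4 : (∑ i : Fin 16, (wt i : ℝ) * (fb i s : ℝ) * (fb i s' : ℝ)) = if s = s' then 8 else 0 := by
      have := fb_complete s s'
      exact_mod_cast this
    rw [h3, h4]
    split_ifs <;> norm_num
  rw [h1]
  simp only [h2]
  split_ifs with h
  · subst h; simp only [↓reduceIte, prod_const_one]
  · obtain ⟨x, hx⟩ := Function.ne_iff.mp h
    exact Finset.prod_eq_zero (Finset.mem_univ x) (by simp [hx])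

/-- coefficients in the product basis -/
noncomputable def coef (Ψ : (V → S4) → ℝ) (k : V → Fin 16) : ℝ := WT k * ∑ c, FB k c * Ψ c

/-- the vector with absolute values of the coefficients -/
noncomputable def absV (Ψ : (V → S4) → ℝ) (c : V → S4) : ℝ := ∑ k, |coef Ψ k| * FB k c

lemma expand (Ψ : (V → S4) → ℝ) (c : V → S4) : Ψ c = ∑ k, coef Ψ k * FB k c := by
  unfold coef
  have : ∑ k : V → Fin 16, (WT k * ∑ c', FB k c' * Ψ c') * FB k c =
      ∑ c', (∑ k : V → Fin 16, WT k * FB k c' * FB k c) * Ψ c' := by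
    simp only [Finset.mul_sum, Finset.sum_mul]
    rw [Finset.sum_comm]
    refine Finset.sum_congr rfl fun c' _ => ?_
    refine Finset.sum_congr rfl fun k _ => ?_
    ring
  rw [this]
  simp only [FB_complete, ite_mul, one_mul, zero_mul, sum_ite_eq', mem_univ, ↓reduceIte]

/-- A kernel is `good` when its matrix in the product basis is entrywise nonnegative. -/
def Good (O : (V → S4) → (V → S4) → ℝ) : Prop :=
  ∀ k k' : V → Fin 16, 0 ≤ ∑ c, ∑ c', FB k c * O c c' * FB k' c'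

lemma good_tensor (o : V → S4 → S4 → ℝ)
    (h : ∀ x (i j : Fin 16), 0 ≤ ∑ s, ∑ s', (fb i s : ℝ) * o x s s' * (fb j s' : ℝ)) :
    Good (fun c c' => ∏ x, o x (c x) (c' x)) := by
  intro k k'
  rw [tensor_form]
  exact Finset.prod_nonneg fun x _ => h x _ _

lemma form_expand (O : (V → S4) → (V → S4) → ℝ) (a : (V → Fin 16) → ℝ) (Φ : (V → S4) → ℝ)
    (hΦ : ∀ c, Φ c = ∑ k, a k * FB k c) :
    ∑ c, ∑ c', Φ c * O c c' * Φ c' =
      ∑ k, ∑ k', a k * a k' * ∑ c, ∑ c', FB k c * O c c' * FB k' c' := by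
  simp only [hΦ]
  simp only [Finset.mul_sum, Finset.sum_mul]
  -- LHS: ∑ c, ∑ c', ∑ k', ∑ k
  calc ∑ c, ∑ c', ∑ k', ∑ k, a k * FB k c * O c c' * (a k' * FB k' c')
      = ∑ c, ∑ k, ∑ k', ∑ c', a k * FB k c * O c c' * (a k' * FB k' c') := by
        refine Finset.sum_congr rfl fun c _ => ?_
        rw [Finset.sum_comm]
        have : ∀ k' : V → Fin 16, ∑ c', ∑ k, a k * FB k c * O c c' * (a k' * FB k' c') =
          ∑ k, ∑ c', a k * FB k c * O c c' * (a k' * FB k' c') := fun k' => Finset.sum_comm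
        simp only [this]
        rw [Finset.sum_comm]
    _ = ∑ k, ∑ k', ∑ c, ∑ c', a k * FB k c * O c c' * (a k' * FB k' c') := by
        rw [Finset.sum_comm]
        refine Finset.sum_congr rfl fun k _ => ?_
        rw [Finset.sum_comm]
    _ = _ := by
        refine Finset.sum_congr rfl fun k _ => ?_
        refine Finset.sum_congr rfl fun k' _ => ?_
        refine Finset.sum_congr rfl fun c _ => ?_
        refine Finset.sum_congr rfl fun c' _ => ?_
        ring

lemma good_abs (O : (V → S4) → (V → S4) → ℝ) (hO : Good O) (Ψ : (V → S4) → ℝ) :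
    ∑ c, ∑ c', Ψ c * O c c' * Ψ c' ≤ ∑ c, ∑ c', absV Ψ c * O c c' * absV Ψ c' := by
  rw [form_expand O (coef Ψ) Ψ (expand Ψ), form_expand O (fun k => |coef Ψ k|) (absV Ψ) (fun _ => rfl)]
  refine Finset.sum_le_sum fun k _ => Finset.sum_le_sum fun k' _ => ?_
  refine mul_le_mul_of_nonneg_right ?_ (hO k k')
  rw [← abs_mul]
  exact le_abs_self _

lemma norm_expand (a : (V → Fin 16) → ℝ) (Φ : (V → S4) → ℝ)
    (hΦ : ∀ c, Φ c = ∑ k, a k * FB k c) :
    ∑ c, Φ c ^ 2 = ∑ k, a k ^ 2 * ∑ c, FB k c ^ 2 := by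
  have h := form_expand (V := V) (fun c c' => if c = c' then 1 else 0) a Φ hΦ
  have h1 : ∑ c : V → S4, ∑ c', Φ c * (if c = c' then 1 else 0) * Φ c' = ∑ c, Φ c ^ 2 := by
    refine Finset.sum_congr rfl fun c _ => ?_
    simp [pow_two]
  have h2 : ∀ k k' : V → Fin 16, ∑ c : V → S4, ∑ c', FB k c * (if c = c' then 1 else 0) * FB k' c' =
      ∑ c, FB k c * FB k' c := by
    intro k k'
    refine Finset.sum_congr rfl fun c _ => ?_
    simp only [mul_ite, mul_one, mul_zero, ite_mul, zero_mul, sum_ite_eq, mem_univ, ↓reduceIte]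
  rw [h1] at h
  rw [h]
  refine Finset.sum_congr rfl fun k _ => ?_
  rw [Finset.sum_eq_single k]
  · rw [h2]; simp only [pow_two]
  · intro k' _ hk'
    rw [h2, FB_orth k k' (Ne.symm hk')]; simp
  · simp

lemma norm_abs (Ψ : (V → S4) → ℝ) : ∑ c, absV Ψ c ^ 2 = ∑ c, Ψ c ^ 2 := by
  rw [norm_expand (coef Ψ) Ψ (expand Ψ), norm_expand (fun k => |coef Ψ k|) (absV Ψ) (fun _ => rfl)]
  simp only [sq_abs]

/-- sitewise action on configurations -/
def site (π : S4 → S4) (c : V → S4) : V → S4 := fun x => π (c x)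

/-- sitewise swap as an equivalence -/
def swapE (V : Type*) : (V → S4) ≃ (V → S4) where
  toFun := site swap12
  invFun := site swap12
  left_inv c := by funext x; rfl
  right_inv c := by funext x; rfl

def swap1234E (V : Type*) : (V → S4) ≃ (V → S4) where
  toFun := site (fun s => swap12 (swap34 s))
  invFun := site (fun s => swap12 (swap34 s))
  left_inv c := by funext x; rfl
  right_inv c := by funext x; rfl

def permE (V : Type*) : (V → Fin 16) ≃ (V → Fin 16) where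
  toFun k := fun x => perm12 (k x)
  invFun k := fun x => perm12 (k x)
  left_inv k := by funext x; exact perm12_invol _
  right_inv k := by funext x; exact perm12_invol _

lemma FB_perm (k : V → Fin 16) (c : V → S4) : FB (permE V k) c = FB k (swapE V c) := by
  unfold FB
  refine Finset.prod_congr rfl fun x _ => ?_
  have := fb_perm (k x) (c x)
  show ((fb (perm12 (k x)) (c x) : ℤ) : ℝ) = ((fb (k x) (swap12 (c x)) : ℤ) : ℝ)
  rw [this]

noncomputable def DS (k : V → Fin 16) : ℝ := ∏ x, (dsign (k x) : ℝ)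

lemma FB_dsign (k : V → Fin 16) (c : V → S4) : FB k (swap1234E V c) = DS k * FB k c := by
  unfold FB DS
  rw [← Finset.prod_mul_distrib]
  refine Finset.prod_congr rfl fun x _ => ?_
  have := fb_dsign (k x) (c x)
  show ((fb (k x) (swap12 (swap34 (c x))) : ℤ) : ℝ) = _
  rw [this]; push_cast; rfl

lemma wt_perm (i : Fin 16) : wt (perm12 i) = wt i := by
  revert i; (clear * -; decide +kernel)

lemma WT_perm (k : V → Fin 16) : WT (permE V k) = WT k := by
  unfold WT
  refine Finset.prod_congr rfl fun x _ => ?_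
  show ((wt (perm12 (k x)) : ℤ) : ℝ) / 8 = _
  rw [wt_perm]

/-- If `Ψ` is odd under the swap of copies 1,2 then `absV Ψ` is even. -/
lemma absV_swap12 (Ψ : (V → S4) → ℝ) (h : ∀ c, Ψ (swapE V c) = - Ψ c) (c : V → S4) :
    absV Ψ (swapE V c) = absV Ψ c := by
  have hc : ∀ k, coef Ψ (permE V k) = - coef Ψ k := by
    intro k
    unfold coef
    rw [WT_perm]
    have : ∑ c, FB (permE V k) c * Ψ c = - ∑ c, FB k c * Ψ c := by
      rw [← Finset.sum_neg_distrib]
      refine Fintype.sum_equiv (swapE V) _ _ fun c => ?_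
      rw [FB_perm, h]; ring
    rw [this]; ring
  unfold absV
  have h1 : ∑ k, |coef Ψ k| * FB k (swapE V c) = ∑ k, |coef Ψ (permE V k)| * FB (permE V k) c := by
    refine Finset.sum_congr rfl fun k _ => ?_
    rw [hc, abs_neg, FB_perm]
  rw [h1]
  exact Fintype.sum_equiv (permE V) _ _ (fun k => rfl)

lemma absV_swap1234 (Ψ : (V → S4) → ℝ) (h : ∀ c, Ψ (swap1234E V c) = - Ψ c) (c : V → S4) :
    absV Ψ (swap1234E V c) = - absV Ψ c := by
  have hc : ∀ k, DS k * coef Ψ k = - coef Ψ k := by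
    intro k
    unfold coef
    have : ∑ c, FB k c * Ψ c = - (DS k * ∑ c, FB k c * Ψ c) := by
      rw [Finset.mul_sum, ← Finset.sum_neg_distrib]
      refine (Fintype.sum_equiv (swap1234E V) _ _ fun c => ?_).symm
      rw [h, FB_dsign]; ring
    linear_combination (WT k) * this
  unfold absV
  rw [← Finset.sum_neg_distrib]
  refine Finset.sum_congr rfl fun k _ => ?_
  rw [FB_dsign]
  by_cases h0 : coef Ψ k = 0
  · simp [h0]
  · have : DS k = -1 := by
      have := hc k
      have h2 : (DS k + 1) * coef Ψ k = 0 := by linear_combination this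
      rcases mul_eq_zero.mp h2 with h3 | h3
      · linarith
      · exact absurd h3 h0
    rw [this]; ring

end Vale.Agent.P356
end
end

section

section

namespace Vale.Agent.P356
open Finset

variable {V : Type*} [Fintype V] [DecidableEq V]

/-- real Ising sign -/
noncomputable def sg (s : Fin 2) : ℝ := (sz s : ℝ)

/-- spin flip at a site -/
def flipC (x : V) (s : V → Fin 2) : V → Fin 2 := s + Pi.single x 1

/-- bilinear Ising energy form -/
noncomputable def BI (J : V → V → ℝ) (h b : V → ℝ) (f g : (V → Fin 2) → ℝ) : ℝ :=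
  - ∑ s, ((∑ x, ∑ y, J x y * (sg (s x) * sg (s y))) + ∑ x, b x * sg (s x)) * (f s * g s)
    - ∑ x, h x * ∑ s, f s * g (flipC x s)

/-- four configurations combined -/
def mk4 (c1 c2 c3 c4 : V → Fin 2) : V → S4 := fun x => (c1 x, c2 x, c3 x, c4 x)

def e4 (V : Type*) : (V → S4) ≃ (V → Fin 2) × (V → Fin 2) × (V → Fin 2) × (V → Fin 2) where
  toFun c := (fun x => (c x).1, fun x => (c x).2.1, fun x => (c x).2.2.1, fun x => (c x).2.2.2)
  invFun p := mk4 p.1 p.2.1 p.2.2.1 p.2.2.2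
  left_inv c := rfl
  right_inv p := rfl

lemma sum4 (f : (V → S4) → ℝ) :
    ∑ c, f c = ∑ c1, ∑ c2, ∑ c3, ∑ c4, f (mk4 c1 c2 c3 c4) := by
  rw [Fintype.sum_equiv (e4 V) f (fun p => f (mk4 p.1 p.2.1 p.2.2.1 p.2.2.2)) (fun c => rfl)]
  rw [Fintype.sum_prod_type]
  refine Finset.sum_congr rfl fun c1 _ => ?_
  rw [Fintype.sum_prod_type]
  refine Finset.sum_congr rfl fun c2 _ => ?_
  rw [Fintype.sum_prod_type]

/-! ### Good kernels -/

lemma diag_prod (w : V → S4 → ℝ) (c c' : V → S4) :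
    ∏ z, (if c z = c' z then w z (c z) else 0) = if c = c' then ∏ z, w z (c z) else 0 := by
  by_cases h : c = c'
  · subst h; simp only [↓reduceIte]
  · rw [if_neg h]
    obtain ⟨z, hz⟩ := Function.ne_iff.mp h
    exact Finset.prod_eq_zero (Finset.mem_univ z) (by simp [hz])

lemma good_diag (w : V → S4 → ℝ)
    (h : ∀ x (i j : Fin 16), 0 ≤ ∑ s, (fb i s : ℝ) * w x s * (fb j s : ℝ)) :
    Good (fun c c' : V → S4 => if c = c' then ∏ z, w z (c z) else 0) := by
  have := good_tensor (V := V) (fun x s s' => if s = s' then w x s else 0) (by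
    intro x i j
    have := h x i j
    convert this using 2 with s
    simp)
  convert this using 4 with c c'
  exact (diag_prod w c c').symm

lemma form_diag (w : (V → S4) → ℝ) (G : (V → S4) → ℝ) :
    ∑ c, ∑ c', G c * (if c = c' then w c else 0) * G c' = ∑ c, w c * G c ^ 2 := by
  refine Finset.sum_congr rfl fun c _ => ?_
  simp only [mul_ite, mul_zero, ite_mul, zero_mul, sum_ite_eq, mem_univ, ↓reduceIte]
  ring

lemma mono_PP (a : Fin 4) (x y : V) (Ψ : (V → S4) → ℝ) :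
    ∑ c, ((phi a (c x) : ℝ) * (phi a (c y) : ℝ)) * Ψ c ^ 2 ≤
      ∑ c, ((phi a (c x) : ℝ) * (phi a (c y) : ℝ)) * absV Ψ c ^ 2 := by
  have hg := good_diag (V := V)
    (fun z s => (if z = x then (phi a s : ℝ) else 1) * (if z = y then (phi a s : ℝ) else 1)) (by
      intro z i j
      by_cases hx : z = x
      · by_cases hy : z = y
        · have := fb_phi_sq_nonneg a i j
          simp only [hx, if_true]
          subst hx; subst hy
          simp only [if_true]
          exact_mod_cast this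
        · have := fb_phi_nonneg a i j
          simp only [hx, if_true]
          subst hx
          simp only [hy, if_false, mul_one]
          exact_mod_cast this
      · by_cases hy : z = y
        · have := fb_phi_nonneg a i j
          simp only [if_neg hx, if_pos hy, one_mul]
          exact_mod_cast this
        · have := fb_norm_nonneg i j
          simp only [hx, if_false, hy, mul_one]
          exact_mod_cast this)
  have h := good_abs _ hg Ψ
  rw [form_diag, form_diag] at h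
  have hp : ∀ c : V → S4, ∏ z, ((if z = x then (phi a (c z) : ℝ) else 1) *
      (if z = y then (phi a (c z) : ℝ) else 1)) = (phi a (c x) : ℝ) * (phi a (c y) : ℝ) := by
    intro c
    rw [Finset.prod_mul_distrib]
    simp only [prod_ite_eq', mem_univ, ↓reduceIte]
  simpa only [hp] using h

lemma mono_P (a : Fin 4) (x : V) (Ψ : (V → S4) → ℝ) :
    ∑ c, (phi a (c x) : ℝ) * Ψ c ^ 2 ≤ ∑ c, (phi a (c x) : ℝ) * absV Ψ c ^ 2 := by
  have hg := good_diag (V := V)
    (fun z s => (if z = x then (phi a s : ℝ) else 1)) (by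
      intro z i j
      by_cases hx : z = x
      · have := fb_phi_nonneg a i j
        simp only [hx, if_true]
        exact_mod_cast this
      · have := fb_norm_nonneg i j
        simp only [hx, if_false, mul_one]
        exact_mod_cast this)
  have h := good_abs _ hg Ψ
  rw [form_diag, form_diag] at h
  have hp : ∀ c : V → S4, ∏ z, ((if z = x then (phi a (c z) : ℝ) else 1)) = (phi a (c x) : ℝ) := by
    intro c
    simp only [prod_ite_eq', mem_univ, ↓reduceIte]
  simpa only [hp] using h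

/-- single site kernel of the sum of the four flips -/
noncomputable def fk (s s' : S4) : ℝ :=
  (if s' = s + g1 then 1 else 0) + (if s' = s + g2 then 1 else 0) +
    (if s' = s + g3 then 1 else 0) + (if s' = s + g4 then 1 else 0)

noncomputable def FK (x : V) (c c' : V → S4) : ℝ :=
  (if c' = c + Pi.single x g1 then 1 else 0) + (if c' = c + Pi.single x g2 then 1 else 0) +
    (if c' = c + Pi.single x g3 then 1 else 0) + (if c' = c + Pi.single x g4 then 1 else 0)

lemma flip_prod (x : V) (c c' : V → S4) :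
    ∏ z, (if z = x then fk (c z) (c' z) else if c z = c' z then 1 else 0) = FK x c c' := by
  by_cases hall : ∀ z, z ≠ x → c z = c' z
  · rw [Finset.prod_eq_single x]
    · simp only [if_true]
      have key : ∀ g : S4, (c' = c + Pi.single x g) ↔ (c' x = c x + g) := by
        intro g
        constructor
        · intro h; rw [h]; simp
        · intro h
          funext z
          by_cases hz : z = x
          · subst hz; simp [h]
          · simp [hz, hall z hz]
      simp only [fk, FK, key]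
    · intro z _ hz
      simp [hz, hall z hz]
    · simp only [mem_univ, not_true_eq_false, ↓reduceIte, IsEmpty.forall_iff]
  · push Not at hall
    obtain ⟨z, hz, hne⟩ := hall
    rw [Finset.prod_eq_zero (Finset.mem_univ z) (by simp [hz, hne])]
    have key : ∀ g : S4, ¬ (c' = c + Pi.single x g) := by
      intro g h
      apply hne
      rw [h]
      simp [hz]
    simp [FK, key]

lemma good_flip (x : V) : Good (FK x) := by
  have := good_tensor (V := V) (fun z s s' => if z = x then fk s s' else if s = s' then 1 else 0) (by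
    intro z i j
    by_cases hz : z = x
    · simp only [hz, if_true]
      have h1 := fb_flip_nonneg i j
      have h2 : ∑ s, ∑ s', (fb i s : ℝ) * fk s s' * (fb j s' : ℝ) =
        ((∑ s : S4, fb i s * (fb j (s + g1) + fb j (s + g2) + fb j (s + g3) + fb j (s + g4)) : ℤ) : ℝ) := by
        push_cast
        refine Finset.sum_congr rfl fun s _ => ?_
        have : ∀ g : S4, ∑ s', (fb i s : ℝ) * (if s' = s + g then 1 else 0) * (fb j s' : ℝ) =
          (fb i s : ℝ) * (fb j (s + g) : ℝ) := by intro g; simp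
        simp only [fk, mul_add, add_mul, Finset.sum_add_distrib, this]
      rw [h2]
      exact_mod_cast h1
    · simp only [hz, if_false]
      have h1 := fb_norm_nonneg i j
      have h2 : ∑ s, ∑ s', (fb i s : ℝ) * (if s = s' then 1 else 0) * (fb j s' : ℝ) =
        ((∑ s : S4, fb i s * fb j s : ℤ) : ℝ) := by
        push_cast
        refine Finset.sum_congr rfl fun s _ => ?_
        simp
      rw [h2]
      exact_mod_cast h1)
  convert this using 2 with c
  funext c'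
  exact (flip_prod x c c').symm

lemma form_flip (x : V) (G : (V → S4) → ℝ) :
    ∑ c, ∑ c', G c * FK x c c' * G c' =
      ∑ c, G c * (G (c + Pi.single x g1) + G (c + Pi.single x g2) + G (c + Pi.single x g3)
        + G (c + Pi.single x g4)) := by
  refine Finset.sum_congr rfl fun c _ => ?_
  have : ∀ d : V → S4, ∑ c', G c * (if c' = d then 1 else 0) * G c' = G c * G d := by
    intro d; simp
  simp only [FK, mul_add, add_mul, Finset.sum_add_distrib, this]

lemma mono_T (x : V) (Ψ : (V → S4) → ℝ) :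
    ∑ c, Ψ c * (Ψ (c + Pi.single x g1) + Ψ (c + Pi.single x g2) + Ψ (c + Pi.single x g3)
        + Ψ (c + Pi.single x g4)) ≤
      ∑ c, absV Ψ c * (absV Ψ (c + Pi.single x g1) + absV Ψ (c + Pi.single x g2)
        + absV Ψ (c + Pi.single x g3) + absV Ψ (c + Pi.single x g4)) := by
  rw [← form_flip, ← form_flip]
  exact good_abs _ (good_flip x) Ψ

/-- total energy form of four copies, fields `b'` on copies 1,2 and `b` on copies 3,4 -/
noncomputable def Tot (J : V → V → ℝ) (h b' b : V → ℝ) (G : (V → S4) → ℝ) : ℝ :=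
  - (∑ x, ∑ y, J x y * ∑ a : Fin 4, ∑ c, ((phi a (c x) : ℝ) * (phi a (c y) : ℝ)) * G c ^ 2)
  - (∑ x, (b' x + b x) * ∑ c, (phi 0 (c x) : ℝ) * G c ^ 2)
  - (∑ x, (b' x - b x) * ∑ c, (phi 1 (c x) : ℝ) * G c ^ 2)
  - ∑ x, h x * ∑ c, G c * (G (c + Pi.single x g1) + G (c + Pi.single x g2) + G (c + Pi.single x g3)
        + G (c + Pi.single x g4))

lemma Tot_abs (J : V → V → ℝ) (h b' b : V → ℝ) (hJ : ∀ x y, 0 ≤ J x y) (hh : ∀ x, 0 ≤ h x)
    (hb : ∀ x, 0 ≤ b x) (hb' : ∀ x, b x ≤ b' x) (Ψ : (V → S4) → ℝ) :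
    Tot J h b' b (absV Ψ) ≤ Tot J h b' b Ψ := by
  unfold Tot
  have h1 : ∑ x, ∑ y, J x y * ∑ a : Fin 4, ∑ c, ((phi a (c x) : ℝ) * (phi a (c y) : ℝ)) * Ψ c ^ 2 ≤
      ∑ x, ∑ y, J x y * ∑ a : Fin 4, ∑ c, ((phi a (c x) : ℝ) * (phi a (c y) : ℝ)) * absV Ψ c ^ 2 :=
    Finset.sum_le_sum fun x _ => Finset.sum_le_sum fun y _ =>
      mul_le_mul_of_nonneg_left (Finset.sum_le_sum fun a _ => mono_PP a x y Ψ) (hJ x y)
  have h2 : ∑ x, (b' x + b x) * ∑ c, (phi 0 (c x) : ℝ) * Ψ c ^ 2 ≤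
      ∑ x, (b' x + b x) * ∑ c, (phi 0 (c x) : ℝ) * absV Ψ c ^ 2 :=
    Finset.sum_le_sum fun x _ => mul_le_mul_of_nonneg_left (mono_P 0 x Ψ)
      (by have := hb x; have := hb' x; (clear J h hJ hh Ψ h1; linarith))
  have h3 : ∑ x, (b' x - b x) * ∑ c, (phi 1 (c x) : ℝ) * Ψ c ^ 2 ≤
      ∑ x, (b' x - b x) * ∑ c, (phi 1 (c x) : ℝ) * absV Ψ c ^ 2 :=
    Finset.sum_le_sum fun x _ => mul_le_mul_of_nonneg_left (mono_P 1 x Ψ)
      (by have := hb' x; linarith)
  have h4 := Finset.sum_le_sum fun (x : V) (_ : x ∈ Finset.univ) =>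
    mul_le_mul_of_nonneg_left (mono_T x Ψ) (hh x)
  linarith only [h1, h2, h3, h4]

end Vale.Agent.P356
end
end

section

section

namespace Vale.Agent.P356
open Finset

variable {V : Type*} [Fintype V] [DecidableEq V]

lemma sum4_1 (f : (V → S4) → ℝ) :
    ∑ c, f c = ∑ c2, ∑ c3, ∑ c4, ∑ c1, f (mk4 c1 c2 c3 c4) := by
  rw [sum4, Finset.sum_comm]
  refine Finset.sum_congr rfl fun c2 _ => ?_
  rw [Finset.sum_comm]
  refine Finset.sum_congr rfl fun c3 _ => ?_
  rw [Finset.sum_comm]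

lemma sum4_2 (f : (V → S4) → ℝ) :
    ∑ c, f c = ∑ c1, ∑ c3, ∑ c4, ∑ c2, f (mk4 c1 c2 c3 c4) := by
  rw [sum4]
  refine Finset.sum_congr rfl fun c1 _ => ?_
  rw [Finset.sum_comm]
  refine Finset.sum_congr rfl fun c3 _ => ?_
  rw [Finset.sum_comm]

lemma sum4_3 (f : (V → S4) → ℝ) :
    ∑ c, f c = ∑ c1, ∑ c2, ∑ c4, ∑ c3, f (mk4 c1 c2 c3 c4) := by
  rw [sum4]
  refine Finset.sum_congr rfl fun c1 _ => ?_
  refine Finset.sum_congr rfl fun c2 _ => ?_
  rw [Finset.sum_comm]

lemma mk4_flip1 (x : V) (c1 c2 c3 c4 : V → Fin 2) :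
    mk4 (flipC x c1) c2 c3 c4 = mk4 c1 c2 c3 c4 + Pi.single x g1 := by
  funext z
  by_cases hz : z = x
  · subst hz; simp [mk4, flipC, g1]
  · simp [mk4, flipC, g1, hz]

lemma mk4_flip2 (x : V) (c1 c2 c3 c4 : V → Fin 2) :
    mk4 c1 (flipC x c2) c3 c4 = mk4 c1 c2 c3 c4 + Pi.single x g2 := by
  funext z
  by_cases hz : z = x
  · subst hz; simp [mk4, flipC, g2]
  · simp [mk4, flipC, g2, hz]

lemma mk4_flip3 (x : V) (c1 c2 c3 c4 : V → Fin 2) :
    mk4 c1 c2 (flipC x c3) c4 = mk4 c1 c2 c3 c4 + Pi.single x g3 := by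
  funext z
  by_cases hz : z = x
  · subst hz; simp [mk4, flipC, g3]
  · simp [mk4, flipC, g3, hz]

lemma mk4_flip4 (x : V) (c1 c2 c3 c4 : V → Fin 2) :
    mk4 c1 c2 c3 (flipC x c4) = mk4 c1 c2 c3 c4 + Pi.single x g4 := by
  funext z
  by_cases hz : z = x
  · subst hz; simp [mk4, flipC, g4]
  · simp [mk4, flipC, g4, hz]

/-- one copy of the energy form inside the four copy space -/
noncomputable def Qg (J : V → V → ℝ) (h b : V → ℝ) (p : S4 → Fin 2) (g : S4)
    (G : (V → S4) → ℝ) : ℝ :=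
  - ∑ c, ((∑ x, ∑ y, J x y * (sg (p (c x)) * sg (p (c y)))) + ∑ x, b x * sg (p (c x))) * (G c * G c)
    - ∑ x, h x * ∑ c, G c * G (c + Pi.single x g)

lemma Qg_1 (J : V → V → ℝ) (h b : V → ℝ) (G : (V → S4) → ℝ) :
    Qg J h b (fun s => s.1) g1 G = ∑ c2, ∑ c3, ∑ c4,
      BI J h b (fun c1 => G (mk4 c1 c2 c3 c4)) (fun c1 => G (mk4 c1 c2 c3 c4)) := by
  simp only [Qg, BI, mk4_flip1, Finset.sum_sub_distrib, Finset.sum_neg_distrib]
  congr 1
  · rw [sum4_1]; rfl
  · have : ∀ x, ∑ c, G c * G (c + Pi.single x g1) =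
      ∑ c2, ∑ c3, ∑ c4, ∑ c1, G (mk4 c1 c2 c3 c4) * G (mk4 c1 c2 c3 c4 + Pi.single x g1) :=
      fun x => sum4_1 _
    simp only [this, mul_sum]
    rw [Finset.sum_comm]
    refine Finset.sum_congr rfl fun c2 _ => ?_
    rw [Finset.sum_comm]
    refine Finset.sum_congr rfl fun c3 _ => ?_
    rw [Finset.sum_comm]

lemma Qg_2 (J : V → V → ℝ) (h b : V → ℝ) (G : (V → S4) → ℝ) :
    Qg J h b (fun s => s.2.1) g2 G = ∑ c1, ∑ c3, ∑ c4,
      BI J h b (fun c2 => G (mk4 c1 c2 c3 c4)) (fun c2 => G (mk4 c1 c2 c3 c4)) := by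
  simp only [Qg, BI, mk4_flip2, Finset.sum_sub_distrib, Finset.sum_neg_distrib]
  congr 1
  · rw [sum4_2]; rfl
  · have : ∀ x, ∑ c, G c * G (c + Pi.single x g2) =
      ∑ c1, ∑ c3, ∑ c4, ∑ c2, G (mk4 c1 c2 c3 c4) * G (mk4 c1 c2 c3 c4 + Pi.single x g2) :=
      fun x => sum4_2 _
    simp only [this, Finset.mul_sum]
    rw [Finset.sum_comm]
    refine Finset.sum_congr rfl fun c2 _ => ?_
    rw [Finset.sum_comm]
    refine Finset.sum_congr rfl fun c3 _ => ?_
    rw [Finset.sum_comm]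

lemma Qg_3 (J : V → V → ℝ) (h b : V → ℝ) (G : (V → S4) → ℝ) :
    Qg J h b (fun s => s.2.2.1) g3 G = ∑ c1, ∑ c2, ∑ c4,
      BI J h b (fun c3 => G (mk4 c1 c2 c3 c4)) (fun c3 => G (mk4 c1 c2 c3 c4)) := by
  simp only [Qg, BI, mk4_flip3, Finset.sum_sub_distrib, Finset.sum_neg_distrib]
  congr 1
  · rw [sum4_3]; rfl
  · have : ∀ x, ∑ c, G c * G (c + Pi.single x g3) =
      ∑ c1, ∑ c2, ∑ c4, ∑ c3, G (mk4 c1 c2 c3 c4) * G (mk4 c1 c2 c3 c4 + Pi.single x g3) :=
      fun x => sum4_3 _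
    simp only [this, Finset.mul_sum]
    rw [Finset.sum_comm]
    refine Finset.sum_congr rfl fun c2 _ => ?_
    rw [Finset.sum_comm]
    refine Finset.sum_congr rfl fun c3 _ => ?_
    rw [Finset.sum_comm]

lemma Qg_4 (J : V → V → ℝ) (h b : V → ℝ) (G : (V → S4) → ℝ) :
    Qg J h b (fun s => s.2.2.2) g4 G = ∑ c1, ∑ c2, ∑ c3,
      BI J h b (fun c4 => G (mk4 c1 c2 c3 c4)) (fun c4 => G (mk4 c1 c2 c3 c4)) := by
  simp only [Qg, BI, mk4_flip4, Finset.sum_sub_distrib, Finset.sum_neg_distrib]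
  congr 1
  · rw [sum4]; rfl
  · have : ∀ x, ∑ c, G c * G (c + Pi.single x g4) =
      ∑ c1, ∑ c2, ∑ c3, ∑ c4, G (mk4 c1 c2 c3 c4) * G (mk4 c1 c2 c3 c4 + Pi.single x g4) :=
      fun x => sum4 _
    simp only [this, Finset.mul_sum]
    rw [Finset.sum_comm]
    refine Finset.sum_congr rfl fun c2 _ => ?_
    rw [Finset.sum_comm]
    refine Finset.sum_congr rfl fun c3 _ => ?_
    rw [Finset.sum_comm]

lemma Tot_eq (J : V → V → ℝ) (h b' b : V → ℝ) (G : (V → S4) → ℝ) :
    Tot J h b' b G = Qg J h b' (fun s => s.1) g1 G + Qg J h b' (fun s => s.2.1) g2 G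
      + Qg J h b (fun s => s.2.2.1) g3 G + Qg J h b (fun s => s.2.2.2) g4 G := by
  have e1 : ∀ s t : S4, ∑ a : Fin 4, (phi a s : ℝ) * (phi a t : ℝ) =
      sg s.1 * sg t.1 + sg s.2.1 * sg t.2.1 + sg s.2.2.1 * sg t.2.2.1 + sg s.2.2.2 * sg t.2.2.2 := by
    intro s t
    have := phi_sq_sum s t
    unfold sg
    exact_mod_cast this
  have e2 : ∀ s : S4, (phi 0 s : ℝ) + (phi 1 s : ℝ) = sg s.1 + sg s.2.1 := by
    intro s
    have := (phi01 s).1
    unfold sg
    exact_mod_cast this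
  have e3 : ∀ s : S4, (phi 0 s : ℝ) - (phi 1 s : ℝ) = sg s.2.2.1 + sg s.2.2.2 := by
    intro s
    have := (phi01 s).2
    unfold sg
    exact_mod_cast this
  -- diagonal parts
  have d1 : ∑ x, ∑ y, J x y * ∑ a : Fin 4, ∑ c, ((phi a (c x) : ℝ) * (phi a (c y) : ℝ)) * G c ^ 2 =
      ∑ c, (∑ x, ∑ y, J x y * (sg (c x).1 * sg (c y).1 + sg (c x).2.1 * sg (c y).2.1
        + sg (c x).2.2.1 * sg (c y).2.2.1 + sg (c x).2.2.2 * sg (c y).2.2.2)) * (G c * G c) := by
    have : ∀ x y : V, J x y * ∑ a : Fin 4, ∑ c, ((phi a (c x) : ℝ) * (phi a (c y) : ℝ)) * G c ^ 2 =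
        ∑ c, J x y * (sg (c x).1 * sg (c y).1 + sg (c x).2.1 * sg (c y).2.1
        + sg (c x).2.2.1 * sg (c y).2.2.1 + sg (c x).2.2.2 * sg (c y).2.2.2) * (G c * G c) := by
      intro x y
      rw [Finset.sum_comm, Finset.mul_sum]
      refine Finset.sum_congr rfl fun c _ => ?_
      rw [← Finset.sum_mul, e1]
      ring
    simp only [this, Finset.sum_mul]
    have h1 : ∀ x : V, ∑ y, ∑ c : V → S4, J x y * (sg (c x).1 * sg (c y).1 + sg (c x).2.1 * sg (c y).2.1
        + sg (c x).2.2.1 * sg (c y).2.2.1 + sg (c x).2.2.2 * sg (c y).2.2.2) * (G c * G c) =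
        ∑ c : V → S4, ∑ y, J x y * (sg (c x).1 * sg (c y).1 + sg (c x).2.1 * sg (c y).2.1
        + sg (c x).2.2.1 * sg (c y).2.2.1 + sg (c x).2.2.2 * sg (c y).2.2.2) * (G c * G c) :=
      fun x => Finset.sum_comm
    simp only [h1]
    rw [Finset.sum_comm]
  have d2 : (∑ x, (b' x + b x) * ∑ c, (phi 0 (c x) : ℝ) * G c ^ 2) +
      (∑ x, (b' x - b x) * ∑ c, (phi 1 (c x) : ℝ) * G c ^ 2) =
      ∑ c, (∑ x, (b' x * (sg (c x).1 + sg (c x).2.1) + b x * (sg (c x).2.2.1 + sg (c x).2.2.2)))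
        * (G c * G c) := by
    simp only [Finset.sum_mul]
    rw [Finset.sum_comm, ← Finset.sum_add_distrib]
    refine Finset.sum_congr rfl fun x _ => ?_
    rw [Finset.mul_sum, Finset.mul_sum, ← Finset.sum_add_distrib]
    refine Finset.sum_congr rfl fun c _ => ?_
    rw [← e2, ← e3]
    ring
  have d3 : ∑ x, h x * ∑ c, G c * (G (c + Pi.single x g1) + G (c + Pi.single x g2)
        + G (c + Pi.single x g3) + G (c + Pi.single x g4)) =
      (∑ x, h x * ∑ c, G c * G (c + Pi.single x g1)) + (∑ x, h x * ∑ c, G c * G (c + Pi.single x g2))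
      + (∑ x, h x * ∑ c, G c * G (c + Pi.single x g3)) + (∑ x, h x * ∑ c, G c * G (c + Pi.single x g4)) := by
    simp only [mul_add, Finset.sum_add_distrib]
  have d4 : Tot J h b' b G = - (∑ c, (∑ x, ∑ y, J x y * (sg (c x).1 * sg (c y).1 + sg (c x).2.1 * sg (c y).2.1
        + sg (c x).2.2.1 * sg (c y).2.2.1 + sg (c x).2.2.2 * sg (c y).2.2.2)) * (G c * G c))
      - (∑ c, (∑ x, (b' x * (sg (c x).1 + sg (c x).2.1) + b x * (sg (c x).2.2.1 + sg (c x).2.2.2)))
        * (G c * G c))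
      - ∑ x, h x * ∑ c, G c * (G (c + Pi.single x g1) + G (c + Pi.single x g2)
        + G (c + Pi.single x g3) + G (c + Pi.single x g4)) := by
    rw [← d1, ← d2]
    unfold Tot
    ring
  rw [d4, d3]
  unfold Qg
  simp only [mul_add, Finset.sum_add_distrib, add_mul]
  ring

/-! ### elementary properties of the energy form -/

lemma BI_lin (J : V → V → ℝ) (h b : V → ℝ) (f g f' g' : (V → Fin 2) → ℝ) (α β γ δ : ℝ) :
    BI J h b (fun s => α * f s + β * g s) (fun s => γ * f' s + δ * g' s) =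
      α * γ * BI J h b f f' + α * δ * BI J h b f g' + β * γ * BI J h b g f'
        + β * δ * BI J h b g g' := by
  unfold BI
  have h1 : ∑ s, ((∑ x, ∑ y, J x y * (sg (s x) * sg (s y))) + ∑ x, b x * sg (s x)) *
      ((α * f s + β * g s) * (γ * f' s + δ * g' s)) =
      α * γ * (∑ s, ((∑ x, ∑ y, J x y * (sg (s x) * sg (s y))) + ∑ x, b x * sg (s x)) * (f s * f' s))
      + α * δ * (∑ s, ((∑ x, ∑ y, J x y * (sg (s x) * sg (s y))) + ∑ x, b x * sg (s x)) * (f s * g' s))
      + β * γ * (∑ s, ((∑ x, ∑ y, J x y * (sg (s x) * sg (s y))) + ∑ x, b x * sg (s x)) * (g s * f' s))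
      + β * δ * (∑ s, ((∑ x, ∑ y, J x y * (sg (s x) * sg (s y))) + ∑ x, b x * sg (s x)) * (g s * g' s)) := by
    simp only [← sum_add_distrib, Finset.mul_sum (s := (Finset.univ : Finset (V → Fin 2)))]
    refine Finset.sum_congr rfl fun s _ => ?_
    ring
  have h2 : ∑ x, h x * ∑ s, (α * f s + β * g s) * (γ * f' (flipC x s) + δ * g' (flipC x s)) =
      α * γ * (∑ x, h x * ∑ s, f s * f' (flipC x s)) + α * δ * (∑ x, h x * ∑ s, f s * g' (flipC x s))
      + β * γ * (∑ x, h x * ∑ s, g s * f' (flipC x s)) + β * δ * (∑ x, h x * ∑ s, g s * g' (flipC x s)) := by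
    simp only [Finset.mul_sum, ← Finset.sum_add_distrib]
    refine Finset.sum_congr rfl fun x _ => ?_
    refine Finset.sum_congr rfl fun s _ => ?_
    ring
  rw [h1, h2]
  ring

lemma BI_symm (J : V → V → ℝ) (h b : V → ℝ) (f g : (V → Fin 2) → ℝ) :
    BI J h b f g = BI J h b g f := by
  unfold BI
  have h1 : ∀ x : V, ∑ s, f s * g (flipC x s) = ∑ s, g s * f (flipC x s) := by
    intro x
    have hinv : ∀ s : V → Fin 2, flipC x (flipC x s) = s := by
      intro s
      unfold flipC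
      rw [add_assoc, ← Pi.single_add]
      have : (1 + 1 : Fin 2) = 0 := by decide
      rw [this]; simp
    let e : (V → Fin 2) ≃ (V → Fin 2) := ⟨flipC x, flipC x, hinv, hinv⟩
    refine Fintype.sum_equiv e _ _ fun s => ?_
    show f s * g (flipC x s) = g (flipC x s) * f (flipC x (flipC x s))
    rw [hinv]; ring
  simp only [h1]
  congr 2
  refine Finset.sum_congr rfl fun s _ => ?_
  ring

lemma BI_smul (J : V → V → ℝ) (h b : V → ℝ) (f : (V → Fin 2) → ℝ) (α : ℝ) :
    BI J h b (fun s => α * f s) (fun s => α * f s) = α ^ 2 * BI J h b f f := by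
  have := BI_lin J h b f f f f α 0 α 0
  simp only [zero_mul, add_zero, mul_zero] at this
  rw [this]; ring

/-- `u` is a unit ground state of the Ising form with gap at least `Δ`. -/
def RGap (J : V → V → ℝ) (h b : V → ℝ) (Δ E : ℝ) (u : (V → Fin 2) → ℝ) : Prop :=
  ∑ s, u s ^ 2 = 1 ∧ BI J h b u u = E ∧
    ∀ f : (V → Fin 2) → ℝ,
      E * ∑ s, f s ^ 2 + Δ * (∑ s, f s ^ 2 - (∑ s, u s * f s) ^ 2) ≤ BI J h b f f

/-- bound for two antisymmetric copies -/
lemma antisym_bound (J : V → V → ℝ) (h b : V → ℝ) (Δ E : ℝ) (hΔ : 0 ≤ Δ) (u : (V → Fin 2) → ℝ)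
    (hu : RGap J h b Δ E u) (g : (V → Fin 2) → (V → Fin 2) → ℝ) (hg : ∀ s t, g s t = - g t s) :
    (2 * E + Δ) * ∑ s, ∑ t, g s t ^ 2 ≤
      (∑ t, BI J h b (fun s => g s t) (fun s => g s t)) + ∑ s, BI J h b (fun t => g s t) (fun t => g s t) := by
  obtain ⟨hu1, _, hgap⟩ := hu
  set r : (V → Fin 2) → ℝ := fun t => ∑ s, u s * g s t with hr
  set N := ∑ s, ∑ t, g s t ^ 2 with hN
  have hN' : ∑ t, ∑ s, g s t ^ 2 = N := by rw [hN, Finset.sum_comm]
  have h1 : E * N + Δ * (N - ∑ t, r t ^ 2) ≤ ∑ t, BI J h b (fun s => g s t) (fun s => g s t) := by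
    have := Finset.sum_le_sum fun (t : V → Fin 2) (_ : t ∈ Finset.univ) => hgap (fun s => g s t)
    simp only [Finset.sum_add_distrib, ← Finset.mul_sum, Finset.sum_sub_distrib] at this
    rw [hN'] at this
    exact this
  have h2 : E * N + Δ * (N - ∑ t, r t ^ 2) ≤ ∑ s, BI J h b (fun t => g s t) (fun t => g s t) := by
    have := Finset.sum_le_sum fun (s : V → Fin 2) (_ : s ∈ Finset.univ) => hgap (fun t => g s t)
    simp only [Finset.sum_add_distrib, ← Finset.mul_sum, Finset.sum_sub_distrib] at this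
    have hr2 : ∀ s, ∑ t, u t * g s t = - r s := by
      intro s
      rw [hr]
      simp only
      rw [← Finset.sum_neg_distrib]
      refine Finset.sum_congr rfl fun t _ => ?_
      rw [hg s t]; ring
    simp only [hr2, neg_sq] at this
    exact this
  -- 2 Σ r² ≤ N
  have h3 : 2 * ∑ t, r t ^ 2 ≤ N := by
    have hpos : 0 ≤ ∑ s, ∑ t, (g s t - u s * r t + r s * u t) ^ 2 :=
      Finset.sum_nonneg fun s _ => Finset.sum_nonneg fun t _ => sq_nonneg _
    have e1 : ∑ s, ∑ t, (g s t - u s * r t + r s * u t) ^ 2 =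
        N + (∑ s, u s ^ 2) * (∑ t, r t ^ 2) + (∑ s, r s ^ 2) * (∑ t, u t ^ 2)
        - 2 * (∑ t, (∑ s, u s * g s t) * r t) + 2 * (∑ s, r s * (∑ t, g s t * u t))
        - 2 * ((∑ s, u s * r s) * (∑ t, u t * r t)) := by
      have hsplit : ∀ s t, (g s t - u s * r t + r s * u t) ^ 2 =
        g s t ^ 2 + u s ^ 2 * r t ^ 2 + r s ^ 2 * u t ^ 2 - 2 * ((u s * g s t) * r t)
          + 2 * (r s * (g s t * u t)) - 2 * ((u s * r s) * (u t * r t)) := by intros; ring
      simp only [hsplit, sum_sub_distrib, sum_add_distrib]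
      rw [Finset.sum_mul_sum, Finset.sum_mul_sum, Finset.sum_mul_sum]
      have c1 : ∑ s, ∑ t, 2 * (u s * g s t * r t) = 2 * ∑ t, (∑ s, u s * g s t) * r t := by
        rw [Finset.sum_comm, Finset.mul_sum]
        refine Finset.sum_congr rfl fun t _ => ?_
        rw [Finset.sum_mul, Finset.mul_sum]
      have c2 : ∑ s, ∑ t, 2 * (r s * (g s t * u t)) = 2 * ∑ s, r s * ∑ t, g s t * u t := by
        rw [Finset.mul_sum]
        refine Finset.sum_congr rfl fun s _ => ?_
        rw [Finset.mul_sum, Finset.mul_sum]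
      have c3 : ∑ s, ∑ t, 2 * (u s * r s * (u t * r t)) = 2 * ∑ s, ∑ t, u s * r s * (u t * r t) := by
        simp only [Finset.mul_sum]
      rw [c1, c2, c3]
    have e2 : ∑ t, (∑ s, u s * g s t) * r t = ∑ t, r t ^ 2 := by
      refine Finset.sum_congr rfl fun t _ => ?_
      rw [hr]; simp only; ring
    have e3 : ∑ s, r s * (∑ t, g s t * u t) = - ∑ s, r s ^ 2 := by
      rw [← Finset.sum_neg_distrib]
      refine Finset.sum_congr rfl fun s _ => ?_
      have : ∑ t, g s t * u t = - r s := by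
        rw [hr]
        simp only
        rw [← Finset.sum_neg_distrib]
        refine Finset.sum_congr rfl fun t _ => ?_
        rw [hg s t]; ring
      rw [this]; ring
    have e4 : ∑ s, u s * r s = 0 := by
      have h4 : ∑ s, u s * r s = ∑ s, ∑ t, u s * u t * g t s := by
        refine Finset.sum_congr rfl fun s _ => ?_
        rw [hr]; simp only
        rw [Finset.mul_sum]
        refine Finset.sum_congr rfl fun t _ => ?_
        ring
      have h5 : ∑ s, ∑ t, u s * u t * g t s = - ∑ s, ∑ t, u s * u t * g t s := by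
        conv_lhs => rw [Finset.sum_comm]
        rw [← Finset.sum_neg_distrib]
        refine Finset.sum_congr rfl fun s _ => ?_
        rw [← Finset.sum_neg_distrib]
        refine Finset.sum_congr rfl fun t _ => ?_
        rw [hg s t]; ring
      rw [h4]; linarith only [h5]
    rw [e1, e2, e3, e4, hu1] at hpos
    linarith only [hpos]
  have h4 : Δ * (2 * ∑ t, r t ^ 2) ≤ Δ * N := mul_le_mul_of_nonneg_left h3 hΔ
  linarith

/-- **Gap monotonicity in the longitudinal field**, nonnegative transverse field. -/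
theorem gap_mono_nonneg (J : V → V → ℝ) (h b' b : V → ℝ) (hJ : ∀ x y, 0 ≤ J x y)
    (hh : ∀ x, 0 ≤ h x) (hb : ∀ x, 0 ≤ b x) (hb' : ∀ x, b x ≤ b' x) (Δ E : ℝ) (hΔ : 0 ≤ Δ)
    (u : (V → Fin 2) → ℝ) (hu : RGap J h b Δ E u)
    (E' : ℝ) (u' : (V → Fin 2) → ℝ) (hu'1 : ∑ s, u' s ^ 2 = 1) (hu'E : BI J h b' u' u' = E')
    (hmin : ∀ f : (V → Fin 2) → ℝ, E' * ∑ s, f s ^ 2 ≤ BI J h b' f f)
    (v : (V → Fin 2) → ℝ) (hv1 : ∑ s, v s ^ 2 = 1) (hv : ∑ s, u' s * v s = 0) :
    E' + Δ ≤ BI J h b' v v := by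
  obtain ⟨hu1, huE, hgap⟩ := hu
  -- the four copy trial state
  let Ψ : (V → S4) → ℝ := fun c =>
    (u' (fun x => (c x).1) * v (fun x => (c x).2.1) - v (fun x => (c x).1) * u' (fun x => (c x).2.1))
      * (u (fun x => (c x).2.2.1) * u (fun x => (c x).2.2.2))
  have hΨ : ∀ c1 c2 c3 c4, Ψ (mk4 c1 c2 c3 c4) =
      (u' c1 * v c2 - v c1 * u' c2) * (u c3 * u c4) := fun _ _ _ _ => rfl
  have hodd : ∀ c, Ψ (swapE V c) = - Ψ c := by
    intro c
    show (u' (fun x => (c x).2.1) * v (fun x => (c x).1) - v (fun x => (c x).2.1) * u' (fun x => (c x).1))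
      * (u (fun x => (c x).2.2.1) * u (fun x => (c x).2.2.2)) = - _
    simp only [Ψ]; ring
  have hodd2 : ∀ c, Ψ (swap1234E V c) = - Ψ c := by
    intro c
    show (u' (fun x => (c x).2.1) * v (fun x => (c x).1) - v (fun x => (c x).2.1) * u' (fun x => (c x).1))
      * (u (fun x => (c x).2.2.2) * u (fun x => (c x).2.2.1)) = - _
    simp only [Ψ]; ring
  set G := absV Ψ with hGdef
  have hG12 : ∀ c, G (swapE V c) = G c := absV_swap12 Ψ hodd
  have hG1234 : ∀ c, G (swap1234E V c) = - G c := absV_swap1234 Ψ hodd2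
  have hG34 : ∀ c1 c2 c3 c4, G (mk4 c1 c2 c4 c3) = - G (mk4 c1 c2 c3 c4) := by
    intro c1 c2 c3 c4
    have h1 := hG1234 (mk4 c1 c2 c3 c4)
    have h2 := hG12 (mk4 c1 c2 c4 c3)
    have h3 : swap1234E V (mk4 c1 c2 c3 c4) = mk4 c2 c1 c4 c3 := rfl
    have h4 : swapE V (mk4 c1 c2 c4 c3) = mk4 c2 c1 c4 c3 := rfl
    rw [h3] at h1; rw [h4] at h2
    rw [← h2, h1]
  have hle := Tot_abs J h b' b hJ hh hb hb' Ψ
  rw [← hGdef] at hle
  -- norm computations
  have hnormΨ : ∑ c, Ψ c ^ 2 = 2 := by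
    rw [sum4]
    simp only [hΨ]
    have e : ∀ c1 c2 c3 c4, ((u' c1 * v c2 - v c1 * u' c2) * (u c3 * u c4)) ^ 2 =
      (u' c1 * v c2 - v c1 * u' c2) ^ 2 * u c3 ^ 2 * u c4 ^ 2 := by intros; ring
    simp only [e, ← Finset.mul_sum, hu1, mul_one]
    have e2 : ∀ c1 c2, (u' c1 * v c2 - v c1 * u' c2) ^ 2 =
      u' c1 ^ 2 * v c2 ^ 2 - 2 * (u' c1 * v c1) * (u' c2 * v c2) + v c1 ^ 2 * u' c2 ^ 2 := by
      intros; ring
    simp only [e2, Finset.sum_add_distrib, Finset.sum_sub_distrib, ← Finset.mul_sum, hv1, hu'1, hv]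
    simp only [mul_one, hu'1, mul_zero, sum_const_zero, sub_zero, hv1]
    norm_num
  have hnormG : ∑ c, G c ^ 2 = 2 := by rw [hGdef, norm_abs, hnormΨ]
  -- upper bound: Tot Ψ
  have hTotΨ : Tot J h b' b Ψ = 2 * (E' + BI J h b' v v) + 4 * E := by
    rw [Tot_eq, Qg_1, Qg_2, Qg_3, Qg_4]
    simp only [hΨ]
    have q1 : ∀ c2 c3 c4, BI J h b' (fun c1 => (u' c1 * v c2 - v c1 * u' c2) * (u c3 * u c4))
        (fun c1 => (u' c1 * v c2 - v c1 * u' c2) * (u c3 * u c4)) =
        (v c2 ^ 2 * E' - 2 * (u' c2 * v c2) * BI J h b' u' v + u' c2 ^ 2 * BI J h b' v v)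
          * u c3 ^ 2 * u c4 ^ 2 := by
      intro c2 c3 c4
      have := BI_lin J h b' u' v u' v (v c2 * (u c3 * u c4)) (- u' c2 * (u c3 * u c4))
        (v c2 * (u c3 * u c4)) (- u' c2 * (u c3 * u c4))
      have e : (fun c1 => (u' c1 * v c2 - v c1 * u' c2) * (u c3 * u c4)) =
        fun s => (v c2 * (u c3 * u c4)) * u' s + (- u' c2 * (u c3 * u c4)) * v s := by
        funext s; ring
      rw [e, this, hu'E, BI_symm J h b' v u']
      ring
    have q2 : ∀ c1 c3 c4, BI J h b' (fun c2 => (u' c1 * v c2 - v c1 * u' c2) * (u c3 * u c4))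
        (fun c2 => (u' c1 * v c2 - v c1 * u' c2) * (u c3 * u c4)) =
        (v c1 ^ 2 * E' - 2 * (u' c1 * v c1) * BI J h b' u' v + u' c1 ^ 2 * BI J h b' v v)
          * u c3 ^ 2 * u c4 ^ 2 := by
      intro c1 c3 c4
      have := BI_lin J h b' u' v u' v (- v c1 * (u c3 * u c4)) (u' c1 * (u c3 * u c4))
        (- v c1 * (u c3 * u c4)) (u' c1 * (u c3 * u c4))
      have e : (fun c2 => (u' c1 * v c2 - v c1 * u' c2) * (u c3 * u c4)) =
        fun s => (- v c1 * (u c3 * u c4)) * u' s + (u' c1 * (u c3 * u c4)) * v s := by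
        funext s; ring
      rw [e, this, hu'E, BI_symm J h b' v u']
      ring
    have q3 : ∀ c1 c2 c4, BI J h b (fun c3 => (u' c1 * v c2 - v c1 * u' c2) * (u c3 * u c4))
        (fun c3 => (u' c1 * v c2 - v c1 * u' c2) * (u c3 * u c4)) =
        (u' c1 * v c2 - v c1 * u' c2) ^ 2 * u c4 ^ 2 * E := by
      intro c1 c2 c4
      have := BI_smul J h b u ((u' c1 * v c2 - v c1 * u' c2) * u c4)
      have e : (fun c3 => (u' c1 * v c2 - v c1 * u' c2) * (u c3 * u c4)) =
        fun s => ((u' c1 * v c2 - v c1 * u' c2) * u c4) * u s := by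
        funext s; ring
      rw [e, this, huE]
      ring
    have q4 : ∀ c1 c2 c3, BI J h b (fun c4 => (u' c1 * v c2 - v c1 * u' c2) * (u c3 * u c4))
        (fun c4 => (u' c1 * v c2 - v c1 * u' c2) * (u c3 * u c4)) =
        (u' c1 * v c2 - v c1 * u' c2) ^ 2 * u c3 ^ 2 * E := by
      intro c1 c2 c3
      have := BI_smul J h b u ((u' c1 * v c2 - v c1 * u' c2) * u c3)
      have e : (fun c4 => (u' c1 * v c2 - v c1 * u' c2) * (u c3 * u c4)) =
        fun s => ((u' c1 * v c2 - v c1 * u' c2) * u c3) * u s := by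
        funext s; ring
      rw [e, this, huE]
      ring
    simp only [q1, q2, q3, q4]
    have e2 : ∀ c1 c2, (u' c1 * v c2 - v c1 * u' c2) ^ 2 =
      u' c1 ^ 2 * v c2 ^ 2 - 2 * (u' c1 * v c1) * (u' c2 * v c2) + v c1 ^ 2 * u' c2 ^ 2 := by
      intros; ring
    simp only [← mul_sum, hu1, mul_one, sum_add_distrib, sum_sub_distrib, ← sum_mul, hv1, one_mul, hv, mul_zero, zero_mul, sub_zero, hu'1, e2]
    ring
  -- lower bound: Tot G
  have hTotG : 4 * E' + 2 * (2 * E + Δ) ≤ Tot J h b' b G := by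
    rw [Tot_eq, Qg_1, Qg_2, Qg_3, Qg_4]
    have l1 : E' * 2 ≤ ∑ c2, ∑ c3, ∑ c4,
      BI J h b' (fun c1 => G (mk4 c1 c2 c3 c4)) (fun c1 => G (mk4 c1 c2 c3 c4)) := by
      rw [← hnormG, sum4_1]
      simp only [Finset.mul_sum]
      refine Finset.sum_le_sum fun c2 _ => Finset.sum_le_sum fun c3 _ => Finset.sum_le_sum fun c4 _ => ?_
      rw [← Finset.mul_sum]
      exact hmin _
    have l2 : E' * 2 ≤ ∑ c1, ∑ c3, ∑ c4,
      BI J h b' (fun c2 => G (mk4 c1 c2 c3 c4)) (fun c2 => G (mk4 c1 c2 c3 c4)) := by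
      rw [← hnormG, sum4_2]
      simp only [Finset.mul_sum]
      refine Finset.sum_le_sum fun c2 _ => Finset.sum_le_sum fun c3 _ => Finset.sum_le_sum fun c4 _ => ?_
      rw [← Finset.mul_sum]
      exact hmin _
    have l3 : (2 * E + Δ) * (∑ c, G c ^ 2) ≤ (∑ c1, ∑ c2, ∑ c4,
      BI J h b (fun c3 => G (mk4 c1 c2 c3 c4)) (fun c3 => G (mk4 c1 c2 c3 c4))) +
      ∑ c1, ∑ c2, ∑ c3,
      BI J h b (fun c4 => G (mk4 c1 c2 c3 c4)) (fun c4 => G (mk4 c1 c2 c3 c4)) := by
      rw [sum4, ← Finset.sum_add_distrib, Finset.mul_sum]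
      refine Finset.sum_le_sum fun c1 _ => ?_
      rw [← Finset.sum_add_distrib, Finset.mul_sum]
      refine Finset.sum_le_sum fun c2 _ => ?_
      exact antisym_bound J h b Δ E hΔ u ⟨hu1, huE, hgap⟩ (fun c3 c4 => G (mk4 c1 c2 c3 c4))
        (fun s t => hG34 c1 c2 t s)
    rw [hnormG] at l3
    linarith only [l1, l2, l3]
  linarith only [hle, hTotΨ, hTotG]

end Vale.Agent.P356
end
end

section

section

namespace Vale.Agent.P356
open Finset

variable {V : Type*} [Fintype V] [DecidableEq V]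

lemma BI_expand (J : V → V → ℝ) (h b : V → ℝ) (f g : (V → Fin 2) → ℝ) (α β : ℝ) :
    BI J h b (fun s => α * f s + β * g s) (fun s => α * f s + β * g s) =
      α ^ 2 * BI J h b f f + 2 * α * β * BI J h b f g + β ^ 2 * BI J h b g g := by
  rw [BI_lin, BI_symm J h b g f]; ring

lemma BI_continuous (J : V → V → ℝ) (h b : V → ℝ) :
    Continuous fun f : (V → Fin 2) → ℝ => BI J h b f f := by
  unfold BI
  refine Continuous.sub (Continuous.neg ?_) ?_
  · refine continuous_finsetSum _ fun s _ => ?_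
    exact continuous_const.mul ((continuous_apply s).mul (continuous_apply s))
  · refine continuous_finsetSum _ fun x _ => ?_
    refine continuous_const.mul (continuous_finsetSum _ fun s _ => ?_)
    exact (continuous_apply s).mul (continuous_apply _)

/-- existence of a minimizer of the energy on the unit sphere -/
lemma exists_ground (J : V → V → ℝ) (h b : V → ℝ) :
    ∃ (E : ℝ) (u : (V → Fin 2) → ℝ), ∑ s, u s ^ 2 = 1 ∧ BI J h b u u = E ∧
      ∀ f : (V → Fin 2) → ℝ, E * ∑ s, f s ^ 2 ≤ BI J h b f f := by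
  set S : Set ((V → Fin 2) → ℝ) := {f | ∑ s, f s ^ 2 = 1} with hS
  have hclosed : IsClosed S := by
    refine isClosed_eq ?_ continuous_const
    exact continuous_finsetSum _ fun s _ => (continuous_apply s).pow 2
  have hbdd : Bornology.IsBounded S := by
    refine (Metric.isBounded_closedBall (x := (0 : (V → Fin 2) → ℝ)) (r := 1)).subset ?_
    intro f hf
    rw [mem_closedBall_zero_iff]
    rw [pi_norm_le_iff_of_nonneg zero_le_one]
    intro s
    have h1 : f s ^ 2 ≤ 1 := by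
      have : ∑ s, f s ^ 2 = 1 := hf
      rw [← this]
      exact Finset.single_le_sum (f := fun s => f s ^ 2) (fun i _ => sq_nonneg _) (Finset.mem_univ s)
    rw [Real.norm_eq_abs]
    exact abs_le_one_iff_mul_self_le_one.mpr (by linarith)
  have hcomp : IsCompact S := Metric.isCompact_of_isClosed_isBounded hclosed hbdd
  have hne : S.Nonempty := by
    refine ⟨Pi.single 0 1, ?_⟩
    show ∑ s : V → Fin 2, (Pi.single (0 : V → Fin 2) (1 : ℝ) : (V → Fin 2) → ℝ) s ^ 2 = 1
    rw [Finset.sum_eq_single (0 : V → Fin 2)]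
    · simp
    · intro s _ hs
      simp only [Pi.single_eq_of_ne hs, ne_eq, OfNat.ofNat_ne_zero, not_false_eq_true, zero_pow]
    · simp only [mem_univ, not_true_eq_false, Pi.single_eq_same, one_pow, one_ne_zero, imp_self]
  obtain ⟨u, hu, hmin⟩ := hcomp.exists_isMinOn hne (BI_continuous J h b).continuousOn
  refine ⟨BI J h b u u, u, hu, rfl, ?_⟩
  intro f
  set N := ∑ s, f s ^ 2 with hN
  have hN0 : 0 ≤ N := Finset.sum_nonneg fun _ _ => sq_nonneg _
  rcases hN0.eq_or_lt with h0 | hpos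
  · have hf : ∀ s, f s = 0 := by
      intro s
      have := (Finset.sum_eq_zero_iff_of_nonneg (fun s _ => sq_nonneg (f s))).mp h0.symm s
        (Finset.mem_univ s)
      simpa using this
    have : f = fun s => 0 * u s := by funext s; simp [hf s]
    rw [this, BI_smul]
    rw [← h0]; simp
  · set a := (Real.sqrt N)⁻¹ with ha
    have hsq : Real.sqrt N ^ 2 = N := Real.sq_sqrt hN0
    have hsp : 0 < Real.sqrt N := Real.sqrt_pos.mpr hpos
    have hmem : (fun s => a * f s) ∈ S := by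
      show ∑ s, (a * f s) ^ 2 = 1
      simp only [mul_pow, ← Finset.mul_sum]
      rw [← hN, ha, inv_pow, hsq]
      exact inv_mul_cancel₀ hpos.ne'
    have h1 := hmin hmem
    simp only [Set.mem_ofPred_eq] at h1
    rw [BI_smul] at h1
    have ha2 : a ^ 2 = N⁻¹ := by rw [ha, inv_pow, hsq]
    rw [ha2] at h1
    have h2 := mul_le_mul_of_nonneg_right h1 hN0
    have h3 : N⁻¹ * BI J h b f f * N = BI J h b f f := by
      (clear * - hpos; field_simp)
    rw [h3] at h2
    exact h2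

/-- first order condition: a minimizer is an eigenvector -/
lemma ground_eigen (J : V → V → ℝ) (h b : V → ℝ) (E : ℝ) (u : (V → Fin 2) → ℝ)
    (hu1 : ∑ s, u s ^ 2 = 1) (huE : BI J h b u u = E)
    (hmin : ∀ f : (V → Fin 2) → ℝ, E * ∑ s, f s ^ 2 ≤ BI J h b f f) (g : (V → Fin 2) → ℝ) :
    BI J h b u g = E * ∑ s, u s * g s := by
  -- quadratic in the parameter
  have key : ∀ t : ℝ, 0 ≤ t * (2 * (BI J h b u g - E * ∑ s, u s * g s)) +
      t ^ 2 * (BI J h b g g - E * ∑ s, g s ^ 2) := by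
    intro t
    have h1 := hmin (fun s => 1 * u s + t * g s)
    rw [BI_expand, huE] at h1
    have h2 : ∑ s, (1 * u s + t * g s) ^ 2 = 1 + 2 * t * (∑ s, u s * g s) + t ^ 2 * ∑ s, g s ^ 2 := by
      have : ∀ s, (1 * u s + t * g s) ^ 2 = u s ^ 2 + 2 * t * (u s * g s) + t ^ 2 * g s ^ 2 := by
        intro s; ring
      simp only [this, Finset.sum_add_distrib, ← Finset.mul_sum, hu1]
    rw [h2] at h1
    linarith
  set a := 2 * (BI J h b u g - E * ∑ s, u s * g s) with ha
  set c := BI J h b g g - E * ∑ s, g s ^ 2 with hc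
  have hc0 : 0 ≤ c := by have := hmin g; rw [hc]; linarith
  have ha0 : a = 0 := by
    by_contra hne
    have h1 := key (-a / (2 * (c + 1)))
    have hc1 : 0 < c + 1 := by linarith only [hc0]
    have h2 : -a / (2 * (c + 1)) * a + (-a / (2 * (c + 1))) ^ 2 * c =
        - (a ^ 2 * (c + 2)) / (4 * (c + 1) ^ 2) := by
      field_simp; ring
    rw [h2] at h1
    have h3 : 0 < a ^ 2 * (c + 2) / (4 * (c + 1) ^ 2) := by (clear * - hne hc0; positivity)
    have h4 : - (a ^ 2 * (c + 2)) / (4 * (c + 1) ^ 2) = - (a ^ 2 * (c + 2) / (4 * (c + 1) ^ 2)) := by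
      ring
    rw [h4] at h1
    linarith only [h1, h3]
  have : BI J h b u g - E * ∑ s, u s * g s = 0 := by
    have : 2 * (BI J h b u g - E * ∑ s, u s * g s) = 0 := by rw [← ha]; exact ha0
    linarith only [ha0]
  linarith only [ha0]

/-- assembling the gap statement -/
lemma rgap_of_orth (J : V → V → ℝ) (h b : V → ℝ) (Δ E : ℝ) (hΔ : 0 ≤ Δ) (u : (V → Fin 2) → ℝ)
    (hu1 : ∑ s, u s ^ 2 = 1) (huE : BI J h b u u = E)
    (hmin : ∀ f : (V → Fin 2) → ℝ, E * ∑ s, f s ^ 2 ≤ BI J h b f f)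
    (horth : ∀ v : (V → Fin 2) → ℝ, ∑ s, v s ^ 2 = 1 → ∑ s, u s * v s = 0 → E + Δ ≤ BI J h b v v) :
    RGap J h b Δ E u := by
  refine ⟨hu1, huE, ?_⟩
  intro f
  set α := ∑ s, u s * f s with hα
  set w : (V → Fin 2) → ℝ := fun s => f s - α * u s with hw
  have huw : ∑ s, u s * w s = 0 := by
    have : ∀ s, u s * w s = u s * f s - α * u s ^ 2 := by intro s; simp only [hw]; ring
    simp only [this, Finset.sum_sub_distrib, ← Finset.mul_sum, hu1]
    rw [← hα]; ring
  have hf : f = fun s => α * u s + 1 * w s := by funext s; simp only [hw]; ring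
  have hww : ∑ s, w s ^ 2 = ∑ s, f s ^ 2 - α ^ 2 := by
    have : ∀ s, w s ^ 2 = f s ^ 2 - 2 * α * (u s * f s) + α ^ 2 * u s ^ 2 := by
      intro s; simp only [hw]; ring
    simp only [this, Finset.sum_sub_distrib, Finset.sum_add_distrib, ← Finset.mul_sum, hu1]
    rw [← hα]; ring
  have hBf : BI J h b f f = α ^ 2 * E + BI J h b w w := by
    conv_lhs => rw [hf]
    rw [BI_expand, huE, ground_eigen J h b E u hu1 huE hmin w, huw]; ring
  have hBw : (E + Δ) * ∑ s, w s ^ 2 ≤ BI J h b w w := by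
    set N := ∑ s, w s ^ 2 with hN
    have hN0 : 0 ≤ N := Finset.sum_nonneg fun _ _ => sq_nonneg _
    rcases hN0.eq_or_lt with h0 | hpos
    · rw [← h0, mul_zero]
      have := hmin w
      rw [← hN, ← h0, mul_zero] at this
      exact this
    · set a := (Real.sqrt N)⁻¹ with ha
      have hsq : Real.sqrt N ^ 2 = N := Real.sq_sqrt hN0
      have ha2 : a ^ 2 = N⁻¹ := by rw [ha, inv_pow, hsq]
      have h1 := horth (fun s => a * w s) (by
        simp only [mul_pow, ← Finset.mul_sum]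
        rw [← hN, ha2]
        exact inv_mul_cancel₀ hpos.ne') (by
        have : ∀ s, u s * (a * w s) = a * (u s * w s) := by intro s; ring
        simp only [this, ← Finset.mul_sum, huw, mul_zero])
      rw [BI_smul, ha2] at h1
      have h2 := mul_le_mul_of_nonneg_right h1 hN0
      have h3 : N⁻¹ * BI J h b w w * N = BI J h b w w := by (clear * - hpos; field_simp)
      rw [h3] at h2
      exact h2
  rw [hBf]
  rw [hww] at hBw
  nlinarith only [hBw]

/-- the gap persists when the nonnegative longitudinal field is increased (nonnegative `h`) -/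
theorem rgap_field_nonneg (J : V → V → ℝ) (h b' b : V → ℝ) (hJ : ∀ x y, 0 ≤ J x y)
    (hh : ∀ x, 0 ≤ h x) (hb : ∀ x, 0 ≤ b x) (hb' : ∀ x, b x ≤ b' x) (Δ E : ℝ) (hΔ : 0 ≤ Δ)
    (u : (V → Fin 2) → ℝ) (hu : RGap J h b Δ E u) :
    ∃ E' u', RGap J h b' Δ E' u' := by
  obtain ⟨E', u', h1, h2, h3⟩ := exists_ground J h b'
  refine ⟨E', u', rgap_of_orth J h b' Δ E' hΔ u' h1 h2 h3 ?_⟩
  intro v hv1 hv
  exact gap_mono_nonneg J h b' b hJ hh hb hb' Δ E hΔ u hu E' u' h1 h2 h3 v hv1 hv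

/-! ### gauge transformations -/

/-- local sign change and spin relabelling -/
noncomputable def gaugeT (χ : (V → Fin 2) → ℝ) (e : V → Fin 2) (f : (V → Fin 2) → ℝ) :
    (V → Fin 2) → ℝ := fun s => χ s * f (s + e)

noncomputable def chiH (h : V → ℝ) (s : V → Fin 2) : ℝ := ∏ x, if h x < 0 then sg (s x) else 1

noncomputable def eEps (ε : V → ℝ) (x : V) : Fin 2 := if ε x = 1 then 0 else 1

lemma sg_sq (s : Fin 2) : sg s * sg s = 1 := by
  unfold sg sz; split_ifs <;> norm_num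

lemma sg_add_one (s : Fin 2) : sg (s + 1) = - sg s := by
  unfold sg sz
  fin_cases s <;> simp

lemma chiH_sq (h : V → ℝ) (s : V → Fin 2) : chiH h s * chiH h s = 1 := by
  unfold chiH
  rw [← Finset.prod_mul_distrib]
  refine Finset.prod_eq_one fun x _ => ?_
  split_ifs
  · exact sg_sq _
  · norm_num

lemma chiH_flip (h : V → ℝ) (x : V) (s : V → Fin 2) :
    chiH h s * chiH h (flipC x s) = if h x < 0 then -1 else 1 := by
  unfold chiH
  rw [← Finset.prod_mul_distrib]
  rw [Finset.prod_eq_single x]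
  · simp only [flipC, Pi.add_apply, Pi.single_eq_same]
    split_ifs
    · rw [sg_add_one]
      have := sg_sq (s x)
      linarith only [this]
    · norm_num
  · intro y _ hy
    have : flipC x s y = s y := by simp [flipC, hy]
    rw [this]
    split_ifs
    · exact sg_sq _
    · norm_num
  · simp only [mem_univ, not_true_eq_false, mul_ite, ite_mul, one_mul, mul_one, IsEmpty.forall_iff]

lemma sg_gauge (ε : V → ℝ) (hε : ∀ x, ε x = 1 ∨ ε x = -1) (s : V → Fin 2) (x : V) :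
    sg ((s + eEps ε) x) = ε x * sg (s x) := by
  show sg (s x + eEps ε x) = _
  unfold eEps
  rcases hε x with h | h
  · simp [h]
  · have : ¬ ((-1 : ℝ) = 1) := by norm_num
    rw [h, if_neg this, sg_add_one]; ring

/-- the form with gauge signs equals the ferromagnetic form of the transformed functions -/
lemma BI_gauge (c : V → V → ℝ) (h b ε : V → ℝ) (hε : ∀ x, ε x = 1 ∨ ε x = -1)
    (f g : (V → Fin 2) → ℝ) :
    BI (fun x y => c x y * ε x * ε y) h (fun x => b x * ε x) f g =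
      BI c (fun x => |h x|) b (gaugeT (chiH h) (eEps ε) f) (gaugeT (chiH h) (eEps ε) g) := by
  unfold BI
  congr 1
  · congr 1
    symm
    refine Fintype.sum_equiv (Equiv.addRight (eEps ε)) _ _ fun s => ?_
    simp only [Equiv.coe_addRight]
    have h1 : ∀ x, ε x * sg ((s + eEps ε) x) = sg (s x) := by
      intro x
      rw [sg_gauge ε hε]
      rcases hε x with h | h <;> rw [h] <;> ring
    have h2 : (∑ x, ∑ y, c x y * ε x * ε y * (sg ((s + eEps ε) x) * sg ((s + eEps ε) y))) =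
        ∑ x, ∑ y, c x y * (sg (s x) * sg (s y)) := by
      refine Finset.sum_congr rfl fun x _ => Finset.sum_congr rfl fun y _ => ?_
      rw [← h1 x, ← h1 y]; ring
    have h3 : (∑ x, b x * ε x * sg ((s + eEps ε) x)) = ∑ x, b x * sg (s x) := by
      refine Finset.sum_congr rfl fun x _ => ?_
      rw [← h1 x]; ring
    rw [h2, h3]
    unfold gaugeT
    have := chiH_sq h s
    calc _ = ((∑ x, ∑ y, c x y * (sg (s x) * sg (s y))) + ∑ x, b x * sg (s x)) *
        ((chiH h s * chiH h s) * (f (s + eEps ε) * g (s + eEps ε))) := by ring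
      _ = _ := by rw [this]; ring
  · refine Finset.sum_congr rfl fun x _ => ?_
    have h1 : ∑ s, gaugeT (chiH h) (eEps ε) f s * gaugeT (chiH h) (eEps ε) g (flipC x s) =
        (if h x < 0 then -1 else 1) * ∑ s, f s * g (flipC x s) := by
      rw [Finset.mul_sum]
      refine Fintype.sum_equiv (Equiv.addRight (eEps ε)) _ _ fun s => ?_
      simp only [gaugeT, Equiv.coe_addRight]
      have h2 : flipC x s + eEps ε = flipC x (s + eEps ε) := by
        unfold flipC; abel
      rw [h2]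
      have := chiH_flip h x s
      calc _ = (chiH h s * chiH h (flipC x s)) * (f (s + eEps ε) * g (flipC x (s + eEps ε))) := by ring
        _ = _ := by rw [this]
    rw [h1]
    show h x * ∑ s, f s * g (flipC x s) = |h x| * _
    split_ifs with hx
    · rw [abs_of_neg hx]; ring
    · rw [abs_of_nonneg (not_lt.mp hx)]; ring

lemma gaugeT_inner (h ε : V → ℝ) (f g : (V → Fin 2) → ℝ) :
    ∑ s, gaugeT (chiH h) (eEps ε) f s * gaugeT (chiH h) (eEps ε) g s = ∑ s, f s * g s := by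
  refine Fintype.sum_equiv (Equiv.addRight (eEps ε)) _ _ fun s => ?_
  simp only [Equiv.coe_addRight, gaugeT]
  have := chiH_sq h s
  calc _ = (chiH h s * chiH h s) * (f (s + eEps ε) * g (s + eEps ε)) := by ring
    _ = _ := by rw [this]; ring

lemma gaugeT_surj (h ε : V → ℝ) (g : (V → Fin 2) → ℝ) :
    ∃ f, gaugeT (chiH h) (eEps ε) f = g := by
  refine ⟨fun s => chiH h (s - eEps ε) * g (s - eEps ε), ?_⟩
  funext s
  unfold gaugeT
  simp only [add_sub_cancel_right]
  have := chiH_sq h s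
  calc _ = (chiH h s * chiH h s) * g s := by ring
    _ = _ := by rw [this]; ring

lemma rgap_gauge_iff (c : V → V → ℝ) (h b ε : V → ℝ) (hε : ∀ x, ε x = 1 ∨ ε x = -1) (Δ E : ℝ)
    (u : (V → Fin 2) → ℝ) :
    RGap (fun x y => c x y * ε x * ε y) h (fun x => b x * ε x) Δ E u ↔
      RGap c (fun x => |h x|) b Δ E (gaugeT (chiH h) (eEps ε) u) := by
  have hsq : ∀ f : (V → Fin 2) → ℝ, ∑ s, gaugeT (chiH h) (eEps ε) f s ^ 2 = ∑ s, f s ^ 2 := by
    intro f
    simp only [pow_two]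
    exact gaugeT_inner h ε f f
  constructor
  · rintro ⟨h1, h2, h3⟩
    refine ⟨by rw [hsq]; exact h1, by rw [← BI_gauge c h b ε hε]; exact h2, ?_⟩
    intro g
    obtain ⟨f, rfl⟩ := gaugeT_surj h ε g
    rw [← BI_gauge c h b ε hε, hsq, gaugeT_inner]
    exact h3 f
  · rintro ⟨h1, h2, h3⟩
    refine ⟨by rw [← hsq]; exact h1, by rw [BI_gauge c h b ε hε]; exact h2, ?_⟩
    intro f
    have := h3 (gaugeT (chiH h) (eEps ε) f)
    rw [← BI_gauge c h b ε hε, hsq, gaugeT_inner] at this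
    exact this

/-- **Gap monotonicity** for unfrustrated Ising forms: the gap persists when the compatible
longitudinal field is increased. -/
theorem rgap_field (c : V → V → ℝ) (h b b' ε : V → ℝ) (hε : ∀ x, ε x = 1 ∨ ε x = -1)
    (hc : ∀ x y, 0 ≤ c x y) (hb : ∀ x, 0 ≤ b x) (hb' : ∀ x, b x ≤ b' x) (Δ E : ℝ) (hΔ : 0 ≤ Δ)
    (u : (V → Fin 2) → ℝ)
    (hu : RGap (fun x y => c x y * ε x * ε y) h (fun x => b x * ε x) Δ E u) :
    ∃ E' u', RGap (fun x y => c x y * ε x * ε y) h (fun x => b' x * ε x) Δ E' u' := by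
  rw [rgap_gauge_iff c h b ε hε] at hu
  obtain ⟨E', u', hu'⟩ := rgap_field_nonneg c (fun x => |h x|) b' b hc (fun x => abs_nonneg _) hb hb'
    Δ E hΔ _ hu
  obtain ⟨f, rfl⟩ := gaugeT_surj h ε u'
  exact ⟨E', f, (rgap_gauge_iff c h b' ε hε Δ E' f).mpr hu'⟩

end Vale.Agent.P356
end
end

section

section

open Matrix Finset
open scoped BigOperators ComplexOrder Kronecker

set_option linter.unusedSectionVars false

namespace Vale.Agent.P356.Path

/-- Variational form of: `E` is the lowest eigenvalue of `H`, it is simple, `Ω` is the unit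
ground state and the gap above it is at least `Δ`. -/
structure Gapped {n : Type*} [Fintype n] (H : Matrix n n ℂ) (E : ℝ) (Ω : n → ℂ) (Δ : ℝ) :
    Prop where
  herm : H.IsHermitian
  unit : ∑ i, ‖Ω i‖ ^ 2 = 1
  eig : H *ᵥ Ω = (E : ℂ) • Ω
  gap : ∀ ψ : n → ℂ, Δ * (∑ i, ‖ψ i‖ ^ 2 - ‖star Ω ⬝ᵥ ψ‖ ^ 2) ≤
    (star ψ ⬝ᵥ (H *ᵥ ψ)).re - E * ∑ i, ‖ψ i‖ ^ 2

variable {α β : Type*} [Fintype α] [Fintype β] [DecidableEq α] [DecidableEq β]

/-- block matrix elements of `X` in the state `Ω` -/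
def blk (X : Matrix (α × β) (α × β) ℂ) (Ω : α × β → ℂ) (i j : α) : ℂ :=
  ∑ b, ∑ b', star (Ω (i, b)) * X (i, b) (j, b') * Ω (j, b')

omit [DecidableEq α] [DecidableEq β] in
theorem form_eq (X : Matrix (α × β) (α × β) ℂ) (Ω : α × β → ℂ) (u v : α → ℝ) :
    (star (fun x : α × β => (u x.1 : ℂ) * Ω x)) ⬝ᵥ
      (X *ᵥ (fun x : α × β => (v x.1 : ℂ) * Ω x)) =
    ∑ i, ∑ j, ((u i * v j : ℝ) : ℂ) * blk X Ω i j := by
  simp only [dotProduct, Pi.star_apply, mulVec, Fintype.sum_prod_type, mul_sum, blk]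
  refine Finset.sum_congr rfl fun i _ => ?_
  rw [Finset.sum_comm]
  refine Finset.sum_congr rfl fun j _ => ?_
  refine Finset.sum_congr rfl fun b _ => ?_
  refine Finset.sum_congr rfl fun b' _ => ?_
  simp only [star_mul', RCLike.star_def, Complex.conj_ofReal, Complex.ofReal_mul]
  ring

omit [DecidableEq α] [DecidableEq β] in
theorem blk_add (X Y : Matrix (α × β) (α × β) ℂ) (Ω : α × β → ℂ) (i j : α) :
    blk (X + Y) Ω i j = blk X Ω i j + blk Y Ω i j := by
  simp only [blk, Matrix.add_apply, mul_add, add_mul, Finset.sum_add_distrib]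

omit [DecidableEq α] [DecidableEq β] in
theorem blk_herm {X : Matrix (α × β) (α × β) ℂ} (hX : X.IsHermitian) (Ω : α × β → ℂ) (i j : α) :
    star (blk X Ω i j) = blk X Ω j i := by
  simp only [blk, star_sum, star_mul', star_star]
  rw [Finset.sum_comm]
  refine Finset.sum_congr rfl fun b _ => ?_
  refine Finset.sum_congr rfl fun b' _ => ?_
  rw [hX.apply]
  ring

theorem blk_left (HA : Matrix α α ℂ) (Ω : α × β → ℂ) (p : α → ℝ)
    (hp : ∀ i j, ∑ b, Ω (i, b) * star (Ω (j, b)) = if i = j then (p i : ℂ) else 0)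
    {i j : α} (hij : i ≠ j) : blk (HA ⊗ₖ (1 : Matrix β β ℂ)) Ω i j = 0 := by
  have h := hp j i
  rw [if_neg (Ne.symm hij)] at h
  simp only [blk, kroneckerMap_apply, Matrix.one_apply, mul_ite, mul_one, mul_zero, ite_mul,
    zero_mul, Finset.sum_ite_eq, Finset.mem_univ, if_true]
  have : ∑ b, star (Ω (i, b)) * HA i j * Ω (j, b) = HA i j * ∑ b, Ω (j, b) * star (Ω (i, b)) := by
    rw [Finset.mul_sum]
    refine Finset.sum_congr rfl fun b _ => ?_
    ring
  rw [this, h, mul_zero]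

omit [DecidableEq β] in
theorem blk_right (HB : Matrix β β ℂ) (Ω : α × β → ℂ)
    {i j : α} (hij : i ≠ j) : blk ((1 : Matrix α α ℂ) ⊗ₖ HB) Ω i j = 0 := by
  simp only [blk, kroneckerMap_apply, Matrix.one_apply, if_neg hij, zero_mul, mul_zero,
    Finset.sum_const_zero]

/-- The entanglement Poincare inequality, in the eigenbasis of the reduced state. -/
theorem poincare_diag (HA : Matrix α α ℂ) (HB : Matrix β β ℂ) (G : Matrix (α × β) (α × β) ℂ)
    (hG : G.IsHermitian) {E Δ : ℝ} {Ω : α × β → ℂ}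
    (h : Gapped (HA ⊗ₖ (1 : Matrix β β ℂ) + (1 : Matrix α α ℂ) ⊗ₖ HB + G) E Ω Δ)
    (p : α → ℝ)
    (hp : ∀ i j, ∑ b, Ω (i, b) * star (Ω (j, b)) = if i = j then (p i : ℂ) else 0)
    (f : α → ℝ) :
    Δ * (∑ i, p i * f i ^ 2 - (∑ i, p i * f i) ^ 2) ≤
      (1 / 2) * ∑ i, ∑ j, ‖blk G Ω i j‖ * (f i - f j) ^ 2 := by
  set H := HA ⊗ₖ (1 : Matrix β β ℂ) + (1 : Matrix α α ℂ) ⊗ₖ HB + G with hH
  set ψ : α × β → ℂ := fun x => (f x.1 : ℂ) * Ω x with hψ
  have hpr : ∀ i, ∑ b, ‖Ω (i, b)‖ ^ 2 = p i := by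
    intro i
    have h1 := hp i i
    rw [if_pos rfl] at h1
    have h2 : ∑ b, Ω (i, b) * star (Ω (i, b)) = ((∑ b, ‖Ω (i, b)‖ ^ 2 : ℝ) : ℂ) := by
      push_cast
      refine Finset.sum_congr rfl fun b _ => ?_
      rw [RCLike.star_def, Complex.mul_conj']
    rw [h2] at h1
    exact_mod_cast h1
  have hnorm : ∑ x, ‖ψ x‖ ^ 2 = ∑ i, p i * f i ^ 2 := by
    rw [Fintype.sum_prod_type]
    refine Finset.sum_congr rfl fun i _ => ?_
    rw [← hpr i, Finset.sum_mul]
    refine Finset.sum_congr rfl fun b _ => ?_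
    simp only [hψ, norm_mul, Complex.norm_real, Real.norm_eq_abs, mul_pow, sq_abs]
    ring
  have hip : star Ω ⬝ᵥ ψ = ((∑ i, p i * f i : ℝ) : ℂ) := by
    simp only [dotProduct, Fintype.sum_prod_type, hψ, Pi.star_apply]
    push_cast
    refine Finset.sum_congr rfl fun i _ => ?_
    have : ∑ b, star (Ω (i, b)) * ((f i : ℂ) * Ω (i, b)) =
        (f i : ℂ) * ∑ b, Ω (i, b) * star (Ω (i, b)) := by
      rw [Finset.mul_sum]
      refine Finset.sum_congr rfl fun b _ => ?_
      ring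
    rw [this, hp i i, if_pos rfl]
    ring
  -- the two expressions
  have h1 : star ψ ⬝ᵥ (H *ᵥ ψ) = ∑ i, ∑ j, ((f i * f j : ℝ) : ℂ) * blk H Ω i j :=
    form_eq H Ω f f
  have h2 : star Ω ⬝ᵥ (H *ᵥ (fun x : α × β => ((f x.1 ^ 2 : ℝ) : ℂ) * Ω x)) =
      ∑ i, ∑ j, ((1 * f j ^ 2 : ℝ) : ℂ) * blk H Ω i j := by
    have := form_eq H Ω (fun _ => 1) (fun i => f i ^ 2)
    simpa only [Complex.ofReal_pow, one_mul, Complex.ofReal_one] using this
  have h3 : star Ω ⬝ᵥ (H *ᵥ (fun x : α × β => ((f x.1 ^ 2 : ℝ) : ℂ) * Ω x)) =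
      ((E * ∑ i, p i * f i ^ 2 : ℝ) : ℂ) := by
    have e1 : star Ω ⬝ᵥ (H *ᵥ (fun x : α × β => ((f x.1 ^ 2 : ℝ) : ℂ) * Ω x)) =
        star (H *ᵥ Ω) ⬝ᵥ (fun x : α × β => ((f x.1 ^ 2 : ℝ) : ℂ) * Ω x) := by
      rw [star_mulVec, h.herm.eq, dotProduct_mulVec]
    rw [e1, h.eig]
    simp only [dotProduct, Fintype.sum_prod_type, Pi.star_apply, Pi.smul_apply, smul_eq_mul]
    push_cast
    rw [Finset.mul_sum]
    refine Finset.sum_congr rfl fun i _ => ?_
    have : ∑ b, star ((E : ℂ) * Ω (i, b)) * ((f i : ℂ) ^ 2 * Ω (i, b)) =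
        (E : ℂ) * (f i : ℂ) ^ 2 * ∑ b, Ω (i, b) * star (Ω (i, b)) := by
      rw [Finset.mul_sum]
      refine Finset.sum_congr rfl fun b _ => ?_
      simp only [star_mul', RCLike.star_def, Complex.conj_ofReal]
      ring
    rw [this, hp i i, if_pos rfl]
    ring
  -- difference only sees G
  have h4 : star ψ ⬝ᵥ (H *ᵥ ψ) - ((E * ∑ i, p i * f i ^ 2 : ℝ) : ℂ) =
      ∑ i, ∑ j, ((f i * f j - f j ^ 2 : ℝ) : ℂ) * blk G Ω i j := by
    rw [h1, ← h3, h2, ← Finset.sum_sub_distrib]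
    refine Finset.sum_congr rfl fun i _ => ?_
    rw [← Finset.sum_sub_distrib]
    refine Finset.sum_congr rfl fun j _ => ?_
    by_cases hij : i = j
    · subst hij
      push_cast
      ring
    · rw [hH, blk_add, blk_add, blk_left HA Ω p hp hij, blk_right HB Ω hij]
      push_cast
      ring
  have h5 : (star ψ ⬝ᵥ (H *ᵥ ψ)).re - E * ∑ i, p i * f i ^ 2 =
      ∑ i, ∑ j, (f i * f j - f j ^ 2) * (blk G Ω i j).re := by
    have := congrArg Complex.re h4
    simp only [Complex.sub_re, Complex.ofReal_re, Complex.re_sum, Complex.re_ofReal_mul] at this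
    exact this
  have h6 : ∑ i, ∑ j, (f i * f j - f j ^ 2) * (blk G Ω i j).re =
      ∑ i, ∑ j, (f i * f j - f i ^ 2) * (blk G Ω i j).re := by
    rw [Finset.sum_comm]
    refine Finset.sum_congr rfl fun i _ => ?_
    refine Finset.sum_congr rfl fun j _ => ?_
    have : (blk G Ω j i).re = (blk G Ω i j).re := by
      rw [← blk_herm hG Ω i j]
      simp
    rw [this]
    ring
  have h7 : ∑ i, ∑ j, (f i * f j - f j ^ 2) * (blk G Ω i j).re =
      - (1 / 2) * ∑ i, ∑ j, (f i - f j) ^ 2 * (blk G Ω i j).re := by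
    have e : (∑ i, ∑ j, (f i * f j - f j ^ 2) * (blk G Ω i j).re) +
        ∑ i, ∑ j, (f i * f j - f i ^ 2) * (blk G Ω i j).re =
        - ∑ i, ∑ j, (f i - f j) ^ 2 * (blk G Ω i j).re := by
      rw [← Finset.sum_add_distrib, ← Finset.sum_neg_distrib]
      refine Finset.sum_congr rfl fun i _ => ?_
      rw [← Finset.sum_add_distrib, ← Finset.sum_neg_distrib]
      refine Finset.sum_congr rfl fun j _ => ?_
      ring
    rw [← h6] at e
    linarith
  have h8 := h.gap ψ
  rw [hnorm, hip, h5, h7, Complex.norm_real, Real.norm_eq_abs, sq_abs] at h8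
  refine h8.trans ?_
  have h9 : - ∑ i, ∑ j, (f i - f j) ^ 2 * (blk G Ω i j).re ≤
      ∑ i, ∑ j, ‖blk G Ω i j‖ * (f i - f j) ^ 2 := by
    rw [← Finset.sum_neg_distrib]
    refine Finset.sum_le_sum fun i _ => ?_
    rw [← Finset.sum_neg_distrib]
    refine Finset.sum_le_sum fun j _ => ?_
    have e1 : - (blk G Ω i j).re ≤ ‖blk G Ω i j‖ :=
      (neg_le_abs _).trans (Complex.abs_re_le_norm _)
    nlinarith only [e1]
  linarith only [h9]

end Vale.Agent.P356.Path
end
end

section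

section

open Matrix Finset
open scoped BigOperators ComplexOrder Kronecker

set_option linter.unusedSectionVars false

namespace Vale.Agent.P356.Path

theorem sq_mul_exp_le (t : ℝ) (ht : 0 ≤ t) : t ^ 2 * Real.exp (-(t / 2)) ≤ 9 / 4 := by
  have h1 : t / 4 * Real.exp (-(t / 4)) ≤ Real.exp (-1) := by
    have h := Real.add_one_le_exp (t / 4 - 1)
    have h2 : t / 4 ≤ Real.exp (t / 4 - 1) := by linarith
    calc t / 4 * Real.exp (-(t / 4)) ≤ Real.exp (t / 4 - 1) * Real.exp (-(t / 4)) :=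
          mul_le_mul_of_nonneg_right h2 (Real.exp_pos _).le
      _ = Real.exp (-1) := by rw [← Real.exp_add]; congr 1; ring
  have h0 : 0 ≤ t / 4 * Real.exp (-(t / 4)) := by positivity
  have h3 : (t / 4 * Real.exp (-(t / 4))) ^ 2 ≤ (Real.exp (-1)) ^ 2 :=
    pow_le_pow_left₀ h0 h1 2
  have h4 : t ^ 2 * Real.exp (-(t / 2)) = 16 * (t / 4 * Real.exp (-(t / 4))) ^ 2 := by
    rw [mul_pow, ← Real.exp_nat_mul]
    have : ((2 : ℕ) : ℝ) * (-(t / 4)) = -(t / 2) := by push_cast; ring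
    rw [this]
    ring
  have h5 : Real.exp (-1) ≤ 3 / 8 := by
    rw [Real.exp_neg]
    have := Real.exp_one_gt_d9
    rw [inv_le_comm₀ (Real.exp_pos _) (by norm_num)]
    norm_num
    linarith only [this]
  have h6 : (Real.exp (-1)) ^ 2 ≤ (3 / 8) ^ 2 :=
    pow_le_pow_left₀ (Real.exp_pos _).le h5 2
  rw [h4]
  nlinarith only [h3, h6]

theorem sqrt_mul_log_aux {x y : ℝ} (hx : 0 < x) (hy : 0 < y) (hxy : y ≤ x) :
    Real.sqrt (x * y) * (Real.log x - Real.log y) ^ 2 ≤ 9 / 4 * x := by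
  set t := Real.log x - Real.log y with ht
  have ht0 : 0 ≤ t := by
    have := Real.log_le_log hy hxy
    linarith only [this]
  have hy' : y = x * Real.exp (-t) := by
    have : Real.exp (-t) = y / x := by
      rw [ht, neg_sub, Real.exp_sub, Real.exp_log hx, Real.exp_log hy]
    rw [this]
    field_simp
  have hs : Real.sqrt (x * y) = x * Real.exp (-(t / 2)) := by
    rw [hy']
    have : x * (x * Real.exp (-t)) = (x * Real.exp (-(t / 2))) ^ 2 := by
      rw [mul_pow, ← Real.exp_nat_mul]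
      have : ((2 : ℕ) : ℝ) * (-(t / 2)) = -t := by push_cast; ring
      rw [this]
      ring
    rw [this, Real.sqrt_sq (by positivity)]
  rw [hs]
  have := sq_mul_exp_le t ht0
  nlinarith only [hx, this]

theorem sqrt_mul_log {x y : ℝ} (hx : 0 < x) (hy : 0 < y) :
    Real.sqrt (x * y) * (Real.log x - Real.log y) ^ 2 ≤ 9 / 4 * (x + y) := by
  rcases le_total y x with h | h
  · have := sqrt_mul_log_aux hx hy h
    linarith
  · have := sqrt_mul_log_aux hy hx h
    have e : (Real.log y - Real.log x) ^ 2 = (Real.log x - Real.log y) ^ 2 := by ring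
    rw [e, mul_comm y x] at this
    linarith only [hx, this]

variable {α β : Type*} [Fintype α] [Fintype β] [DecidableEq α] [DecidableEq β]

theorem prod_bound (p : α → ℝ) (hp0 : ∀ i, 0 ≤ p i)
    (a q : α → α → ℝ) (ha : ∀ i j, 0 ≤ a i j) (hq : ∀ i j, 0 ≤ q i j) {u w : ℝ}
    (ha1 : ∑ i, p i * ∑ j, a i j ^ 2 ≤ u) (ha2 : ∑ j, p j * ∑ i, a i j ^ 2 ≤ u)
    (hq0 : ∀ i j, p i = 0 ∨ p j = 0 → q i j = 0)
    (hq1 : ∑ i, ∑ j, q i j ^ 2 / p j ≤ w) (hq2 : ∑ j, ∑ i, q i j ^ 2 / p i ≤ w)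
    (f : α → ℝ)
    (hf : ∀ i j, 0 < p i → 0 < p j → |f i - f j| ≤ |Real.log (p i) - Real.log (p j)|) :
    ∑ i, ∑ j, a i j * q i j * (f i - f j) ^ 2 ≤ 9 / 2 * Real.sqrt (u * w) := by
  have hu0 : 0 ≤ u := le_trans (Finset.sum_nonneg fun i _ =>
    mul_nonneg (hp0 i) (Finset.sum_nonneg fun j _ => sq_nonneg _)) ha1
  have hw0 : 0 ≤ w := le_trans (Finset.sum_nonneg fun i _ =>
    Finset.sum_nonneg fun j _ => div_nonneg (sq_nonneg _) (hp0 j)) hq1
  set X : α × α → ℝ := fun z => a z.1 z.2 * Real.sqrt (p z.1 + p z.2) with hX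
  set Y : α × α → ℝ := fun z => q z.1 z.2 * Real.sqrt (1 / p z.1 + 1 / p z.2) with hY
  have hpt : ∀ i j, a i j * q i j * (f i - f j) ^ 2 ≤ 9 / 4 * (X (i, j) * Y (i, j)) := by
    intro i j
    by_cases hi : p i = 0
    · simp [hX, hY, hq0 i j (Or.inl hi)]
    by_cases hj : p j = 0
    · simp [hX, hY, hq0 i j (Or.inr hj)]
    have hi' : 0 < p i := lt_of_le_of_ne (hp0 i) (Ne.symm hi)
    have hj' : 0 < p j := lt_of_le_of_ne (hp0 j) (Ne.symm hj)
    set s := Real.sqrt (p i * p j) with hs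
    have hs0 : 0 < s := Real.sqrt_pos.mpr (mul_pos hi' hj')
    set L := Real.log (p i) - Real.log (p j) with hL
    have hL2 : (f i - f j) ^ 2 ≤ L ^ 2 := sq_le_sq.mpr (hf i j hi' hj')
    have hk : s * L ^ 2 ≤ 9 / 4 * (p i + p j) := sqrt_mul_log hi' hj'
    have hXY : X (i, j) * Y (i, j) = a i j * q i j * ((p i + p j) / s) := by
      have e1 : Real.sqrt (p i + p j) * Real.sqrt (1 / p i + 1 / p j) = (p i + p j) / s := by
        rw [← Real.sqrt_mul (by (clear * - hi' hj'; positivity))]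
        have e2 : (p i + p j) * (1 / p i + 1 / p j) = (p i + p j) ^ 2 / (p i * p j) := by
          field_simp
          ring
        rw [e2, Real.sqrt_div (by positivity), Real.sqrt_sq (by (clear * - hi' hj'; positivity))]
      simp only [hX, hY]
      rw [← e1]
      ring
    rw [hXY]
    have h0 : 0 ≤ a i j * q i j := mul_nonneg (ha i j) (hq i j)
    have h1 : (f i - f j) ^ 2 ≤ 9 / 4 * ((p i + p j) / s) := by
      refine hL2.trans ?_
      rw [mul_div_assoc', le_div_iff₀ hs0]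
      linarith only [hk]
    have := mul_le_mul_of_nonneg_left h1 h0
    (clear * - this; linarith)
  have hXX : ∑ z, X z ^ 2 ≤ 2 * u := by
    rw [Fintype.sum_prod_type]
    have e : ∀ i j, X (i, j) ^ 2 = p i * a i j ^ 2 + p j * a i j ^ 2 := by
      intro i j
      simp only [hX]
      rw [mul_pow, Real.sq_sqrt (add_nonneg (hp0 i) (hp0 j))]
      ring
    simp only [e, Finset.sum_add_distrib]
    have e1 : ∑ i, ∑ j, p j * a i j ^ 2 = ∑ j, p j * ∑ i, a i j ^ 2 := by
      rw [Finset.sum_comm]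
      exact Finset.sum_congr rfl fun j _ => (Finset.mul_sum _ _ _).symm
    have e3 : ∑ i, ∑ j, p i * a i j ^ 2 = ∑ i, p i * ∑ j, a i j ^ 2 :=
      Finset.sum_congr rfl fun j _ => (Finset.mul_sum _ _ _).symm
    rw [e1, e3]
    linarith only [ha1, ha2]
  have hYY : ∑ z, Y z ^ 2 ≤ 2 * w := by
    rw [Fintype.sum_prod_type]
    have e : ∀ i j, Y (i, j) ^ 2 = q i j ^ 2 / p i + q i j ^ 2 / p j := by
      intro i j
      simp only [hY]
      rw [mul_pow, Real.sq_sqrt (add_nonneg (one_div_nonneg.mpr (hp0 i))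
        (one_div_nonneg.mpr (hp0 j)))]
      ring
    simp only [e, Finset.sum_add_distrib]
    have e2 : ∑ i, ∑ j, q i j ^ 2 / p i = ∑ j, ∑ i, q i j ^ 2 / p i := Finset.sum_comm
    rw [e2]
    (clear * - hq1 hq2; linarith)
  calc ∑ i, ∑ j, a i j * q i j * (f i - f j) ^ 2
      ≤ ∑ i, ∑ j, 9 / 4 * (X (i, j) * Y (i, j)) :=
        Finset.sum_le_sum fun i _ => Finset.sum_le_sum fun j _ => hpt i j
    _ = 9 / 4 * ∑ z, X z * Y z := by
        rw [Fintype.sum_prod_type, Finset.mul_sum]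
        exact Finset.sum_congr rfl fun i _ => (Finset.mul_sum _ _ _).symm
    _ ≤ 9 / 4 * (Real.sqrt (2 * u) * Real.sqrt (2 * w)) := by
        refine mul_le_mul_of_nonneg_left ?_ (by norm_num)
        refine (Real.sum_mul_le_sqrt_mul_sqrt _ _ _).trans ?_
        exact mul_le_mul (Real.sqrt_le_sqrt hXX) (Real.sqrt_le_sqrt hYY) (Real.sqrt_nonneg _)
          (Real.sqrt_nonneg _)
    _ = 9 / 2 * Real.sqrt (u * w) := by
        rw [← Real.sqrt_mul (by (clear * - hu0; positivity))]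
        have e : 2 * u * (2 * w) = 2 ^ 2 * (u * w) := by ring
        rw [e, Real.sqrt_mul (by norm_num), Real.sqrt_sq (by norm_num)]
        ring

/-- contraction -/
def Contr {n : Type*} [Fintype n] (P : Matrix n n ℂ) : Prop :=
  ∀ v : n → ℂ, ∑ i, ‖(P *ᵥ v) i‖ ^ 2 ≤ ∑ i, ‖v i‖ ^ 2

omit [DecidableEq β] in
/-- Bessel's inequality for the (unnormalized) orthogonal rows of the state. -/
theorem bessel (p : α → ℝ) (Ω : α × β → ℂ)
    (hp : ∀ i j, ∑ b, Ω (i, b) * star (Ω (j, b)) = if i = j then (p i : ℂ) else 0)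
    (hp0 : ∀ i, 0 ≤ p i) (v : β → ℂ) :
    ∑ i, ‖∑ b, star (Ω (i, b)) * v b‖ ^ 2 / p i ≤ ∑ b, ‖v b‖ ^ 2 := by
  classical
  let e : {i : α // 0 < p i} → EuclideanSpace ℂ β := fun i =>
    WithLp.toLp 2 (fun b => ((Real.sqrt (p i.1))⁻¹ : ℂ) * Ω (i.1, b))
  have hin : ∀ (i : {i : α // 0 < p i}) (w : β → ℂ), inner ℂ (e i) (WithLp.toLp 2 w) =
      ((Real.sqrt (p i.1))⁻¹ : ℂ) * ∑ b, star (Ω (i.1, b)) * w b := by
    intro i w
    rw [PiLp.inner_apply, Finset.mul_sum]
    refine Finset.sum_congr rfl fun b _ => ?_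
    simp only [e, RCLike.inner_apply, map_mul, map_inv₀, Complex.conj_ofReal, RCLike.star_def]
    ring
  have ho : Orthonormal ℂ e := by
    rw [orthonormal_iff_ite]
    intro i j
    have h1 := hin i (fun b => ((Real.sqrt (p j.1))⁻¹ : ℂ) * Ω (j.1, b))
    rw [show e j = WithLp.toLp 2 (fun b => ((Real.sqrt (p j.1))⁻¹ : ℂ) * Ω (j.1, b)) from rfl, h1]
    have h2 : ∑ b, star (Ω (i.1, b)) * (((Real.sqrt (p j.1))⁻¹ : ℂ) * Ω (j.1, b)) =
        ((Real.sqrt (p j.1))⁻¹ : ℂ) * ∑ b, Ω (j.1, b) * star (Ω (i.1, b)) := by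
      rw [Finset.mul_sum]
      refine Finset.sum_congr rfl fun b _ => ?_
      ring
    rw [h2, hp]
    by_cases hij : i = j
    · subst hij
      rw [if_pos rfl, if_pos rfl]
      have h3 : Real.sqrt (p i.1) ≠ 0 := (Real.sqrt_pos.mpr i.2).ne'
      have h4 : (p i.1 : ℂ) = (Real.sqrt (p i.1) : ℂ) * (Real.sqrt (p i.1) : ℂ) := by
        rw [← Complex.ofReal_mul, Real.mul_self_sqrt i.2.le]
      rw [h4]
      have h5 : (Real.sqrt (p i.1) : ℂ) ≠ 0 := by exact_mod_cast h3
      field_simp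
    · have : ¬ (j.1 = i.1) := fun h => hij (Subtype.ext h.symm)
      rw [if_neg this, if_neg hij]
      simp
  have hb := ho.sum_inner_products_le (WithLp.toLp 2 v) (s := Finset.univ)
  have hn : ‖(WithLp.toLp 2 v : EuclideanSpace ℂ β)‖ ^ 2 = ∑ b, ‖v b‖ ^ 2 := by
    rw [EuclideanSpace.norm_sq_eq]
  rw [hn] at hb
  refine le_trans (le_of_eq ?_) hb
  have h6 : ∑ i, ‖∑ b, star (Ω (i, b)) * v b‖ ^ 2 / p i =
      ∑ i ∈ Finset.univ.filter (fun i => 0 < p i), ‖∑ b, star (Ω (i, b)) * v b‖ ^ 2 / p i := by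
    rw [Finset.sum_filter]
    refine Finset.sum_congr rfl fun i _ => ?_
    by_cases hi : 0 < p i
    · rw [if_pos hi]
    · rw [if_neg hi]
      have : p i = 0 := le_antisymm (not_lt.mp hi) (hp0 i)
      rw [this, div_zero]
  rw [h6, Finset.sum_subtype (p := fun i => 0 < p i)
    (Finset.univ.filter (fun i => 0 < p i)) (by simp only [mem_filter, mem_univ, true_and, implies_true])]
  refine Finset.sum_congr rfl fun i _ => ?_
  rw [hin, norm_mul, mul_pow, norm_inv, Complex.norm_real, Real.norm_eq_abs, inv_pow, sq_abs,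
    Real.sq_sqrt i.2.le]
  field_simp

end Vale.Agent.P356.Path
end
end

section

section

open Matrix Finset
open scoped BigOperators ComplexOrder Kronecker

set_option linter.unusedSectionVars false

namespace Vale.Agent.P356.Path

section general

variable {n : Type*} [Fintype n]

theorem nsq_eq (ψ : n → ℂ) : star ψ ⬝ᵥ ψ = ((∑ i, ‖ψ i‖ ^ 2 : ℝ) : ℂ) := by
  simp only [dotProduct, Pi.star_apply, RCLike.star_def]
  push_cast
  exact Finset.sum_congr rfl fun i _ => Complex.conj_mul' _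

theorem nsq_re (ψ : n → ℂ) : ∑ i, ‖ψ i‖ ^ 2 = (star ψ ⬝ᵥ ψ).re := by
  rw [nsq_eq, Complex.ofReal_re]

variable [DecidableEq n]

theorem ip_conj (W : Matrix n n ℂ) (hW : W * Wᴴ = 1) (x y : n → ℂ) :
    star (Wᴴ *ᵥ x) ⬝ᵥ (Wᴴ *ᵥ y) = star x ⬝ᵥ y := by
  rw [star_mulVec, conjTranspose_conjTranspose, dotProduct_mulVec, vecMul_vecMul, hW, vecMul_one]

theorem nsq_conj (W : Matrix n n ℂ) (hW : W * Wᴴ = 1) (x : n → ℂ) :
    ∑ i, ‖(Wᴴ *ᵥ x) i‖ ^ 2 = ∑ i, ‖x i‖ ^ 2 := by
  rw [nsq_re, ip_conj W hW, ← nsq_re]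

theorem gapped_conj {H : Matrix n n ℂ} {E Δ : ℝ} {Ω : n → ℂ} (h : Gapped H E Ω Δ)
    (W : Matrix n n ℂ) (hW : W * Wᴴ = 1) : Gapped (Wᴴ * H * W) E (Wᴴ *ᵥ Ω) Δ := by
  have hW' : Wᴴ * W = 1 := mul_eq_one_comm.mp hW
  refine ⟨?_, ?_, ?_, ?_⟩
  · have := h.herm
    unfold Matrix.IsHermitian at *
    rw [conjTranspose_mul, conjTranspose_mul, this, conjTranspose_conjTranspose, Matrix.mul_assoc]
  · rw [nsq_conj W hW, h.unit]
  · rw [mulVec_mulVec, Matrix.mul_assoc, hW, Matrix.mul_one, ← mulVec_mulVec, h.eig, mulVec_smul]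
  · intro ψ
    have e1 : ψ = Wᴴ *ᵥ (W *ᵥ ψ) := by rw [mulVec_mulVec, hW', one_mulVec]
    have e2 : star ψ ⬝ᵥ ((Wᴴ * H * W) *ᵥ ψ) = star (W *ᵥ ψ) ⬝ᵥ (H *ᵥ (W *ᵥ ψ)) := by
      rw [← mulVec_mulVec, ← mulVec_mulVec, star_mulVec, ← dotProduct_mulVec]
    have e3 : star (Wᴴ *ᵥ Ω) ⬝ᵥ ψ = star Ω ⬝ᵥ (W *ᵥ ψ) := by
      conv_lhs => rw [e1]
      rw [ip_conj W hW]
    have e4 : ∑ i, ‖ψ i‖ ^ 2 = ∑ i, ‖(W *ᵥ ψ) i‖ ^ 2 := by
      conv_lhs => rw [e1]
      rw [nsq_conj W hW]
    rw [e2, e3, e4]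
    exact h.gap _

theorem contr_conj {P : Matrix n n ℂ} (hP : Contr P) (U : Matrix n n ℂ) (hU : U * Uᴴ = 1) :
    Contr (Uᴴ * P * U) := by
  have hU' : Uᴴ * U = 1 := mul_eq_one_comm.mp hU
  intro v
  have e1 : (Uᴴ * P * U) *ᵥ v = Uᴴ *ᵥ (P *ᵥ (U *ᵥ v)) := by
    rw [mulVec_mulVec, mulVec_mulVec, Matrix.mul_assoc]
  have e2 : ∑ i, ‖v i‖ ^ 2 = ∑ i, ‖(U *ᵥ v) i‖ ^ 2 := by
    have := nsq_conj U hU (U *ᵥ v)
    rw [mulVec_mulVec, hU', one_mulVec] at this
    exact this
  rw [e1, nsq_conj U hU, e2]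
  exact hP _

theorem contr_col {P : Matrix n n ℂ} (hP : Contr P) (j : n) : ∑ i, ‖P i j‖ ^ 2 ≤ 1 := by
  have := hP (Pi.single j 1)
  simp only [mulVec_single_one, Matrix.col_apply] at this
  refine this.trans (le_of_eq ?_)
  rw [Finset.sum_eq_single j]
  · simp
  · intro b _ hb
    simp [hb]
  · simp only [mem_univ, not_true_eq_false, Pi.single_eq_same, norm_one, one_pow, one_ne_zero, imp_self]

theorem contr_row {P : Matrix n n ℂ} (hP : Contr Pᴴ) (i : n) : ∑ j, ‖P i j‖ ^ 2 ≤ 1 := by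
  have := contr_col hP i
  simpa only [ge_iff_le, conjTranspose_apply, RCLike.star_def, RCLike.norm_conj] using this

end general

variable {α β : Type*} [Fintype α] [Fintype β] [DecidableEq α] [DecidableEq β]

/-- the reduced density matrix on the first factor -/
def redA (Ω : α × β → ℂ) : Matrix α α ℂ := fun a a' => ∑ b, Ω (a, b) * star (Ω (a', b))

omit [Fintype α] [DecidableEq α] [DecidableEq β] in
theorem redA_isHermitian (Ω : α × β → ℂ) : (redA Ω).IsHermitian := by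
  ext a a'
  simp only [redA, conjTranspose_apply, star_sum, star_mul', star_star]
  exact Finset.sum_congr rfl fun b _ => mul_comm _ _

/-- entanglement entropy across the bipartition -/
noncomputable def ent (Ω : α × β → ℂ) : ℝ :=
  ∑ i, Real.negMulLog ((redA_isHermitian Ω).eigenvalues i)

theorem blk_prod_norm (P : Matrix α α ℂ) (Q : Matrix β β ℂ) (Ω : α × β → ℂ) (i j : α) :
    ‖blk (P ⊗ₖ Q) Ω i j‖ = ‖P i j‖ * ‖∑ b, star (Ω (i, b)) * (Q *ᵥ (fun b => Ω (j, b))) b‖ := by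
  rw [← norm_mul]
  congr 1
  simp only [blk, kroneckerMap_apply, mulVec, dotProduct, mul_sum]
  refine Finset.sum_congr rfl fun b _ => ?_
  refine Finset.sum_congr rfl fun b' _ => ?_
  ring

theorem blk_sum {ι : Type*} (s : Finset ι) (X : ι → Matrix (α × β) (α × β) ℂ) (Ω : α × β → ℂ)
    (i j : α) : blk (∑ k ∈ s, X k) Ω i j = ∑ k ∈ s, blk (X k) Ω i j := by
  classical
  induction s using Finset.induction_on with
  | empty => simp only [blk, RCLike.star_def, sum_empty, Matrix.zero_apply, mul_zero, zero_mul, sum_const_zero]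
  | insert a s ha ih => rw [Finset.sum_insert ha, Finset.sum_insert ha, blk_add, ih]

theorem blk_smul (c : ℂ) (X : Matrix (α × β) (α × β) ℂ) (Ω : α × β → ℂ) (i j : α) :
    blk (c • X) Ω i j = c * blk X Ω i j := by
  simp only [blk, Matrix.smul_apply, smul_eq_mul, Finset.mul_sum]
  refine Finset.sum_congr rfl fun b _ => ?_
  refine Finset.sum_congr rfl fun b' _ => ?_
  ring

theorem nsq_left_diag (P : Matrix α α ℂ) (Ω : α × β → ℂ) (p : α → ℝ)
    (hp : ∀ i j, ∑ b, Ω (i, b) * star (Ω (j, b)) = if i = j then (p i : ℂ) else 0) :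
    ∑ z, ‖((P ⊗ₖ (1 : Matrix β β ℂ)) *ᵥ Ω) z‖ ^ 2 = ∑ j, p j * ∑ i, ‖P i j‖ ^ 2 := by
  have h1 : ∀ i b, ((P ⊗ₖ (1 : Matrix β β ℂ)) *ᵥ Ω) (i, b) = ∑ j, P i j * Ω (j, b) := by
    intro i b
    simp only [mulVec, dotProduct, Fintype.sum_prod_type, kroneckerMap_apply,
      one_apply, mul_ite, mul_one, mul_zero]
    refine Finset.sum_congr rfl fun a _ => ?_
    rw [Finset.sum_eq_single b]
    · simp
    · intro b' _ hb
      simp [Ne.symm hb]
    · simp only [mem_univ, not_true_eq_false, ↓reduceIte, mul_eq_zero, IsEmpty.forall_iff]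
  have h2 : ((∑ z, ‖((P ⊗ₖ (1 : Matrix β β ℂ)) *ᵥ Ω) z‖ ^ 2 : ℝ) : ℂ) =
      ((∑ j, p j * ∑ i, ‖P i j‖ ^ 2 : ℝ) : ℂ) := by
    rw [Fintype.sum_prod_type]
    push_cast
    have h3 : ∀ i, ∑ b, (‖((P ⊗ₖ (1 : Matrix β β ℂ)) *ᵥ Ω) (i, b)‖ : ℂ) ^ 2 =
        ∑ j, (p j : ℂ) * (‖P i j‖ : ℂ) ^ 2 := by
      intro i
      calc ∑ b, (‖((P ⊗ₖ (1 : Matrix β β ℂ)) *ᵥ Ω) (i, b)‖ : ℂ) ^ 2
          = ∑ b, ∑ j, ∑ j', (P i j * Ω (j, b)) * star (P i j' * Ω (j', b)) := by
            refine Finset.sum_congr rfl fun b _ => ?_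
            rw [← Complex.mul_conj', h1, map_sum, Finset.sum_mul_sum]
            rfl
        _ = ∑ j, ∑ j', (P i j * star (P i j')) * ∑ b, Ω (j, b) * star (Ω (j', b)) := by
            rw [Finset.sum_comm]
            refine Finset.sum_congr rfl fun j _ => ?_
            rw [Finset.sum_comm]
            refine Finset.sum_congr rfl fun j' _ => ?_
            rw [Finset.mul_sum]
            refine Finset.sum_congr rfl fun b _ => ?_
            rw [star_mul']
            ring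
        _ = ∑ j, (p j : ℂ) * (‖P i j‖ : ℂ) ^ 2 := by
            refine Finset.sum_congr rfl fun j _ => ?_
            rw [Finset.sum_eq_single j]
            · rw [hp, if_pos rfl, ← Complex.mul_conj', RCLike.star_def]
              ring
            · intro j' _ hj
              rw [hp, if_neg (Ne.symm hj), mul_zero]
            · simp only [mem_univ, not_true_eq_false, RCLike.star_def, mul_eq_zero, map_eq_zero, or_self, IsEmpty.forall_iff]
    simp only [h3]
    rw [Finset.sum_comm]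
    exact Finset.sum_congr rfl fun j _ => (Finset.mul_sum _ _ _).symm
  exact_mod_cast h2

theorem nsq_right (Q : Matrix β β ℂ) (Ω : α × β → ℂ) :
    ∑ z, ‖(((1 : Matrix α α ℂ) ⊗ₖ Q) *ᵥ Ω) z‖ ^ 2 =
      ∑ i, ∑ b, ‖(Q *ᵥ (fun b => Ω (i, b))) b‖ ^ 2 := by
  rw [Fintype.sum_prod_type]
  refine Finset.sum_congr rfl fun i _ => Finset.sum_congr rfl fun b _ => ?_
  congr 2
  simp only [mulVec, dotProduct, Fintype.sum_prod_type, kroneckerMap_apply, one_apply]
  rw [Finset.sum_eq_single i]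
  · simp only [↓reduceIte, one_mul]
  · intro i' _ hi
    simp only [Ne.symm hi, ↓reduceIte, zero_mul, sum_const_zero]
  · simp only [mem_univ, not_true_eq_false, ↓reduceIte, one_mul, IsEmpty.forall_iff]

theorem var_bound_diag {ι : Type*} [Fintype ι] (HA : Matrix α α ℂ) (HB : Matrix β β ℂ)
    (c : ι → ℂ) (P : ι → Matrix α α ℂ) (Q : ι → Matrix β β ℂ)
    (hG : (∑ k, c k • (P k ⊗ₖ Q k)).IsHermitian) {E Δ : ℝ} {Ω : α × β → ℂ}
    (h : Gapped (HA ⊗ₖ (1 : Matrix β β ℂ) + (1 : Matrix α α ℂ) ⊗ₖ HB +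
      ∑ k, c k • (P k ⊗ₖ Q k)) E Ω Δ) (u w : ι → ℝ)
    (hu : ∀ k, ∑ z, ‖((P k ⊗ₖ (1 : Matrix β β ℂ)) *ᵥ Ω) z‖ ^ 2 ≤ u k)
    (hu' : ∀ k, ∑ z, ‖(((P k)ᴴ ⊗ₖ (1 : Matrix β β ℂ)) *ᵥ Ω) z‖ ^ 2 ≤ u k)
    (hw : ∀ k, ∑ z, ‖(((1 : Matrix α α ℂ) ⊗ₖ Q k) *ᵥ Ω) z‖ ^ 2 ≤ w k)
    (hw' : ∀ k, ∑ z, ‖(((1 : Matrix α α ℂ) ⊗ₖ (Q k)ᴴ) *ᵥ Ω) z‖ ^ 2 ≤ w k)
    (p : α → ℝ)
    (hp : ∀ i j, ∑ b, Ω (i, b) * star (Ω (j, b)) = if i = j then (p i : ℂ) else 0)
    (f : α → ℝ)
    (hf : ∀ i j, 0 < p i → 0 < p j → |f i - f j| ≤ |Real.log (p i) - Real.log (p j)|) :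
    Δ * (∑ i, p i * f i ^ 2 - (∑ i, p i * f i) ^ 2) ≤
      9 / 4 * ∑ k, ‖c k‖ * Real.sqrt (u k * w k) := by
  have hpn : ∀ i, ∑ b, ‖Ω (i, b)‖ ^ 2 = p i := by
    intro i
    have h1 := hp i i
    rw [if_pos rfl] at h1
    have h2 : ∑ b, Ω (i, b) * star (Ω (i, b)) = ((∑ b, ‖Ω (i, b)‖ ^ 2 : ℝ) : ℂ) := by
      push_cast
      refine Finset.sum_congr rfl fun b _ => ?_
      rw [RCLike.star_def, Complex.mul_conj']
    rw [h2] at h1
    exact_mod_cast h1
  have hp0 : ∀ i, 0 ≤ p i := fun i => by rw [← hpn i]; (clear * -; positivity)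
  refine (poincare_diag HA HB _ hG h p hp f).trans ?_
  -- pointwise bound of the block norms
  let q : ι → α → α → ℝ := fun k i j =>
    ‖∑ b, star (Ω (i, b)) * (Q k *ᵥ (fun b => Ω (j, b))) b‖
  have hblk : ∀ i j, ‖blk (∑ k, c k • (P k ⊗ₖ Q k)) Ω i j‖ ≤
      ∑ k, ‖c k‖ * (‖P k i j‖ * q k i j) := by
    intro i j
    rw [blk_sum]
    refine (norm_sum_le _ _).trans (Finset.sum_le_sum fun k _ => ?_)
    rw [blk_smul, norm_mul, blk_prod_norm]
  have hk : ∀ k, ∑ i, ∑ j, ‖P k i j‖ * q k i j * (f i - f j) ^ 2 ≤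
      9 / 2 * Real.sqrt (u k * w k) := by
    intro k
    have hzero : ∀ i, p i = 0 → ∀ b, Ω (i, b) = 0 := by
      intro i hi b
      have h1 := hpn i
      rw [hi] at h1
      have h2 := (Finset.sum_eq_zero_iff_of_nonneg (fun b _ => by (clear * -; positivity))).mp h1 b
        (Finset.mem_univ b)
      simpa using h2
    have h1 := hu k
    have h2 := hu' k
    have h3 := hw k
    have h4 := hw' k
    rw [nsq_left_diag _ _ p hp] at h1 h2
    rw [nsq_right] at h3 h4
    simp only [conjTranspose_apply, norm_star] at h2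
    refine prod_bound p hp0 (fun i j => ‖P k i j‖) (q k) (fun _ _ => norm_nonneg _)
      (fun _ _ => norm_nonneg _) h2 h1 ?_ ?_ ?_ f hf
    · rintro i j (hi | hj)
      · simp only [q]
        rw [Finset.sum_eq_zero (fun b _ => by rw [hzero i hi b]; simp), norm_zero]
      · simp only [q]
        have : (fun b => Ω (j, b)) = 0 := funext fun b => hzero j hj b
        rw [this, mulVec_zero]
        simp only [RCLike.star_def, Pi.zero_apply, mul_zero, sum_const_zero, norm_zero]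
    · refine le_trans (Finset.sum_le_sum fun i _ => ?_) h4
      -- rewrite with the adjoint
      have hadj : ∀ j, q k i j = ‖∑ b, star (Ω (j, b)) * ((Q k)ᴴ *ᵥ (fun b => Ω (i, b))) b‖ := by
        intro j
        simp only [q]
        rw [← norm_star]
        congr 1
        have e1 : ∑ b, star (Ω (i, b)) * (Q k *ᵥ (fun b => Ω (j, b))) b =
            star (fun b => Ω (i, b)) ⬝ᵥ (Q k *ᵥ (fun b => Ω (j, b))) := rfl
        have e2 : ∑ b, star (Ω (j, b)) * ((Q k)ᴴ *ᵥ (fun b => Ω (i, b))) b =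
            star (fun b => Ω (j, b)) ⬝ᵥ ((Q k)ᴴ *ᵥ (fun b => Ω (i, b))) := rfl
        rw [e1, e2, ← star_dotProduct, star_mulVec, ← dotProduct_mulVec]
      simp only [hadj]
      exact bessel p Ω hp hp0 ((Q k)ᴴ *ᵥ (fun b => Ω (i, b)))
    · refine le_trans (Finset.sum_le_sum fun j _ => ?_) h3
      exact bessel p Ω hp hp0 (Q k *ᵥ (fun b => Ω (j, b)))
  calc (1 / 2) * ∑ i, ∑ j, ‖blk (∑ k, c k • (P k ⊗ₖ Q k)) Ω i j‖ * (f i - f j) ^ 2
      ≤ (1 / 2) * ∑ i, ∑ j, (∑ k, ‖c k‖ * (‖P k i j‖ * q k i j)) * (f i - f j) ^ 2 := by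
        refine mul_le_mul_of_nonneg_left ?_ (by norm_num)
        exact Finset.sum_le_sum fun i _ => Finset.sum_le_sum fun j _ =>
          mul_le_mul_of_nonneg_right (hblk i j) (sq_nonneg _)
    _ = (1 / 2) * ∑ k, ‖c k‖ * ∑ i, ∑ j, ‖P k i j‖ * q k i j * (f i - f j) ^ 2 := by
        congr 1
        simp only [Finset.sum_mul, Finset.mul_sum]
        have e : ∀ i, ∑ j, ∑ k, ‖c k‖ * (‖P k i j‖ * q k i j) * (f i - f j) ^ 2 =
            ∑ k, ∑ j, ‖c k‖ * (‖P k i j‖ * q k i j * (f i - f j) ^ 2) := by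
          intro i
          rw [Finset.sum_comm]
          exact Finset.sum_congr rfl fun k _ => Finset.sum_congr rfl fun j _ => by ring
        simp only [e]
        rw [Finset.sum_comm]
    _ ≤ (1 / 2) * ∑ k, ‖c k‖ * (9 / 2 * Real.sqrt (u k * w k)) := by
        refine mul_le_mul_of_nonneg_left ?_ (by norm_num)
        exact Finset.sum_le_sum fun k _ => mul_le_mul_of_nonneg_left (hk k) (norm_nonneg _)
    _ = 9 / 4 * ∑ k, ‖c k‖ * Real.sqrt (u k * w k) := by
        rw [Finset.mul_sum, Finset.mul_sum]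
        refine Finset.sum_congr rfl fun k _ => ?_
        ring

end Vale.Agent.P356.Path
end
end

section

section

open Matrix Finset
open scoped BigOperators ComplexOrder Kronecker

set_option linter.unusedSectionVars false

namespace Vale.Agent.P356.Path

section general

variable {n : Type*} [Fintype n]

/-- change of the mean of a multiplication operator between two unit vectors -/
theorem mean_shift (x y : n → ℂ) (f : n → ℝ) (hx : ∑ i, ‖x i‖ ^ 2 = 1) (hy : ∑ i, ‖y i‖ ^ 2 = 1)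
    (B : ℝ) (hB : ∀ i, f i - ∑ j, f j * ‖x j‖ ^ 2 ≤ B) :
    ∑ i, f i * ‖y i‖ ^ 2 ≤ ∑ i, f i * ‖x i‖ ^ 2 +
      2 * (Real.sqrt (∑ i, f i ^ 2 * ‖x i‖ ^ 2 - (∑ i, f i * ‖x i‖ ^ 2) ^ 2) *
        Real.sqrt (1 - ‖star x ⬝ᵥ y‖ ^ 2)) + (1 - ‖star x ⬝ᵥ y‖ ^ 2) * B := by
  set m := ∑ i, f i * ‖x i‖ ^ 2 with hm
  set c := star x ⬝ᵥ y with hc
  let z : n → ℂ := fun i => y i - c * x i
  have hcc : ∑ i, (star (c * x i) * z i).re = 0 := by
    have e : ∑ i, star (c * x i) * z i = 0 := by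
      have e1 : ∀ i, star (c * x i) * z i = star c * (star (x i) * y i) -
          star c * c * (star (x i) * x i) := by
        intro i
        simp only [z, star_mul']
        ring
      simp only [e1, Finset.sum_sub_distrib, ← Finset.mul_sum]
      have e2 : ∑ i, star (x i) * y i = c := rfl
      have e3 : ∑ i, star (x i) * x i = 1 := by
        have := nsq_eq x
        rw [hx] at this
        simpa only [RCLike.star_def, dotProduct, Pi.star_apply, Complex.ofReal_one] using this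
      rw [e2, e3]
      ring
    rw [← Complex.re_sum, e, Complex.zero_re]
  have hsplit : ∀ i, ‖y i‖ ^ 2 = ‖c‖ ^ 2 * ‖x i‖ ^ 2 + 2 * (star (c * x i) * z i).re +
      ‖z i‖ ^ 2 := by
    intro i
    have e1 : y i = c * x i + z i := by simp only [z]; ring
    have e2 : ‖c‖ ^ 2 * ‖x i‖ ^ 2 = ‖c * x i‖ ^ 2 := by rw [norm_mul, mul_pow]
    rw [e2]
    conv_lhs => rw [e1]
    rw [← Complex.normSq_eq_norm_sq, Complex.normSq_add, Complex.normSq_eq_norm_sq,
      Complex.normSq_eq_norm_sq]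
    have e3 : (c * x i * (starRingEnd ℂ) (z i)).re = (star (c * x i) * z i).re := by
      rw [← Complex.conj_re]
      simp only [map_mul, Complex.conj_conj, RCLike.star_def]
    rw [e3]
    ring
  have hz : ∑ i, ‖z i‖ ^ 2 = 1 - ‖c‖ ^ 2 := by
    have e : ∑ i, ‖y i‖ ^ 2 = ‖c‖ ^ 2 * ∑ i, ‖x i‖ ^ 2 + 2 * ∑ i, (star (c * x i) * z i).re +
        ∑ i, ‖z i‖ ^ 2 := by
      simp only [hsplit, Finset.sum_add_distrib, Finset.mul_sum]
    rw [hy, hx, hcc] at e
    linarith only [e]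
  have hz0 : 0 ≤ 1 - ‖c‖ ^ 2 := by rw [← hz]; (clear * -; positivity)
  have hc1 : ‖c‖ ≤ 1 := by
    by_contra h
    push Not at h
    nlinarith only [hz0, h]
  set δ := 1 - ‖c‖ ^ 2 with hδ
  -- variance identity
  have hvar : ∑ i, (f i - m) ^ 2 * ‖x i‖ ^ 2 = ∑ i, f i ^ 2 * ‖x i‖ ^ 2 - m ^ 2 := by
    have e : ∀ i, (f i - m) ^ 2 * ‖x i‖ ^ 2 = f i ^ 2 * ‖x i‖ ^ 2 - 2 * m * (f i * ‖x i‖ ^ 2) +
        m ^ 2 * ‖x i‖ ^ 2 := fun i => by ring
    simp only [e, sum_add_distrib, sum_sub_distrib, ← mul_sum]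
    rw [hx, ← hm]
    ring
  have hmean : ∑ i, (f i - m) * ‖x i‖ ^ 2 = 0 := by
    simp only [sub_mul, Finset.sum_sub_distrib, ← Finset.mul_sum]
    rw [hx, ← hm]
    ring
  have hymean : ∑ i, (f i - m) * ‖y i‖ ^ 2 = ∑ i, f i * ‖y i‖ ^ 2 - m := by
    simp only [sub_mul, sum_sub_distrib, ← mul_sum]
    rw [hy]
    ring
  have hexp : ∑ i, (f i - m) * ‖y i‖ ^ 2 =
      2 * ∑ i, (f i - m) * (star (c * x i) * z i).re + ∑ i, (f i - m) * ‖z i‖ ^ 2 := by
    have e : ∀ i, (f i - m) * ‖y i‖ ^ 2 = ‖c‖ ^ 2 * ((f i - m) * ‖x i‖ ^ 2) +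
        2 * ((f i - m) * (star (c * x i) * z i).re) + (f i - m) * ‖z i‖ ^ 2 := by
      intro i
      rw [hsplit i]
      ring
    simp only [e, Finset.sum_add_distrib, ← Finset.mul_sum]
    rw [hmean]
    ring
  have hcross : ∑ i, (f i - m) * (star (c * x i) * z i).re ≤
      Real.sqrt (∑ i, f i ^ 2 * ‖x i‖ ^ 2 - m ^ 2) * Real.sqrt δ := by
    have e1 : ∑ i, (f i - m) * (star (c * x i) * z i).re ≤
        ∑ i, (|f i - m| * ‖x i‖) * ‖z i‖ := by
      refine Finset.sum_le_sum fun i _ => ?_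
      have e2 : |(star (c * x i) * z i).re| ≤ ‖x i‖ * ‖z i‖ := by
        refine (Complex.abs_re_le_norm _).trans ?_
        rw [norm_mul, norm_star, norm_mul]
        have : ‖c‖ * ‖x i‖ ≤ ‖x i‖ := by
          have := mul_le_mul_of_nonneg_right hc1 (norm_nonneg (x i))
          linarith only [this]
        exact mul_le_mul_of_nonneg_right this (norm_nonneg _)
      calc (f i - m) * (star (c * x i) * z i).re ≤ |(f i - m) * (star (c * x i) * z i).re| :=
            le_abs_self _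
        _ = |f i - m| * |(star (c * x i) * z i).re| := abs_mul _ _
        _ ≤ |f i - m| * (‖x i‖ * ‖z i‖) := mul_le_mul_of_nonneg_left e2 (abs_nonneg _)
        _ = (|f i - m| * ‖x i‖) * ‖z i‖ := by ring
    refine e1.trans ((Real.sum_mul_le_sqrt_mul_sqrt _ _ _).trans (le_of_eq ?_))
    rw [hz, ← hvar]
    congr 2
    refine Finset.sum_congr rfl fun i _ => ?_
    rw [mul_pow, sq_abs]
  have hzz : ∑ i, (f i - m) * ‖z i‖ ^ 2 ≤ δ * B := by
    rw [← hz, Finset.sum_mul]
    refine Finset.sum_le_sum fun i _ => ?_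
    have := mul_le_mul_of_nonneg_right (hB i) (sq_nonneg ‖z i‖)
    linarith only [this]
  linarith only [hymean, hexp, hcross, hzz]

end general

variable {α β : Type*} [Fintype α] [Fintype β] [DecidableEq α] [DecidableEq β]

/-- Gibbs-Klein inequality for a unitary overlap matrix. -/
theorem klein (T : Matrix α α ℂ) (hT : T * Tᴴ = 1) (p q : α → ℝ) (hp0 : ∀ i, 0 ≤ p i)
    (hp1 : ∑ i, p i = 1) (hq0 : ∀ i, 0 < q i) (hq1 : ∑ i, q i ≤ 1) :
    ∑ i, Real.negMulLog (p i) ≤ ∑ j, (-Real.log (q j)) * ∑ i, p i * ‖T j i‖ ^ 2 := by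
  have hT' : Tᴴ * T = 1 := mul_eq_one_comm.mp hT
  have hrow : ∀ j, ∑ i, ‖T j i‖ ^ 2 = 1 := by
    intro j
    have := congrFun (congrFun hT j) j
    simp only [mul_apply, conjTranspose_apply, one_apply_eq] at this
    have e : ∑ i, T j i * star (T j i) = ((∑ i, ‖T j i‖ ^ 2 : ℝ) : ℂ) := by
      push_cast
      refine Finset.sum_congr rfl fun b _ => ?_
      rw [RCLike.star_def, Complex.mul_conj']
    rw [e] at this
    exact_mod_cast this
  have hcol : ∀ i, ∑ j, ‖T j i‖ ^ 2 = 1 := by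
    intro j
    have := congrFun (congrFun hT' j) j
    simp only [mul_apply, conjTranspose_apply, one_apply_eq] at this
    have e : ∑ i, star (T i j) * T i j = ((∑ i, ‖T i j‖ ^ 2 : ℝ) : ℂ) := by
      push_cast
      refine Finset.sum_congr rfl fun b _ => ?_
      rw [RCLike.star_def, Complex.conj_mul']
    rw [e] at this
    exact_mod_cast this
  have hpt : ∀ i j, ‖T j i‖ ^ 2 * (p i * Real.log (q j) - p i * Real.log (p i)) ≤
      ‖T j i‖ ^ 2 * (q j - p i) := by
    intro i j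
    refine mul_le_mul_of_nonneg_left ?_ (sq_nonneg _)
    rcases (hp0 i).eq_or_lt with h | h
    · rw [← h]
      have := hq0 j
      simp only [zero_mul, Real.log_zero, mul_zero, sub_self, sub_zero, ge_iff_le]
      exact this.le
    · have h1 := Real.log_le_sub_one_of_pos (div_pos (hq0 j) h)
      rw [Real.log_div (hq0 j).ne' h.ne'] at h1
      have h2 := mul_le_mul_of_nonneg_left h1 h.le
      have h3 : p i * (q j / p i - 1) = q j - p i := by field_simp
      rw [h3] at h2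
      linarith only [h2]
  have hsum : ∑ i, ∑ j, ‖T j i‖ ^ 2 * (p i * Real.log (q j) - p i * Real.log (p i)) ≤
      ∑ i, ∑ j, ‖T j i‖ ^ 2 * (q j - p i) :=
    Finset.sum_le_sum fun i _ => Finset.sum_le_sum fun j _ => hpt i j
  have hr : ∑ i, ∑ j, ‖T j i‖ ^ 2 * (q j - p i) = ∑ j, q j - ∑ i, p i := by
    simp only [mul_sub, Finset.sum_sub_distrib]
    congr 1
    · rw [Finset.sum_comm]
      refine Finset.sum_congr rfl fun j _ => ?_
      rw [← Finset.sum_mul, hrow, one_mul]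
    · refine Finset.sum_congr rfl fun j _ => ?_
      rw [← Finset.sum_mul, hcol, one_mul]
  have hl : ∑ i, ∑ j, ‖T j i‖ ^ 2 * (p i * Real.log (q j) - p i * Real.log (p i)) =
      ∑ i, Real.negMulLog (p i) - ∑ j, (-Real.log (q j)) * ∑ i, p i * ‖T j i‖ ^ 2 := by
    simp only [mul_sub, Finset.sum_sub_distrib]
    have e1 : ∑ i, ∑ j, ‖T j i‖ ^ 2 * (p i * Real.log (p i)) = - ∑ i, Real.negMulLog (p i) := by
      rw [← Finset.sum_neg_distrib]
      refine Finset.sum_congr rfl fun i _ => ?_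
      rw [← Finset.sum_mul, hcol, one_mul, Real.negMulLog]
      ring
    have e2 : ∑ i, ∑ j, ‖T j i‖ ^ 2 * (p i * Real.log (q j)) =
        - ∑ j, (-Real.log (q j)) * ∑ i, p i * ‖T j i‖ ^ 2 := by
      rw [Finset.sum_comm, ← Finset.sum_neg_distrib]
      refine Finset.sum_congr rfl fun j _ => ?_
      rw [Finset.mul_sum, ← Finset.sum_neg_distrib]
      refine Finset.sum_congr rfl fun i _ => ?_
      ring
    rw [e1, e2]
    ring
  rw [hl, hr, hp1] at hsum
  linarith only [hq1, hsum]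

theorem redA_rot (U : Matrix α α ℂ) (y : α × β → ℂ) :
    redA ((U ⊗ₖ (1 : Matrix β β ℂ))ᴴ *ᵥ y) = Uᴴ * redA y * U := by
  have h1 : ∀ i b, ((U ⊗ₖ (1 : Matrix β β ℂ))ᴴ *ᵥ y) (i, b) = ∑ a, star (U a i) * y (a, b) := by
    intro i b
    simp only [mulVec, dotProduct, Fintype.sum_prod_type, conjTranspose_apply, kroneckerMap_apply,
      one_apply, mul_ite, mul_one, mul_zero]
    refine Finset.sum_congr rfl fun a _ => ?_
    rw [Finset.sum_eq_single b]
    · simp only [↓reduceIte, RCLike.star_def]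
    · intro b' _ hb
      simp only [hb, ↓reduceIte, star_zero, zero_mul]
    · simp only [mem_univ, not_true_eq_false, ↓reduceIte, RCLike.star_def, mul_eq_zero, map_eq_zero, IsEmpty.forall_iff]
  ext i j
  have hl : redA ((U ⊗ₖ (1 : Matrix β β ℂ))ᴴ *ᵥ y) i j =
      ∑ b, ∑ a, ∑ a', star (U a i) * y (a, b) * (U a' j * star (y (a', b))) := by
    simp only [redA, h1, star_sum, star_mul', star_star]
    exact Finset.sum_congr rfl fun b _ => Finset.sum_mul_sum _ _ _ _
  have hr : (Uᴴ * redA y * U) i j =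
      ∑ a', ∑ a, ∑ b, star (U a i) * y (a, b) * (U a' j * star (y (a', b))) := by
    simp only [mul_apply, redA, conjTranspose_apply, Finset.sum_mul, Finset.mul_sum]
    exact Finset.sum_congr rfl fun _ _ => Finset.sum_congr rfl fun _ _ =>
      Finset.sum_congr rfl fun _ _ => by ring
  rw [hl, hr, Finset.sum_comm]
  rw [Finset.sum_comm (s := Finset.univ (α := α)) (t := Finset.univ (α := α))]
  refine Finset.sum_congr rfl fun a _ => ?_
  rw [Finset.sum_comm]

end Vale.Agent.P356.Path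
end
end

section

section

open Matrix Finset
open scoped BigOperators ComplexOrder Kronecker

set_option linter.unusedSectionVars false

namespace Vale.Agent.P356.Path

variable {α β : Type*} [Fintype α] [Fintype β] [DecidableEq α] [DecidableEq β]

/-- eigenvector unitary of the reduced state -/
noncomputable def eigU (Ω : α × β → ℂ) : Matrix α α ℂ :=
  ((redA_isHermitian Ω).eigenvectorUnitary : Matrix α α ℂ)

/-- eigenvalues of the reduced state -/
noncomputable def eigp (Ω : α × β → ℂ) : α → ℝ := (redA_isHermitian Ω).eigenvalues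

theorem eigU_mul (Ω : α × β → ℂ) : eigU Ω * (eigU Ω)ᴴ = 1 := by
  have := (redA_isHermitian Ω).eigenvectorUnitary.2
  rw [Matrix.mem_unitaryGroup_iff] at this
  exact this

theorem eigU_mul' (Ω : α × β → ℂ) : (eigU Ω)ᴴ * eigU Ω = 1 := mul_eq_one_comm.mp (eigU_mul Ω)

theorem eigU_diag (Ω : α × β → ℂ) :
    (eigU Ω)ᴴ * redA Ω * eigU Ω = diagonal (fun i => (eigp Ω i : ℂ)) := by
  have := (redA_isHermitian Ω).conjStarAlgAut_star_eigenvectorUnitary
  rw [Unitary.conjStarAlgAut_star_apply] at this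
  exact this

theorem redA_spec (Ω : α × β → ℂ) :
    redA Ω = eigU Ω * diagonal (fun i => (eigp Ω i : ℂ)) * (eigU Ω)ᴴ := by
  rw [← eigU_diag]
  have h := eigU_mul Ω
  calc redA Ω = (eigU Ω * (eigU Ω)ᴴ) * redA Ω * (eigU Ω * (eigU Ω)ᴴ) := by
        rw [h, Matrix.one_mul, Matrix.mul_one]
    _ = _ := by simp only [Matrix.mul_assoc]

/-- rotation to the eigenbasis of the reference state -/
noncomputable def rotW (Ω : α × β → ℂ) : Matrix (α × β) (α × β) ℂ :=
  eigU Ω ⊗ₖ (1 : Matrix β β ℂ)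

theorem rotW_mul (Ω : α × β → ℂ) : rotW Ω * (rotW Ω)ᴴ = 1 := by
  rw [rotW, conjTranspose_kronecker, ← mul_kronecker_mul, eigU_mul, conjTranspose_one,
    Matrix.mul_one, one_kronecker_one]

theorem rot_self (Ω : α × β → ℂ) (i j : α) :
    ∑ b, ((rotW Ω)ᴴ *ᵥ Ω) (i, b) * star (((rotW Ω)ᴴ *ᵥ Ω) (j, b)) =
      if i = j then (eigp Ω i : ℂ) else 0 := by
  have h : redA ((rotW Ω)ᴴ *ᵥ Ω) i j = diagonal (fun i => (eigp Ω i : ℂ)) i j := by
    rw [rotW, redA_rot, eigU_diag]
  rw [diagonal_apply] at h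
  exact h

theorem row_norm_of_diag {Ω : α × β → ℂ} {p : α → ℝ}
    (hp : ∀ i j, ∑ b, Ω (i, b) * star (Ω (j, b)) = if i = j then (p i : ℂ) else 0) (i : α) :
    ∑ b, ‖Ω (i, b)‖ ^ 2 = p i := by
  have h1 := hp i i
  rw [if_pos rfl] at h1
  have h2 : ∑ b, Ω (i, b) * star (Ω (i, b)) = ((∑ b, ‖Ω (i, b)‖ ^ 2 : ℝ) : ℂ) := by
    push_cast
    refine Finset.sum_congr rfl fun b _ => ?_
    rw [RCLike.star_def, Complex.mul_conj']
  rw [h2] at h1
  exact_mod_cast h1

theorem eigp_nonneg (Ω : α × β → ℂ) (i : α) : 0 ≤ eigp Ω i := by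
  rw [← row_norm_of_diag (rot_self Ω) i]
  positivity

theorem eigp_sum (Ω : α × β → ℂ) (h : ∑ x, ‖Ω x‖ ^ 2 = 1) : ∑ i, eigp Ω i = 1 := by
  rw [← h, ← nsq_conj (rotW Ω) (rotW_mul Ω) Ω, Fintype.sum_prod_type]
  exact Finset.sum_congr rfl fun i _ => (row_norm_of_diag (rot_self Ω) i).symm

/-- Klein's inequality for the entanglement entropy of `y` against a reference frame. -/
theorem ent_le (x y : α × β → ℂ) (hy : ∑ i, ‖y i‖ ^ 2 = 1) (q : α → ℝ) (hq0 : ∀ i, 0 < q i)
    (hq1 : ∑ i, q i ≤ 1) :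
    ent y ≤ ∑ z : α × β, (-Real.log (q z.1)) * ‖((rotW x)ᴴ *ᵥ y) z‖ ^ 2 := by
  have hT : ((eigU x)ᴴ * eigU y) * ((eigU x)ᴴ * eigU y)ᴴ = 1 := by
    rw [conjTranspose_mul, conjTranspose_conjTranspose]
    calc (eigU x)ᴴ * eigU y * ((eigU y)ᴴ * eigU x) =
        (eigU x)ᴴ * (eigU y * (eigU y)ᴴ) * eigU x := by simp only [Matrix.mul_assoc]
      _ = 1 := by rw [eigU_mul, Matrix.mul_one, eigU_mul']
  have h := klein ((eigU x)ᴴ * eigU y) hT (eigp y) q (eigp_nonneg y) (eigp_sum y hy) hq0 hq1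
  refine h.trans (le_of_eq ?_)
  rw [Fintype.sum_prod_type]
  refine Finset.sum_congr rfl fun j _ => ?_
  show _ = ∑ b, -Real.log (q j) * ‖((rotW x)ᴴ *ᵥ y) (j, b)‖ ^ 2
  rw [← Finset.mul_sum]
  congr 1
  have e1 : redA ((rotW x)ᴴ *ᵥ y) j j = ((∑ b, ‖((rotW x)ᴴ *ᵥ y) (j, b)‖ ^ 2 : ℝ) : ℂ) := by
    rw [redA]
    push_cast
    refine Finset.sum_congr rfl fun b _ => ?_
    rw [RCLike.star_def, Complex.mul_conj']
  have e2 : redA ((rotW x)ᴴ *ᵥ y) j j =
      ((∑ i, eigp y i * ‖((eigU x)ᴴ * eigU y) j i‖ ^ 2 : ℝ) : ℂ) := by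
    rw [rotW, redA_rot, redA_spec y]
    have : (eigU x)ᴴ * (eigU y * diagonal (fun i => (eigp y i : ℂ)) * (eigU y)ᴴ) * eigU x =
        ((eigU x)ᴴ * eigU y) * diagonal (fun i => (eigp y i : ℂ)) * ((eigU x)ᴴ * eigU y)ᴴ := by
      rw [conjTranspose_mul, conjTranspose_conjTranspose]
      simp only [Matrix.mul_assoc]
    rw [this]
    rw [mul_apply]
    push_cast
    refine Finset.sum_congr rfl fun i _ => ?_
    rw [mul_diagonal, conjTranspose_apply, ← Complex.mul_conj', RCLike.star_def]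
    ring
  exact_mod_cast (e2.symm.trans e1)

/-- All log-Lipschitz functions of the entanglement spectrum have variance at most `K`. -/
def VarBd (x : α × β → ℂ) (K : ℝ) : Prop :=
  ∀ f : α → ℝ, (∀ i j, 0 < eigp x i → 0 < eigp x j →
      |f i - f j| ≤ |Real.log (eigp x i) - Real.log (eigp x j)|) →
    ∑ i, eigp x i * f i ^ 2 - (∑ i, eigp x i * f i) ^ 2 ≤ K

theorem rotW_conj (x : α × β → ℂ) (X : Matrix α α ℂ) (Y : Matrix β β ℂ) :
    (rotW x)ᴴ * (X ⊗ₖ Y) * rotW x = ((eigU x)ᴴ * X * eigU x) ⊗ₖ Y := by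
  rw [rotW, conjTranspose_kronecker, ← mul_kronecker_mul, ← mul_kronecker_mul,
    conjTranspose_one, Matrix.one_mul, Matrix.mul_one]

/-- The entanglement Poincare inequality, expectation version. -/
theorem varBd_of_gapped {ι : Type*} [Fintype ι] (HA : Matrix α α ℂ) (HB : Matrix β β ℂ)
    (c : ι → ℂ) (P : ι → Matrix α α ℂ) (Q : ι → Matrix β β ℂ)
    (hG : (∑ k, c k • (P k ⊗ₖ Q k)).IsHermitian) {E Δ : ℝ} (hΔ : 0 < Δ) {x : α × β → ℂ}
    (h : Gapped (HA ⊗ₖ (1 : Matrix β β ℂ) + (1 : Matrix α α ℂ) ⊗ₖ HB +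
      ∑ k, c k • (P k ⊗ₖ Q k)) E x Δ) (u w : ι → ℝ)
    (hu : ∀ k, ∑ z, ‖((P k ⊗ₖ (1 : Matrix β β ℂ)) *ᵥ x) z‖ ^ 2 ≤ u k)
    (hu' : ∀ k, ∑ z, ‖(((P k)ᴴ ⊗ₖ (1 : Matrix β β ℂ)) *ᵥ x) z‖ ^ 2 ≤ u k)
    (hw : ∀ k, ∑ z, ‖(((1 : Matrix α α ℂ) ⊗ₖ Q k) *ᵥ x) z‖ ^ 2 ≤ w k)
    (hw' : ∀ k, ∑ z, ‖(((1 : Matrix α α ℂ) ⊗ₖ (Q k)ᴴ) *ᵥ x) z‖ ^ 2 ≤ w k) :
    VarBd x (9 / 4 * (∑ k, ‖c k‖ * Real.sqrt (u k * w k)) / Δ) := by
  intro f hf
  have hWW := rotW_mul x
  have hrot := gapped_conj h (rotW x) hWW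
  have hHrot : (rotW x)ᴴ * (HA ⊗ₖ (1 : Matrix β β ℂ) + (1 : Matrix α α ℂ) ⊗ₖ HB +
      ∑ k, c k • (P k ⊗ₖ Q k)) * rotW x =
      ((eigU x)ᴴ * HA * eigU x) ⊗ₖ (1 : Matrix β β ℂ) + (1 : Matrix α α ℂ) ⊗ₖ HB +
      ∑ k, c k • (((eigU x)ᴴ * P k * eigU x) ⊗ₖ Q k) := by
    rw [Matrix.mul_add, Matrix.mul_add, Matrix.add_mul, Matrix.add_mul, rotW_conj, rotW_conj,
      Matrix.mul_one, eigU_mul', Matrix.mul_sum, Matrix.sum_mul]
    congr 1
    refine Finset.sum_congr rfl fun k _ => ?_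
    rw [Matrix.mul_smul, Matrix.smul_mul, rotW_conj]
  rw [hHrot] at hrot
  have hGrot : (∑ k, c k • (((eigU x)ᴴ * P k * eigU x) ⊗ₖ Q k)).IsHermitian := by
    have e : ∑ k, c k • (((eigU x)ᴴ * P k * eigU x) ⊗ₖ Q k) =
        (rotW x)ᴴ * (∑ k, c k • (P k ⊗ₖ Q k)) * rotW x := by
      rw [Matrix.mul_sum, Matrix.sum_mul]
      refine Finset.sum_congr rfl fun k _ => ?_
      rw [Matrix.mul_smul, Matrix.smul_mul, rotW_conj]
    rw [e]
    exact isHermitian_conjTranspose_mul_mul _ hG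
  have hleft : ∀ X : Matrix α α ℂ,
      ∑ z, ‖((((eigU x)ᴴ * X * eigU x) ⊗ₖ (1 : Matrix β β ℂ)) *ᵥ ((rotW x)ᴴ *ᵥ x)) z‖ ^ 2 =
      ∑ z, ‖((X ⊗ₖ (1 : Matrix β β ℂ)) *ᵥ x) z‖ ^ 2 := by
    intro X
    rw [← rotW_conj, mulVec_mulVec, Matrix.mul_assoc, hWW, Matrix.mul_one, ← mulVec_mulVec,
      nsq_conj (rotW x) hWW]
  have hright : ∀ X : Matrix β β ℂ,
      ∑ z, ‖(((1 : Matrix α α ℂ) ⊗ₖ X) *ᵥ ((rotW x)ᴴ *ᵥ x)) z‖ ^ 2 =
      ∑ z, ‖(((1 : Matrix α α ℂ) ⊗ₖ X) *ᵥ x) z‖ ^ 2 := by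
    intro X
    have e1 : ((1 : Matrix α α ℂ) ⊗ₖ X) = (rotW x)ᴴ * ((1 : Matrix α α ℂ) ⊗ₖ X) * rotW x := by
      rw [rotW_conj, Matrix.mul_one, eigU_mul']
    conv_lhs => rw [e1]
    rw [mulVec_mulVec, Matrix.mul_assoc, hWW, Matrix.mul_one, ← mulVec_mulVec,
      nsq_conj (rotW x) hWW]
  have hvar := var_bound_diag ((eigU x)ᴴ * HA * eigU x) HB c
    (fun k => (eigU x)ᴴ * P k * eigU x) Q hGrot hrot u w
    (fun k => by rw [hleft]; exact hu k)
    (fun k => by
      have : ((eigU x)ᴴ * P k * eigU x)ᴴ = (eigU x)ᴴ * (P k)ᴴ * eigU x := by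
        rw [conjTranspose_mul, conjTranspose_mul, conjTranspose_conjTranspose, Matrix.mul_assoc]
      rw [this, hleft]
      exact hu' k)
    (fun k => by rw [hright]; exact hw k)
    (fun k => by rw [hright]; exact hw' k) (eigp x) (rot_self x) f hf
  rw [le_div_iff₀ hΔ]
  linarith only [hvar]

theorem norm_ip_le {n : Type*} [Fintype n] (x y : n → ℂ) :
    ‖star x ⬝ᵥ y‖ ≤ Real.sqrt (∑ i, ‖x i‖ ^ 2) * Real.sqrt (∑ i, ‖y i‖ ^ 2) := by
  have e1 : ‖star x ⬝ᵥ y‖ ≤ ∑ i, ‖x i‖ * ‖y i‖ := by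
    rw [dotProduct]
    refine (norm_sum_le _ _).trans (Finset.sum_le_sum fun i _ => ?_)
    rw [norm_mul, Pi.star_apply, norm_star]
  exact e1.trans (Real.sum_mul_le_sqrt_mul_sqrt _ _ _)

theorem norm_ip_le_one {n : Type*} [Fintype n] {x y : n → ℂ} (hx : ∑ i, ‖x i‖ ^ 2 = 1)
    (hy : ∑ i, ‖y i‖ ^ 2 = 1) : ‖star x ⬝ᵥ y‖ ≤ 1 := by
  have := norm_ip_le x y
  rwa [hx, hy, Real.sqrt_one, one_mul] at this

theorem nonempty_of_unit {x : α × β → ℂ} (hx : ∑ i, ‖x i‖ ^ 2 = 1) : Nonempty α := by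
  by_contra hcon
  rw [not_nonempty_iff] at hcon
  have hp1 := eigp_sum x hx
  rw [Finset.univ_eq_empty, Finset.sum_empty] at hp1
  exact zero_ne_one hp1

/-- One step of the path argument: `x` is the reference state, `y` the new state. -/
theorem step {x : α × β → ℂ} (hx : ∑ i, ‖x i‖ ^ 2 = 1) {K : ℝ} (hK : VarBd x K)
    (y : α × β → ℂ) (hy : ∑ i, ‖y i‖ ^ 2 = 1) (η : ℝ) (hη0 : 0 < η) (hη1 : η < 1) :
    ent y ≤ ent x + (-Real.log (1 - η)) +
      2 * (Real.sqrt K * Real.sqrt (1 - ‖star x ⬝ᵥ y‖ ^ 2)) +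
      (1 - ‖star x ⬝ᵥ y‖ ^ 2) * Real.log (Fintype.card α / η) := by
  set p := eigp x with hpdef
  have hp0 := eigp_nonneg x
  have hp1 := eigp_sum x hx
  have hne : Nonempty α := nonempty_of_unit hx
  have hD : (0 : ℝ) < Fintype.card α := by exact_mod_cast Fintype.card_pos
  set ε : ℝ := η / Fintype.card α with hε
  have hε0 : 0 < ε := div_pos hη0 hD
  let q : α → ℝ := fun i => (1 - η) * p i + ε
  have hq0 : ∀ i, 0 < q i := fun i => by
    have := hp0 i
    have h1 : 0 ≤ (1 - η) * p i := mul_nonneg (by linarith only [hη1]) this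
    simp only [q]
    linarith only [hε0, h1]
  have hqs : ∑ i, q i = 1 := by
    simp only [q, Finset.sum_add_distrib, ← Finset.mul_sum]
    rw [hp1, Finset.sum_const, Finset.card_univ, nsmul_eq_mul, hε]
    field_simp
    ring
  have hq1 : ∀ i, q i ≤ 1 := fun i => by
    rw [← hqs]
    exact Finset.single_le_sum (fun j _ => (hq0 j).le) (Finset.mem_univ i)
  let f : α → ℝ := fun i => -Real.log (q i)
  have hf0 : ∀ i, 0 ≤ f i := fun i => by
    have := Real.log_nonpos (hq0 i).le (hq1 i)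
    simp only [f]
    linarith only [this]
  have hfB : ∀ i, f i ≤ Real.log (Fintype.card α / η) := fun i => by
    have h1 : Real.log ε ≤ Real.log (q i) := by
      refine Real.log_le_log hε0 ?_
      have : 0 ≤ (1 - η) * p i := mul_nonneg (by linarith only [hη1]) (hp0 i)
      simp only [q]
      linarith only [this]
    have h2 : Real.log (Fintype.card α / η) = -Real.log ε := by
      rw [hε, ← Real.log_inv, inv_div]
    rw [h2]
    simp only [f]
    linarith only [h1]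
  have hlip : ∀ i j, 0 < p i → 0 < p j → |f i - f j| ≤ |Real.log (p i) - Real.log (p j)| := by
    have key : ∀ i j, 0 < p i → 0 < p j → p j ≤ p i →
        |f i - f j| ≤ |Real.log (p i) - Real.log (p j)| := by
      intro i j hi hj hij
      have h1 : q j ≤ q i := by
        simp only [q]
        have := mul_le_mul_of_nonneg_left hij (by linarith only [hη1] : (0 : ℝ) ≤ 1 - η)
        linarith only [this]
      have h2 : Real.log (q j) ≤ Real.log (q i) := Real.log_le_log (hq0 j) h1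
      have h3 : Real.log (p j) ≤ Real.log (p i) := Real.log_le_log hj hij
      have h4 : Real.log (q i) - Real.log (q j) ≤ Real.log (p i) - Real.log (p j) := by
        rw [← Real.log_div (hq0 i).ne' (hq0 j).ne', ← Real.log_div hi.ne' hj.ne']
        refine Real.log_le_log (div_pos (hq0 i) (hq0 j)) ?_
        rw [div_le_div_iff₀ (hq0 j) hj]
        simp only [q]
        nlinarith only [hε0, hij]
      have e1 : f i - f j = -(Real.log (q i) - Real.log (q j)) := by
        simp only [f]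
        ring
      rw [e1, abs_neg, abs_of_nonneg (by linarith only [h2]), abs_of_nonneg (by linarith only [h3])]
      exact h4
    intro i j hi hj
    rcases le_total (p j) (p i) with h1 | h1
    · exact key i j hi hj h1
    · rw [abs_sub_comm (f i), abs_sub_comm (Real.log (p i))]
      exact key j i hj hi h1
  have hvar := hK f hlip
  -- means in the rotated frame
  set W := rotW x with hW
  have hWW := rotW_mul x
  set xr := Wᴴ *ᵥ x with hxr
  set yr := Wᴴ *ᵥ y with hyr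
  have hrow := row_norm_of_diag (rot_self x)
  have hmean : ∑ z : α × β, f z.1 * ‖xr z‖ ^ 2 = ∑ i, p i * f i := by
    rw [Fintype.sum_prod_type]
    refine Finset.sum_congr rfl fun i _ => ?_
    show ∑ b, f i * ‖xr (i, b)‖ ^ 2 = _
    rw [← Finset.mul_sum, hrow, mul_comm]
  have hsq : ∑ z : α × β, f z.1 ^ 2 * ‖xr z‖ ^ 2 = ∑ i, p i * f i ^ 2 := by
    rw [Fintype.sum_prod_type]
    refine Finset.sum_congr rfl fun i _ => ?_
    show ∑ b, f i ^ 2 * ‖xr (i, b)‖ ^ 2 = _
    rw [← Finset.mul_sum, hrow, mul_comm]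
  have hmean0 : 0 ≤ ∑ i, p i * f i :=
    Finset.sum_nonneg fun i _ => mul_nonneg (hp0 i) (hf0 i)
  have hxr1 : ∑ z, ‖xr z‖ ^ 2 = 1 := by rw [hxr, nsq_conj W hWW, hx]
  have hyr1 : ∑ z, ‖yr z‖ ^ 2 = 1 := by rw [hyr, nsq_conj W hWW, hy]
  have hov : star xr ⬝ᵥ yr = star x ⬝ᵥ y := by rw [hxr, hyr, ip_conj W hWW]
  have hshift := mean_shift xr yr (fun z => f z.1) hxr1 hyr1 (Real.log (Fintype.card α / η))
    (fun z => by
      rw [hmean]
      have := hfB z.1
      linarith only [hmean0, this])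
  rw [hmean, hsq, hov] at hshift
  -- Klein
  have hKl := ent_le x y hy q hq0 hqs.le
  have hKl' : ent y ≤ ∑ z : α × β, f z.1 * ‖yr z‖ ^ 2 := hKl
  -- reference entropy
  have hS : ∑ i, p i * f i ≤ ent x + (-Real.log (1 - η)) := by
    have e1 : ∀ i, p i * f i ≤ Real.negMulLog (p i) + p i * (-Real.log (1 - η)) := by
      intro i
      rcases (hp0 i).eq_or_lt with h0 | h0
      · rw [hpdef, ← h0]
        simp
      · have h1 : Real.log ((1 - η) * p i) ≤ Real.log (q i) := by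
          refine Real.log_le_log (mul_pos (by linarith only [hη1]) h0) ?_
          simp only [q]
          linarith only [hε0]
        rw [Real.log_mul (by linarith only [hη1]) h0.ne'] at h1
        have h2 := mul_le_mul_of_nonneg_left h1 h0.le
        simp only [f, Real.negMulLog]
        linarith only [h2]
    calc ∑ i, p i * f i ≤ ∑ i, (Real.negMulLog (p i) + p i * (-Real.log (1 - η))) :=
          Finset.sum_le_sum fun i _ => e1 i
      _ = ent x + (-Real.log (1 - η)) := by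
          rw [Finset.sum_add_distrib, ← Finset.sum_mul, hp1, one_mul]
          rfl
  have hV : Real.sqrt (∑ i, p i * f i ^ 2 - (∑ i, p i * f i) ^ 2) ≤ Real.sqrt K :=
    Real.sqrt_le_sqrt hvar
  have hV2 := mul_le_mul_of_nonneg_right hV (Real.sqrt_nonneg (1 - ‖star x ⬝ᵥ y‖ ^ 2))
  linarith only [hshift, hKl, hS, hV2]

end Vale.Agent.P356.Path
end
end

section

section

open Matrix Finset
open scoped BigOperators ComplexOrder Kronecker

set_option linter.unusedSectionVars false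

namespace Vale.Agent.P356.Path

variable {α β : Type*} [Fintype α] [Fintype β] [DecidableEq α] [DecidableEq β]

section general
variable {n : Type*} [Fintype n]

theorem Gapped.form_self {H : Matrix n n ℂ} {E Δ : ℝ} {Ω : n → ℂ} (h : Gapped H E Ω Δ) :
    (star Ω ⬝ᵥ (H *ᵥ Ω)).re = E := by
  rw [h.eig, dotProduct_smul, nsq_eq, h.unit]
  simp

theorem norm_ip_comm (x y : n → ℂ) : ‖star x ⬝ᵥ y‖ = ‖star y ⬝ᵥ x‖ := by
  rw [star_dotProduct, norm_star]

/-- Two gapped ground states of `H` and `H + h V`: the infidelity is controlled by the drop of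
the expectation of `V`. -/
theorem infidelity_le {H V : Matrix n n ℂ} {h E E' Δ : ℝ} {x y : n → ℂ}
    (hx : Gapped H E x Δ) (hy : Gapped (H + (h : ℂ) • V) E' y Δ) :
    2 * Δ * (1 - ‖star x ⬝ᵥ y‖ ^ 2) ≤
      h * ((star x ⬝ᵥ (V *ᵥ x)).re - (star y ⬝ᵥ (V *ᵥ y)).re) := by
  have h1 := hx.gap y
  have h2 := hy.gap x
  rw [norm_ip_comm y x] at h2
  have h3 := hx.form_self
  have h4 := hy.form_self
  rw [add_mulVec, dotProduct_add, Complex.add_re, smul_mulVec, dotProduct_smul, smul_eq_mul,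
    Complex.re_ofReal_mul] at h2 h4
  rw [hy.unit] at h1
  rw [hx.unit] at h2
  linarith

end general

theorem contr_kron {P : Matrix α α ℂ} {Q : Matrix β β ℂ} (hP : Contr P) (hQ : Contr Q) :
    Contr (P ⊗ₖ Q) := by
  intro v
  let w : α → β → ℂ := fun a b => (Q *ᵥ (fun b' => v (a, b'))) b
  have e1 : ∀ i b, ((P ⊗ₖ Q) *ᵥ v) (i, b) = (P *ᵥ (fun a => w a b)) i := by
    intro i b
    simp only [mulVec, dotProduct, Fintype.sum_prod_type, kroneckerMap_apply, w, Finset.mul_sum]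
    exact Finset.sum_congr rfl fun _ _ => Finset.sum_congr rfl fun _ _ => by ring
  calc ∑ x, ‖((P ⊗ₖ Q) *ᵥ v) x‖ ^ 2 = ∑ b, ∑ i, ‖(P *ᵥ (fun a => w a b)) i‖ ^ 2 := by
        rw [Fintype.sum_prod_type, Finset.sum_comm]
        exact Finset.sum_congr rfl fun _ _ => Finset.sum_congr rfl fun _ _ => by rw [e1]
    _ ≤ ∑ b, ∑ a, ‖w a b‖ ^ 2 := Finset.sum_le_sum fun b _ => hP _
    _ = ∑ a, ∑ b, ‖w a b‖ ^ 2 := Finset.sum_comm
    _ ≤ ∑ a, ∑ b, ‖v (a, b)‖ ^ 2 := Finset.sum_le_sum fun a _ => hQ _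
    _ = ∑ x, ‖v x‖ ^ 2 := by rw [Fintype.sum_prod_type]

theorem contr_one {n : Type*} [Fintype n] [DecidableEq n] : Contr (1 : Matrix n n ℂ) := by
  intro v
  rw [one_mulVec]

/-- Chaining of the steps. -/
theorem chain (n : ℕ) (x : ℕ → α × β → ℂ) (hx : ∀ k ≤ n, ∑ i, ‖x k i‖ ^ 2 = 1)
    (K : ℕ → ℝ) (hK0 : ∀ k < n, 0 ≤ K k) (hK : ∀ k < n, VarBd (x k) (K k))
    (η : ℝ) (hη0 : 0 < η) (hη1 : η < 1) :
    ent (x n) ≤ ent (x 0) + n * (-Real.log (1 - η)) +
      2 * (Real.sqrt (∑ k ∈ Finset.range n, K k) *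
        Real.sqrt (∑ k ∈ Finset.range n, (1 - ‖star (x k) ⬝ᵥ x (k + 1)‖ ^ 2))) +
      (∑ k ∈ Finset.range n, (1 - ‖star (x k) ⬝ᵥ x (k + 1)‖ ^ 2)) *
        Real.log (Fintype.card α / η) := by
  set δ : ℕ → ℝ := fun k => 1 - ‖star (x k) ⬝ᵥ x (k + 1)‖ ^ 2 with hδ
  have hδ0 : ∀ k, k < n → 0 ≤ δ k := by
    intro k hkn
    have := norm_ip_le_one (hx k hkn.le) (hx (k + 1) hkn)
    have h2 := norm_nonneg (star (x k) ⬝ᵥ x (k + 1))
    simp only [hδ]
    nlinarith only [this, h2]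
  have htel : ∀ m, m ≤ n → ent (x m) ≤ ent (x 0) + m * (-Real.log (1 - η)) +
      2 * ∑ k ∈ Finset.range m, (Real.sqrt (K k) * Real.sqrt (δ k)) +
      (∑ k ∈ Finset.range m, δ k) * Real.log (Fintype.card α / η) := by
    intro m
    induction m with
    | zero => intro _; simp only [CharP.cast_eq_zero, mul_neg, zero_mul, neg_zero, add_zero, range_zero, sum_empty, mul_zero, Std.le_refl]
    | succ m ih =>
      intro hm
      have h1 := ih (Nat.le_of_succ_le hm)
      have h2 := step (hx m (Nat.le_of_succ_le hm)) (hK m hm) (x (m + 1)) (hx (m + 1) hm) η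
        hη0 hη1
      rw [Finset.sum_range_succ, Finset.sum_range_succ]
      push_cast
      simp only [hδ] at h1 ⊢
      linarith only [h2, h1]
  have h1 := htel n le_rfl
  have h2 : ∑ k ∈ Finset.range n, (Real.sqrt (K k) * Real.sqrt (δ k)) ≤
      Real.sqrt (∑ k ∈ Finset.range n, K k) * Real.sqrt (∑ k ∈ Finset.range n, δ k) := by
    have h3 := Real.sum_mul_le_sqrt_mul_sqrt (Finset.range n)
      (fun k : ℕ => Real.sqrt (K k)) (fun k => Real.sqrt (δ k))
    have e1 : ∑ k ∈ Finset.range n, Real.sqrt (K k) ^ 2 = ∑ k ∈ Finset.range n, K k :=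
      Finset.sum_congr rfl fun k hk => Real.sq_sqrt (hK0 k (Finset.mem_range.mp hk))
    have e2 : ∑ k ∈ Finset.range n, Real.sqrt (δ k) ^ 2 = ∑ k ∈ Finset.range n, δ k :=
      Finset.sum_congr rfl fun k hk => Real.sq_sqrt (hδ0 k (Finset.mem_range.mp hk))
    rw [e1, e2] at h3
    exact h3
  linarith

/-- expectation value of an operator -/
noncomputable def expv {n : Type*} [Fintype n] (V : Matrix n n ℂ) (x : n → ℂ) : ℝ :=
  (star x ⬝ᵥ (V *ᵥ x)).re

/-- Discrete form of the segment estimate. -/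
theorem seg_disc (H0 V : Matrix (α × β) (α × β) ℂ) {a b Δ : ℝ} (hab : a ≤ b) (hΔ : 0 < Δ)
    (E : ℝ → ℝ) (Ω : ℝ → α × β → ℂ)
    (h : ∀ t ∈ Set.Icc a b, Gapped (H0 + (t : ℂ) • V) (E t) (Ω t) Δ) (K : ℝ → ℝ)
    (hK0 : ∀ t ∈ Set.Icc a b, 0 ≤ K t)
    (hK : ∀ t ∈ Set.Icc a b, VarBd (Ω t) (K t)) (n : ℕ) (hn : 2 ≤ n) :
    0 ≤ (b - a) * (expv V (Ω a) - expv V (Ω b)) ∧
    ent (Ω b) ≤ ent (Ω a) + 2 / n +
      2 * (Real.sqrt (∑ k ∈ Finset.range n, K (a + k * ((b - a) / n))) *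
        Real.sqrt ((b - a) * (expv V (Ω a) - expv V (Ω b)) / (2 * n * Δ))) +
      ((b - a) * (expv V (Ω a) - expv V (Ω b)) / (2 * Δ)) *
        (Real.log (Fintype.card α) / n + 4 / Real.sqrt n) := by
  have hn0 : (0 : ℝ) < n := by positivity
  have hn2 : (2 : ℝ) ≤ n := by exact_mod_cast hn
  set m : ℝ := (b - a) / n with hm
  have hm0 : 0 ≤ m := div_nonneg (by linarith only [hab]) hn0.le
  set t : ℕ → ℝ := fun k => a + k * m with ht
  set x : ℕ → α × β → ℂ := fun k => Ω (t k) with hx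
  set v : ℕ → ℝ := fun k => expv V (x k) with hv
  set δ : ℕ → ℝ := fun k => 1 - ‖star (x k) ⬝ᵥ x (k + 1)‖ ^ 2 with hδ
  have hmem : ∀ k, k ≤ n → t k ∈ Set.Icc a b := by
    intro k hk
    have hk' : (k : ℝ) ≤ n := by exact_mod_cast hk
    constructor
    · have : 0 ≤ (k : ℝ) * m := by (clear * - hab hn; positivity)
      simp only [ht]
      linarith only [this]
    · have : (k : ℝ) * m ≤ n * m := mul_le_mul_of_nonneg_right hk' hm0
      have h2 : (n : ℝ) * m = b - a := by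
        rw [hm]
        (clear * - hn; field_simp)
      simp only [ht]
      linarith only [this, h2]
  have hk : ∀ k, k ≤ n → Gapped (H0 + (t k : ℂ) • V) (E (t k)) (x k) Δ :=
    fun k hk => h _ (hmem k hk)
  have hδ0 : ∀ k, k < n → 0 ≤ δ k := by
    intro k hkn
    have := norm_ip_le_one (hk k hkn.le).unit (hk (k + 1) hkn).unit
    have h2 := norm_nonneg (star (x k) ⬝ᵥ x (k + 1))
    simp only [hδ]
    nlinarith only [this, h2]
  have hδB : ∀ k, k < n → 2 * Δ * δ k ≤ m * (v k - v (k + 1)) := by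
    intro k hkn
    have h1 := hk k hkn.le
    have h2 := hk (k + 1) hkn
    have hsplit : H0 + (t (k + 1) : ℂ) • V = (H0 + (t k : ℂ) • V) + (m : ℂ) • V := by
      have e1 : (t (k + 1) : ℂ) = (t k : ℂ) + (m : ℂ) := by
        simp only [ht]
        push_cast
        ring
      rw [e1, add_smul, ← add_assoc]
    rw [hsplit] at h2
    exact infidelity_le h1 h2
  have hδsum : 2 * Δ * ∑ k ∈ Finset.range n, δ k ≤ m * (v 0 - v n) := by
    have h1 : ∑ k ∈ Finset.range n, 2 * Δ * δ k ≤ ∑ k ∈ Finset.range n, m * (v k - v (k + 1)) :=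
      Finset.sum_le_sum fun k hk => hδB k (Finset.mem_range.mp hk)
    rw [← Finset.mul_sum, ← Finset.mul_sum, Finset.sum_range_sub'] at h1
    exact h1
  have hδs0 : 0 ≤ ∑ k ∈ Finset.range n, δ k :=
    Finset.sum_nonneg fun k hk => hδ0 k (Finset.mem_range.mp hk)
  have ht0 : t 0 = a := by simp [ht]
  have htn : t n = b := by
    simp only [ht, hm]
    field_simp
    ring
  have hv0 : v 0 = expv V (Ω a) := by simp only [hv, hx, ht0]
  have hvn : v n = expv V (Ω b) := by simp only [hv, hx, htn]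
  rw [hv0, hvn] at hδsum
  set W : ℝ := (b - a) * (expv V (Ω a) - expv V (Ω b)) with hW
  have hmW : m * (expv V (Ω a) - expv V (Ω b)) = W / n := by
    rw [hm, hW]
    ring
  rw [hmW] at hδsum
  have hW0 : 0 ≤ W := by
    have h1 : 0 ≤ W / n := le_trans (by (clear * - hΔ hδs0; positivity)) hδsum
    have h2 := mul_nonneg h1 hn0.le
    rwa [div_mul_cancel₀ _ hn0.ne'] at h2
  refine ⟨hW0, ?_⟩
  have hδsum' : ∑ k ∈ Finset.range n, δ k ≤ W / (2 * n * Δ) := by
    rw [le_div_iff₀ (by positivity)]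
    rw [le_div_iff₀ hn0] at hδsum
    linarith only [hδsum]
  set η : ℝ := 1 / n ^ 2 with hη
  have hη0 : 0 < η := by positivity
  have hη1 : η ≤ 1 / 4 := by
    rw [hη]
    apply one_div_le_one_div_of_le (by norm_num)
    nlinarith only [hn2]
  have hch := chain n x (fun k hkn => (hk k hkn).unit) (fun k => K (t k))
    (fun k hkn => hK0 _ (hmem k hkn.le)) (fun k hkn => hK _ (hmem k hkn.le)) η hη0 (by linarith only [hη1])
  have hx0 : x 0 = Ω a := by simp only [hx, ht0]
  have hxn : x n = Ω b := by simp only [hx, htn]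
  rw [hx0, hxn] at hch
  -- logarithm of 1 - η
  have hlog1 : (n : ℝ) * (-Real.log (1 - η)) ≤ 2 / n := by
    have h1 : -Real.log (1 - η) ≤ 2 * η := by
      have h2 := Real.one_sub_inv_le_log_of_pos (show (0 : ℝ) < 1 - η by linarith only [hη1])
      have h3 : (1 - η)⁻¹ - 1 ≤ 2 * η := by
        have : (1 - η)⁻¹ - 1 = η / (1 - η) := by
          have : (1 - η) ≠ 0 := by linarith only [hη1]
          field_simp
          ring
        rw [this, div_le_iff₀ (by linarith only [hη1])]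
        nlinarith only [hη0, hη1]
      linarith only [h2, h3]
    have h4 := mul_le_mul_of_nonneg_left h1 hn0.le
    refine h4.trans (le_of_eq ?_)
    rw [hη]
    (clear * - hn; field_simp)
  have hne : Nonempty α := nonempty_of_unit (hk 0 (Nat.zero_le _)).unit
  have hDge : (1 : ℝ) ≤ Fintype.card α := by
    exact_mod_cast Fintype.card_pos (α := α)
  have hDpos : (0 : ℝ) < Fintype.card α := by linarith only [hDge]
  have hlogD : 0 ≤ Real.log (Fintype.card α) := Real.log_nonneg hDge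
  -- logarithm of D / η
  have hlog2 : Real.log (Fintype.card α / η) ≤ Real.log (Fintype.card α) + 4 * Real.sqrt n := by
    have e1 : (Fintype.card α : ℝ) / η = Fintype.card α * (n : ℝ) ^ 2 := by
      rw [hη]
      field_simp
    rw [e1, Real.log_mul hDpos.ne' (by positivity), Real.log_pow]
    have h1 : Real.log n ≤ 2 * Real.sqrt n := by
      have h2 : Real.log (Real.sqrt n) ≤ Real.sqrt n := by
        have := Real.log_le_sub_one_of_pos (Real.sqrt_pos.mpr hn0)
        linarith only [this]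
      have h3 : Real.log (n : ℝ) = 2 * Real.log (Real.sqrt n) := by
        rw [Real.log_sqrt hn0.le]
        ring
      linarith only [h2, h3]
    push_cast
    linarith only [h1]
  have hlast : (∑ k ∈ Finset.range n, δ k) * Real.log (Fintype.card α / η) ≤
      (W / (2 * Δ)) * (Real.log (Fintype.card α) / n + 4 / Real.sqrt n) := by
    have h1 : (∑ k ∈ Finset.range n, δ k) * Real.log (Fintype.card α / η) ≤
        (∑ k ∈ Finset.range n, δ k) * (Real.log (Fintype.card α) + 4 * Real.sqrt n) :=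
      mul_le_mul_of_nonneg_left hlog2 hδs0
    have h2 : (∑ k ∈ Finset.range n, δ k) * (Real.log (Fintype.card α) + 4 * Real.sqrt n) ≤
        (W / (2 * n * Δ)) * (Real.log (Fintype.card α) + 4 * Real.sqrt n) :=
      mul_le_mul_of_nonneg_right hδsum' (by (clear * - hn; positivity))
    refine h1.trans (h2.trans (le_of_eq ?_))
    have hs : Real.sqrt n * Real.sqrt n = n := Real.mul_self_sqrt hn0.le
    have hs0 : 0 < Real.sqrt n := Real.sqrt_pos.mpr hn0
    have e1 : 4 / Real.sqrt n = 4 * Real.sqrt n / n := by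
      rw [div_eq_div_iff hs0.ne' hn0.ne']
      rw [mul_assoc, hs]
    rw [e1]
    (clear * - hn hΔ; field_simp)
  have hmid : Real.sqrt (∑ k ∈ Finset.range n, K (t k)) * Real.sqrt (∑ k ∈ Finset.range n, δ k) ≤
      Real.sqrt (∑ k ∈ Finset.range n, K (t k)) * Real.sqrt (W / (2 * n * Δ)) :=
    mul_le_mul_of_nonneg_left (Real.sqrt_le_sqrt hδsum') (Real.sqrt_nonneg _)
  have e9 : ∑ k ∈ Finset.range n, K (a + k * ((b - a) / n)) = ∑ k ∈ Finset.range n, K (t k) :=
    rfl
  rw [e9]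
  linarith only [hch, hlog1, hlast, hmid]

theorem tendsto_aux (A B C : ℝ) : Filter.Tendsto (fun n : ℕ => A + 2 / (n : ℝ) + B +
      C * (Real.log (Fintype.card α) / n + 4 / Real.sqrt n)) Filter.atTop
      (nhds (A + 0 + B + C * (0 + 0))) := by
  have t1 : Filter.Tendsto (fun n : ℕ => (n : ℝ)) Filter.atTop Filter.atTop :=
    tendsto_natCast_atTop_atTop
  have t2 : Filter.Tendsto (fun n : ℕ => Real.sqrt (n : ℝ)) Filter.atTop Filter.atTop :=
    Real.tendsto_sqrt_atTop.comp t1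
  exact (Filter.Tendsto.add (Filter.Tendsto.add (Filter.Tendsto.add tendsto_const_nhds
    (tendsto_const_nhds.div_atTop t1)) tendsto_const_nhds) (Filter.Tendsto.const_mul _
    (Filter.Tendsto.add (tendsto_const_nhds.div_atTop t1) (tendsto_const_nhds.div_atTop t2))))

/-- Segment estimate: change of the entanglement entropy along a gapped segment. -/
theorem seg (H0 V : Matrix (α × β) (α × β) ℂ) {a b Δ : ℝ} (hab : a ≤ b) (hΔ : 0 < Δ)
    (E : ℝ → ℝ) (Ω : ℝ → α × β → ℂ)
    (h : ∀ t ∈ Set.Icc a b, Gapped (H0 + (t : ℂ) • V) (E t) (Ω t) Δ) {K : ℝ} (hK0 : 0 ≤ K)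
    (hK : ∀ t ∈ Set.Icc a b, VarBd (Ω t) K) :
    ent (Ω b) ≤ ent (Ω a) +
      2 * Real.sqrt (K * ((b - a) * (expv V (Ω a) - expv V (Ω b))) / (2 * Δ)) := by
  have key : ∀ n : ℕ, 2 ≤ n → ent (Ω b) ≤ ent (Ω a) + 2 / n +
      2 * Real.sqrt (K * ((b - a) * (expv V (Ω a) - expv V (Ω b))) / (2 * Δ)) +
      ((b - a) * (expv V (Ω a) - expv V (Ω b)) / (2 * Δ)) *
        (Real.log (Fintype.card α) / n + 4 / Real.sqrt n) := by
    intro n hn
    have hn0 : (0 : ℝ) < n := by positivity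
    obtain ⟨h0, h1⟩ := seg_disc H0 V hab hΔ E Ω h (fun _ => K) (fun _ _ => hK0) hK n hn
    rw [Finset.sum_const, Finset.card_range, nsmul_eq_mul, ← Real.sqrt_mul (by (clear * - hn hK0; positivity))] at h1
    have e : (n : ℝ) * K * ((b - a) * (expv V (Ω a) - expv V (Ω b)) / (2 * n * Δ)) =
        K * ((b - a) * (expv V (Ω a) - expv V (Ω b))) / (2 * Δ) := by
      (clear * - hn hΔ; field_simp)
    rw [e] at h1
    exact h1
  have hlim := tendsto_aux (α := α) (ent (Ω a))
    (2 * Real.sqrt (K * ((b - a) * (expv V (Ω a) - expv V (Ω b))) / (2 * Δ)))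
    ((b - a) * (expv V (Ω a) - expv V (Ω b)) / (2 * Δ))
  have hfinal := ge_of_tendsto hlim (Filter.eventually_atTop.mpr ⟨2, key⟩)
  simpa only [ge_iff_le, add_zero, mul_zero] using hfinal

/-- The same estimate in the other direction. -/
theorem seg_rev (H0 V : Matrix (α × β) (α × β) ℂ) {a b Δ : ℝ} (hab : a ≤ b) (hΔ : 0 < Δ)
    (E : ℝ → ℝ) (Ω : ℝ → α × β → ℂ)
    (h : ∀ t ∈ Set.Icc a b, Gapped (H0 + (t : ℂ) • V) (E t) (Ω t) Δ) {K : ℝ} (hK0 : 0 ≤ K)
    (hK : ∀ t ∈ Set.Icc a b, VarBd (Ω t) K) :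
    ent (Ω a) ≤ ent (Ω b) +
      2 * Real.sqrt (K * ((b - a) * (expv V (Ω a) - expv V (Ω b))) / (2 * Δ)) := by
  have hmem : ∀ t ∈ Set.Icc a b, a + b - t ∈ Set.Icc a b := by
    intro t ht
    exact ⟨by linarith only [ht.2], by linarith only [ht.1]⟩
  have h1 := seg (H0 + ((a + b : ℝ) : ℂ) • V) (-V) hab hΔ (fun t => E (a + b - t))
    (fun t => Ω (a + b - t)) (fun t ht => by
      have e : H0 + ((a + b : ℝ) : ℂ) • V + (t : ℂ) • (-V) = H0 + ((a + b - t : ℝ) : ℂ) • V := by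
        push_cast
        rw [smul_neg, sub_smul, ← sub_eq_add_neg, add_sub_assoc]
      rw [e]
      exact h _ (hmem t ht)) hK0 (fun t ht => hK _ (hmem t ht))
  have e1 : a + b - b = a := by ring
  have e2 : a + b - a = b := by ring
  have e3 : ∀ x : α × β → ℂ, expv (-V) x = - expv V x := by
    intro x
    simp only [expv, neg_mulVec, dotProduct_neg, Complex.neg_re]
  rw [e1, e2, e3, e3] at h1
  have e4 : -expv V (Ω b) - -expv V (Ω a) = expv V (Ω a) - expv V (Ω b) := by ring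
  rw [e4] at h1
  exact h1

theorem nsq_kron_left_le {P : Matrix α α ℂ} (hP : Contr P) {x : α × β → ℂ}
    (hx : ∑ i, ‖x i‖ ^ 2 = 1) :
    ∑ z, ‖((P ⊗ₖ (1 : Matrix β β ℂ)) *ᵥ x) z‖ ^ 2 ≤ 1 :=
  (contr_kron hP contr_one x).trans hx.le

theorem nsq_kron_right_le {Q : Matrix β β ℂ} (hQ : Contr Q) {x : α × β → ℂ}
    (hx : ∑ i, ‖x i‖ ^ 2 = 1) :
    ∑ z, ‖(((1 : Matrix α α ℂ) ⊗ₖ Q) *ᵥ x) z‖ ^ 2 ≤ 1 :=
  (contr_kron contr_one hQ x).trans hx.le

/-- Variance bound with contractions. -/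
theorem varBd_contr {ι : Type*} [Fintype ι] (HA : Matrix α α ℂ) (HB : Matrix β β ℂ)
    (c : ι → ℂ) (P : ι → Matrix α α ℂ) (Q : ι → Matrix β β ℂ)
    (hP : ∀ k, Contr (P k)) (hP' : ∀ k, Contr (P k)ᴴ)
    (hQ : ∀ k, Contr (Q k)) (hQ' : ∀ k, Contr (Q k)ᴴ)
    (hG : (∑ k, c k • (P k ⊗ₖ Q k)).IsHermitian) {E Δ : ℝ} (hΔ : 0 < Δ) {x : α × β → ℂ}
    (h : Gapped (HA ⊗ₖ (1 : Matrix β β ℂ) + (1 : Matrix α α ℂ) ⊗ₖ HB +
      ∑ k, c k • (P k ⊗ₖ Q k)) E x Δ) :
    VarBd x (9 / 4 * (∑ k, ‖c k‖) / Δ) := by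
  have := varBd_of_gapped HA HB c P Q hG hΔ h (fun _ => 1) (fun _ => 1)
    (fun k => nsq_kron_left_le (hP k) h.unit) (fun k => nsq_kron_left_le (hP' k) h.unit)
    (fun k => nsq_kron_right_le (hQ k) h.unit) (fun k => nsq_kron_right_le (hQ' k) h.unit)
  simpa only [mul_one, Real.sqrt_one] using this

end Vale.Agent.P356.Path
end
end

section

section

open Matrix Finset
open scoped BigOperators ComplexOrder Kronecker

set_option linter.unusedSectionVars false

namespace Vale.Agent.P356.Path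

variable {α β : Type*} [Fintype α] [Fintype β] [DecidableEq α] [DecidableEq β]

/-- Abstract form of the path to infinite field: dyadic summation of the segment estimate. -/
theorem collar_abs (H0 V : Matrix (α × β) (α × β) ℂ) {Δ : ℝ} (hΔ : 0 < Δ)
    (E : ℝ → ℝ) (Ω : ℝ → α × β → ℂ)
    (h : ∀ t : ℝ, 0 ≤ t → Gapped (H0 + (t : ℂ) • V) (E t) (Ω t) Δ) {k0 m T v : ℝ}
    (hk0 : 0 ≤ k0) (hT : 0 < T)
    (hK : ∀ t : ℝ, 0 ≤ t → VarBd (Ω t) k0) (hK' : ∀ t : ℝ, T ≤ t → VarBd (Ω t) (k0 * (T / t)))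
    (hv0 : ∀ t : ℝ, 0 ≤ t → v ≤ expv V (Ω t)) (hv1 : expv V (Ω 0) ≤ v + 4 * m)
    (hv2 : ∀ t : ℝ, T ≤ t → expv V (Ω t) ≤ v + m * (T / t) ^ 2)
    (hlim : ∀ e : ℝ, 0 < e → ∃ N : ℕ, ∀ n ≥ N, ent (Ω (T * 2 ^ n)) ≤ e) :
    ent (Ω 0) ≤ 8 * Real.sqrt (k0 * m * T / (2 * Δ)) := by
  set B : ℝ := Real.sqrt (k0 * m * T / (2 * Δ)) with hB
  have hB0 : 0 ≤ B := Real.sqrt_nonneg _
  -- first segment
  have h1 : ent (Ω 0) ≤ ent (Ω T) + 4 * B := by
    have hs := seg_rev H0 V hT.le hΔ E Ω (fun t ht => h t ht.1) hk0 (fun t ht => hK t ht.1)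
    refine hs.trans ?_
    have hle : k0 * ((T - 0) * (expv V (Ω 0) - expv V (Ω T))) / (2 * Δ) ≤
        2 ^ 2 * (k0 * m * T / (2 * Δ)) := by
      have h3 : expv V (Ω 0) - expv V (Ω T) ≤ 4 * m := by
        have := hv0 T hT.le
        linarith only [hv1, this]
      have h4 : k0 * ((T - 0) * (expv V (Ω 0) - expv V (Ω T))) ≤ k0 * ((T - 0) * (4 * m)) := by
        refine mul_le_mul_of_nonneg_left (mul_le_mul_of_nonneg_left h3 ?_) hk0
        linarith only [hT]
      have h5 : 2 ^ 2 * (k0 * m * T / (2 * Δ)) = k0 * ((T - 0) * (4 * m)) / (2 * Δ) := by ring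
      rw [h5]
      exact div_le_div_of_nonneg_right h4 (by positivity)
    have h6 : Real.sqrt (k0 * ((T - 0) * (expv V (Ω 0) - expv V (Ω T))) / (2 * Δ)) ≤ 2 * B := by
      refine (Real.sqrt_le_sqrt hle).trans ?_
      rw [Real.sqrt_mul (by positivity), Real.sqrt_sq (by norm_num)]
    linarith only [h6]
  -- dyadic segments
  have h2 : ∀ n : ℕ, ent (Ω (T * 2 ^ n)) ≤ ent (Ω (T * 2 ^ (n + 1))) + 2 * B * (1 / 2) ^ n := by
    intro n
    have hpn : (0 : ℝ) < 2 ^ n := by positivity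
    have hpn1 : (1 : ℝ) ≤ 2 ^ n := one_le_pow₀ (by norm_num)
    have ha0 : 0 ≤ T * 2 ^ n := by positivity
    have haT : T ≤ T * 2 ^ n := le_mul_of_one_le_right hT.le hpn1
    have hab : T * 2 ^ n ≤ T * 2 ^ (n + 1) := by
      rw [pow_succ]
      nlinarith only [hT, haT]
    have hr : T / (T * 2 ^ n) = (1 / 2) ^ n := by
      rw [one_div, inv_pow]
      (clear * - hT; field_simp)
    have hs := seg_rev H0 V (a := T * 2 ^ n) (b := T * 2 ^ (n + 1)) hab hΔ E Ω
      (fun t ht => h t (ha0.trans ht.1)) (K := k0 * (1 / 2) ^ n) (by (clear * - hk0; positivity))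
      (fun t ht => by
        intro f hf
        refine (hK' t (haT.trans ht.1) f hf).trans ?_
        refine mul_le_mul_of_nonneg_left ?_ hk0
        rw [← hr]
        exact div_le_div_of_nonneg_left hT.le (by positivity) ht.1)
    refine hs.trans ?_
    have hle : k0 * (1 / 2) ^ n * ((T * 2 ^ (n + 1) - T * 2 ^ n) *
        (expv V (Ω (T * 2 ^ n)) - expv V (Ω (T * 2 ^ (n + 1))))) / (2 * Δ) ≤
        ((1 / 2) ^ n) ^ 2 * (k0 * m * T / (2 * Δ)) := by
      have h3 : expv V (Ω (T * 2 ^ n)) - expv V (Ω (T * 2 ^ (n + 1))) ≤ m * ((1 / 2) ^ n) ^ 2 := by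
        have h4 := hv0 (T * 2 ^ (n + 1)) (by positivity)
        have h5 := hv2 (T * 2 ^ n) haT
        rw [hr] at h5
        linarith only [h4, h5]
      have h4 : k0 * (1 / 2) ^ n * ((T * 2 ^ (n + 1) - T * 2 ^ n) *
          (expv V (Ω (T * 2 ^ n)) - expv V (Ω (T * 2 ^ (n + 1))))) ≤
          k0 * (1 / 2) ^ n * ((T * 2 ^ (n + 1) - T * 2 ^ n) * (m * ((1 / 2) ^ n) ^ 2)) := by
        refine mul_le_mul_of_nonneg_left (mul_le_mul_of_nonneg_left h3 ?_) (by (clear * - hk0; positivity))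
        linarith only [hab]
      have h5 : k0 * (1 / 2) ^ n * ((T * 2 ^ (n + 1) - T * 2 ^ n) * (m * ((1 / 2) ^ n) ^ 2)) =
          ((1 / 2) ^ n) ^ 2 * (k0 * m * T) := by
        have e1 : T * 2 ^ (n + 1) - T * 2 ^ n = T * 2 ^ n := by ring
        rw [e1]
        have e2 : (1 / 2 : ℝ) ^ n * 2 ^ n = 1 := by
          rw [← mul_pow]
          norm_num
        calc k0 * (1 / 2) ^ n * (T * 2 ^ n * (m * ((1 / 2) ^ n) ^ 2)) =
            ((1 / 2 : ℝ) ^ n * 2 ^ n) * (((1 / 2) ^ n) ^ 2 * (k0 * m * T)) := by ring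
          _ = _ := by rw [e2, one_mul]
      rw [h5] at h4
      have h6 : ((1 / 2) ^ n) ^ 2 * (k0 * m * T / (2 * Δ)) =
          ((1 / 2) ^ n) ^ 2 * (k0 * m * T) / (2 * Δ) := by ring
      rw [h6]
      exact div_le_div_of_nonneg_right h4 (by positivity)
    have h6 : Real.sqrt (k0 * (1 / 2) ^ n * ((T * 2 ^ (n + 1) - T * 2 ^ n) *
        (expv V (Ω (T * 2 ^ n)) - expv V (Ω (T * 2 ^ (n + 1))))) / (2 * Δ)) ≤
        (1 / 2) ^ n * B := by
      refine (Real.sqrt_le_sqrt hle).trans ?_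
      rw [Real.sqrt_mul (by positivity), Real.sqrt_sq (by positivity)]
    have h7 : 2 * B * (1 / 2) ^ n = 2 * ((1 / 2) ^ n * B) := by ring
    rw [h7]
    linarith only [h6]
  have h3 : ∀ n : ℕ, ent (Ω T) ≤ ent (Ω (T * 2 ^ n)) + 4 * B * (1 - (1 / 2) ^ n) := by
    intro n
    induction n with
    | zero => simp
    | succ n ih =>
      have h4 := h2 n
      have e1 : 4 * B * (1 - (1 / 2) ^ (n + 1)) = 4 * B * (1 - (1 / 2) ^ n) + 2 * B * (1 / 2) ^ n := by
        ring
      rw [e1]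
      linarith only [ih, h4]
  refine le_of_forall_pos_le_add fun e he => ?_
  obtain ⟨N, hN⟩ := hlim e he
  have h4 := hN N le_rfl
  have h5 := h3 N
  have h6 : 4 * B * (1 - (1 / 2) ^ N) ≤ 4 * B := by
    have : (0 : ℝ) ≤ (1 / 2) ^ N := by positivity
    nlinarith only [hB0, this]
  linarith

/-- Entropy from the smallness of all `p (1 - p)`. -/
theorem ent_le_of_small {x : α × β → ℂ} (hx : ∑ i, ‖x i‖ ^ 2 = 1) {e : ℝ}
    (he : ∀ i, eigp x i * (1 - eigp x i) ≤ e) :
    ent x ≤ Fintype.card α * (2 * e + 2 * Real.sqrt (2 * e)) := by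
  have hp0 := eigp_nonneg x
  have hp1 := eigp_sum x hx
  have hle : ∀ i, Real.negMulLog (eigp x i) ≤ 2 * e + 2 * Real.sqrt (2 * e) := by
    intro i
    have h1 : eigp x i ≤ 1 := by
      rw [← hp1]
      exact Finset.single_le_sum (fun j _ => hp0 j) (Finset.mem_univ i)
    have h0 := hp0 i
    have hei := he i
    set p := eigp x i with hp
    have he0 : 0 ≤ e := le_trans (mul_nonneg h0 (by linarith only [h1])) hei
    have hs0 : 0 ≤ Real.sqrt (2 * e) := Real.sqrt_nonneg _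
    rcases h0.eq_or_lt with h00 | h00
    · rw [← h00]
      simp only [Real.negMulLog_zero]
      (clear * - he0; positivity)
    · rcases le_total (1 / 2) p with hhalf | hhalf
      · -- near one
        have h3 : Real.negMulLog p ≤ 1 - p := by
          rw [Real.negMulLog]
          have := Real.one_sub_inv_le_log_of_pos h00
          have h4 : p * (1 - p⁻¹) = p - 1 := by
            (clear * - h00; field_simp)
          nlinarith only [h4, h0, this]
        have h4 : 1 - p ≤ 2 * e := by nlinarith only [hei, h1, hhalf]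
        linarith only [hs0, h3, h4]
      · -- near zero
        have h3 : p ≤ 2 * e := by nlinarith only [hei, h0, hhalf]
        have hsp : 0 < Real.sqrt p := Real.sqrt_pos.mpr h00
        have h4 : Real.negMulLog p ≤ 2 * Real.sqrt p := by
          rw [Real.negMulLog]
          have h5 := Real.one_sub_inv_le_log_of_pos hsp
          have h6 : Real.log p = 2 * Real.log (Real.sqrt p) := by
            rw [Real.log_sqrt h0]
            ring
          have h7 : Real.sqrt p * Real.sqrt p = p := Real.mul_self_sqrt h0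
          have h8 : p * (Real.sqrt p)⁻¹ = Real.sqrt p := by
            rw [← h7]
            rw [Real.sqrt_mul_self hsp.le]
            (clear * - h00; field_simp)
          rw [h6]
          nlinarith only [h8, h0, h5]
        have h5 : Real.sqrt p ≤ Real.sqrt (2 * e) := Real.sqrt_le_sqrt h3
        linarith only [h00, h3, h4, h5]
  calc ent x = ∑ i, Real.negMulLog (eigp x i) := rfl
    _ ≤ ∑ _i : α, (2 * e + 2 * Real.sqrt (2 * e)) := Finset.sum_le_sum fun i _ => hle i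
    _ = _ := by rw [Finset.sum_const, Finset.card_univ, nsmul_eq_mul]

theorem contr_entry {P : Matrix α α ℂ} (hP : Contr P) (i j : α) : ‖P i j‖ ≤ 1 := by
  have h1 := contr_col hP j
  have h2 : ‖P i j‖ ^ 2 ≤ ∑ i, ‖P i j‖ ^ 2 :=
    Finset.single_le_sum (f := fun i => ‖P i j‖ ^ 2) (fun _ _ => sq_nonneg _) (Finset.mem_univ i)
  have h3 := norm_nonneg (P i j)
  nlinarith only [h1, h2]

/-- When the coupling acts weakly on the state, the reduced state is almost pure. -/
theorem spec_small {ι : Type*} [Fintype ι] (HA : Matrix α α ℂ) (HB : Matrix β β ℂ)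
    (c : ι → ℂ) (P : ι → Matrix α α ℂ) (Q : ι → Matrix β β ℂ) (hP : ∀ k, Contr (P k))
    (hG : (∑ k, c k • (P k ⊗ₖ Q k)).IsHermitian) {E Δ : ℝ} {x : α × β → ℂ}
    (h : Gapped (HA ⊗ₖ (1 : Matrix β β ℂ) + (1 : Matrix α α ℂ) ⊗ₖ HB +
      ∑ k, c k • (P k ⊗ₖ Q k)) E x Δ) (w : ι → ℝ)
    (hw : ∀ k, ∑ z, ‖(((1 : Matrix α α ℂ) ⊗ₖ Q k) *ᵥ x) z‖ ^ 2 ≤ w k) (i : α) :
    Δ * (eigp x i * (1 - eigp x i)) ≤
      (Fintype.card α : ℝ) ^ 2 * ∑ k, ‖c k‖ * Real.sqrt (w k) := by
  have hWW := rotW_mul x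
  have hrot := gapped_conj h (rotW x) hWW
  have hHrot : (rotW x)ᴴ * (HA ⊗ₖ (1 : Matrix β β ℂ) + (1 : Matrix α α ℂ) ⊗ₖ HB +
      ∑ k, c k • (P k ⊗ₖ Q k)) * rotW x =
      ((eigU x)ᴴ * HA * eigU x) ⊗ₖ (1 : Matrix β β ℂ) + (1 : Matrix α α ℂ) ⊗ₖ HB +
      ∑ k, c k • (((eigU x)ᴴ * P k * eigU x) ⊗ₖ Q k) := by
    rw [Matrix.mul_add, Matrix.mul_add, Matrix.add_mul, Matrix.add_mul, rotW_conj, rotW_conj,
      Matrix.mul_one, eigU_mul', Matrix.mul_sum, Matrix.sum_mul]
    congr 1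
    refine Finset.sum_congr rfl fun k _ => ?_
    rw [Matrix.mul_smul, Matrix.smul_mul, rotW_conj]
  rw [hHrot] at hrot
  have hGrot : (∑ k, c k • (((eigU x)ᴴ * P k * eigU x) ⊗ₖ Q k)).IsHermitian := by
    have e : ∑ k, c k • (((eigU x)ᴴ * P k * eigU x) ⊗ₖ Q k) =
        (rotW x)ᴴ * (∑ k, c k • (P k ⊗ₖ Q k)) * rotW x := by
      rw [Matrix.mul_sum, Matrix.sum_mul]
      refine Finset.sum_congr rfl fun k _ => ?_
      rw [Matrix.mul_smul, Matrix.smul_mul, rotW_conj]
    rw [e]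
    exact isHermitian_conjTranspose_mul_mul _ hG
  set y := (rotW x)ᴴ *ᵥ x with hy
  have hyu : ∑ z, ‖y z‖ ^ 2 = 1 := hrot.unit
  have hw2 : ∀ k, ∑ z, ‖(((1 : Matrix α α ℂ) ⊗ₖ Q k) *ᵥ y) z‖ ^ 2 ≤ w k := by
    intro k
    refine le_trans (le_of_eq ?_) (hw k)
    have e1 : ((1 : Matrix α α ℂ) ⊗ₖ Q k) = (rotW x)ᴴ * ((1 : Matrix α α ℂ) ⊗ₖ Q k) * rotW x := by
      rw [rotW_conj, Matrix.mul_one, eigU_mul']
    conv_lhs => rw [e1]
    rw [hy, mulVec_mulVec, Matrix.mul_assoc, hWW, Matrix.mul_one, ← mulVec_mulVec,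
      nsq_conj (rotW x) hWW]
  have hPc : ∀ k, Contr ((eigU x)ᴴ * P k * eigU x) := fun k =>
    contr_conj (hP k) (eigU x) (eigU_mul x)
  have hp0 := eigp_nonneg x
  have hp1 := eigp_sum x h.unit
  have h1 := poincare_diag _ _ _ hGrot hrot (eigp x) (rot_self x) (Pi.single i 1)
  have e1 : ∑ j, eigp x j * (Pi.single i (1 : ℝ) : α → ℝ) j ^ 2 = eigp x i := by
    rw [Finset.sum_eq_single i]
    · simp
    · intro j _ hj
      simp only [ne_eq, hj, not_false_eq_true, Pi.single_eq_of_ne, OfNat.ofNat_ne_zero, zero_pow, mul_zero]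
    · simp only [mem_univ, not_true_eq_false, Pi.single_eq_same, one_pow, mul_one, IsEmpty.forall_iff]
  have e2 : ∑ j, eigp x j * (Pi.single i (1 : ℝ) : α → ℝ) j = eigp x i := by
    rw [Finset.sum_eq_single i]
    · simp
    · intro j _ hj
      simp [hj]
    · simp only [mem_univ, not_true_eq_false, Pi.single_eq_same, mul_one, IsEmpty.forall_iff]
  rw [e1, e2] at h1
  have hblk : ∀ i' j', ‖blk (∑ k, c k • (((eigU x)ᴴ * P k * eigU x) ⊗ₖ Q k)) y i' j'‖ ≤
      ∑ k, ‖c k‖ * Real.sqrt (w k) := by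
    intro i' j'
    rw [blk_sum]
    refine (norm_sum_le _ _).trans (Finset.sum_le_sum fun k _ => ?_)
    rw [blk_smul, norm_mul]
    refine mul_le_mul_of_nonneg_left ?_ (norm_nonneg _)
    rw [blk_prod_norm]
    have h3 : ‖∑ b, star (y (i', b)) * (Q k *ᵥ (fun b => y (j', b))) b‖ ≤ Real.sqrt (w k) := by
      have h4 := norm_ip_le (fun b => y (i', b)) (Q k *ᵥ (fun b => y (j', b)))
      have h5 : ∑ b, ‖y (i', b)‖ ^ 2 ≤ 1 := by
        rw [← hyu, Fintype.sum_prod_type]
        exact Finset.single_le_sum (f := fun a => ∑ b, ‖y (a, b)‖ ^ 2)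
          (fun _ _ => Finset.sum_nonneg fun _ _ => sq_nonneg _) (Finset.mem_univ i')
      have h6 : ∑ b, ‖(Q k *ᵥ (fun b => y (j', b))) b‖ ^ 2 ≤ w k := by
        have h7 := hw2 k
        rw [nsq_right] at h7
        refine le_trans ?_ h7
        exact Finset.single_le_sum (f := fun a => ∑ b, ‖(Q k *ᵥ (fun b => y (a, b))) b‖ ^ 2)
          (fun _ _ => Finset.sum_nonneg fun _ _ => sq_nonneg _) (Finset.mem_univ j')
      have h8 : Real.sqrt (∑ b, ‖y (i', b)‖ ^ 2) ≤ 1 := by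
        rw [← Real.sqrt_one]
        exact Real.sqrt_le_sqrt h5
      have h9 : Real.sqrt (∑ b, ‖(Q k *ᵥ (fun b => y (j', b))) b‖ ^ 2) ≤ Real.sqrt (w k) :=
        Real.sqrt_le_sqrt h6
      calc ‖∑ b, star (y (i', b)) * (Q k *ᵥ (fun b => y (j', b))) b‖
          = ‖star (fun b => y (i', b)) ⬝ᵥ (Q k *ᵥ (fun b => y (j', b)))‖ := rfl
        _ ≤ _ := h4
        _ ≤ 1 * Real.sqrt (w k) := mul_le_mul h8 h9 (Real.sqrt_nonneg _) zero_le_one
        _ = _ := one_mul _
    have h4 := contr_entry (hPc k) i' j'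
    calc ‖((eigU x)ᴴ * P k * eigU x) i' j'‖ *
          ‖∑ b, star (y (i', b)) * (Q k *ᵥ (fun b => y (j', b))) b‖
        ≤ 1 * Real.sqrt (w k) := mul_le_mul h4 h3 (norm_nonneg _) zero_le_one
      _ = _ := one_mul _
  have hsum : ∑ i', ∑ j', ‖blk (∑ k, c k • (((eigU x)ᴴ * P k * eigU x) ⊗ₖ Q k)) y i' j'‖ *
      ((Pi.single i (1 : ℝ) : α → ℝ) i' - (Pi.single i (1 : ℝ) : α → ℝ) j') ^ 2 ≤
      ∑ _i' : α, ∑ _j' : α, ∑ k, ‖c k‖ * Real.sqrt (w k) := by
    refine Finset.sum_le_sum fun i' _ => Finset.sum_le_sum fun j' _ => ?_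
    have h3 : ((Pi.single i (1 : ℝ) : α → ℝ) i' - (Pi.single i (1 : ℝ) : α → ℝ) j') ^ 2 ≤ 1 := by
      by_cases hi : i' = i <;> by_cases hj : j' = i <;>
        simp [hi, hj]
    calc _ ≤ (∑ k, ‖c k‖ * Real.sqrt (w k)) * 1 :=
          mul_le_mul (hblk i' j') h3 (sq_nonneg _)
            (Finset.sum_nonneg fun k _ => mul_nonneg (norm_nonneg _) (Real.sqrt_nonneg _))
      _ = _ := mul_one _
  simp only [Finset.sum_const, Finset.card_univ, nsmul_eq_mul] at hsum
  have hnn : 0 ≤ ∑ k, ‖c k‖ * Real.sqrt (w k) :=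
    Finset.sum_nonneg fun k _ => mul_nonneg (norm_nonneg _) (Real.sqrt_nonneg _)
  have hDD : 0 ≤ (Fintype.card α : ℝ) ^ 2 * ∑ k, ‖c k‖ * Real.sqrt (w k) := by (clear * -; positivity)
  have e3 : Δ * (eigp x i * (1 - eigp x i)) = Δ * (eigp x i - eigp x i ^ 2) := by ring
  rw [e3]
  have e4 : (Fintype.card α : ℝ) * ((Fintype.card α : ℝ) * ∑ k, ‖c k‖ * Real.sqrt (w k)) =
      (Fintype.card α : ℝ) ^ 2 * ∑ k, ‖c k‖ * Real.sqrt (w k) := by ring
  rw [e4] at hsum
  refine h1.trans ?_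
  linarith only [hsum, hDD]

end Vale.Agent.P356.Path
end
end

section

section

open Matrix Finset
open scoped BigOperators ComplexOrder Kronecker

set_option linter.unusedSectionVars false

namespace Vale.Agent.P356.Path

variable {α β : Type*} [Fintype α] [Fintype β] [DecidableEq α] [DecidableEq β]

theorem row_sum_le {a r : α → ℝ} (ha : ∑ j, a j ^ 2 ≤ 1) (hr : ∑ j, r j ^ 2 ≤ 1) :
    ∑ j, a j * r j ≤ 1 := by
  refine (Real.sum_mul_le_sqrt_mul_sqrt _ _ _).trans ?_
  have h1 : Real.sqrt (∑ j, a j ^ 2) ≤ 1 := by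
    rw [← Real.sqrt_one]; exact Real.sqrt_le_sqrt ha
  have h2 : Real.sqrt (∑ j, r j ^ 2) ≤ 1 := by
    rw [← Real.sqrt_one]; exact Real.sqrt_le_sqrt hr
  calc _ ≤ (1 : ℝ) * 1 := mul_le_mul h1 h2 (Real.sqrt_nonneg _) zero_le_one
    _ = 1 := one_mul 1

theorem varW_diag {ι : Type*} [Fintype ι] (HA : Matrix α α ℂ) (HB : Matrix β β ℂ)
    (c : ι → ℂ) (P : ι → Matrix α α ℂ) (Q : ι → Matrix β β ℂ)
    (hP : ∀ k, Contr (P k)) (hP' : ∀ k, Contr (P k)ᴴ)
    (hQ : ∀ k, Contr (Q k)) (hQ' : ∀ k, Contr (Q k)ᴴ)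
    (hG : (∑ k, c k • (P k ⊗ₖ Q k)).IsHermitian) {E Δ : ℝ} {Ω : α × β → ℂ}
    (h : Gapped (HA ⊗ₖ (1 : Matrix β β ℂ) + (1 : Matrix α α ℂ) ⊗ₖ HB +
      ∑ k, c k • (P k ⊗ₖ Q k)) E Ω Δ)
    (p : α → ℝ)
    (hp : ∀ i j, ∑ b, Ω (i, b) * star (Ω (j, b)) = if i = j then (p i : ℂ) else 0)
    (f g : α → ℝ)
    (hfg : ∀ i j, 0 < p i → 0 < p j →
      Real.sqrt (p i * p j) * (f i - f j) ^ 2 ≤ p i * g i + p j * g j)
    (hg : ∀ i, 0 ≤ g i) :
    Δ * (∑ i, p i * f i ^ 2 - (∑ i, p i * f i) ^ 2) ≤ (∑ k, ‖c k‖) * ∑ i, p i * g i := by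
  have hpn : ∀ i, ∑ b, ‖Ω (i, b)‖ ^ 2 = p i := by
    intro i
    have h1 := hp i i
    rw [if_pos rfl] at h1
    have h2 : ∑ b, Ω (i, b) * star (Ω (i, b)) = ((∑ b, ‖Ω (i, b)‖ ^ 2 : ℝ) : ℂ) := by
      push_cast
      refine Finset.sum_congr rfl fun b _ => ?_
      rw [RCLike.star_def, Complex.mul_conj']
    rw [h2] at h1
    exact_mod_cast h1
  have hp0 : ∀ i, 0 ≤ p i := fun i => by rw [← hpn i]; (clear * -; positivity)
  refine (poincare_diag HA HB _ hG h p hp f).trans ?_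
  let q : ι → α → α → ℝ := fun k i j =>
    ‖∑ b, star (Ω (i, b)) * (Q k *ᵥ (fun b => Ω (j, b))) b‖
  have hblk : ∀ i j, ‖blk (∑ k, c k • (P k ⊗ₖ Q k)) Ω i j‖ ≤
      ∑ k, ‖c k‖ * (‖P k i j‖ * q k i j) := by
    intro i j
    rw [blk_sum]
    refine (norm_sum_le _ _).trans (Finset.sum_le_sum fun k _ => ?_)
    rw [blk_smul, norm_mul, blk_prod_norm]
  have hzero : ∀ i, p i = 0 → ∀ b, Ω (i, b) = 0 := by
    intro i hi b
    have h1 := hpn i
    rw [hi] at h1
    have h2 := (Finset.sum_eq_zero_iff_of_nonneg (fun b _ => by (clear * -; positivity))).mp h1 b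
      (Finset.mem_univ b)
    simpa only [ne_eq, OfNat.ofNat_ne_zero, not_false_eq_true, pow_eq_zero_iff, norm_eq_zero] using h2
  have hk : ∀ k, ∑ i, ∑ j, ‖P k i j‖ * q k i j * (f i - f j) ^ 2 ≤ 2 * ∑ i, p i * g i := by
    intro k
    let r : α → α → ℝ := fun i j => q k i j / Real.sqrt (p i * p j)
    have hq0 : ∀ i j, 0 ≤ q k i j := fun _ _ => norm_nonneg _
    have hr0 : ∀ i j, 0 ≤ r i j := fun i j => div_nonneg (hq0 i j) (Real.sqrt_nonneg _)
    have hrsq : ∀ i j, r i j ^ 2 = q k i j ^ 2 / p j / p i := by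
      intro i j
      simp only [r]
      rw [div_pow, Real.sq_sqrt (mul_nonneg (hp0 i) (hp0 j)), div_div, mul_comm (p j)]
    have hrow : ∀ i, ∑ j, r i j ^ 2 ≤ 1 := by
      intro i
      simp only [hrsq]
      rw [← Finset.sum_div]
      have hadj : ∀ j, q k i j = ‖∑ b, star (Ω (j, b)) * ((Q k)ᴴ *ᵥ (fun b => Ω (i, b))) b‖ := by
        intro j
        simp only [q]
        rw [← norm_star]
        congr 1
        have e1 : ∑ b, star (Ω (i, b)) * (Q k *ᵥ (fun b => Ω (j, b))) b =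
            star (fun b => Ω (i, b)) ⬝ᵥ (Q k *ᵥ (fun b => Ω (j, b))) := rfl
        have e2 : ∑ b, star (Ω (j, b)) * ((Q k)ᴴ *ᵥ (fun b => Ω (i, b))) b =
            star (fun b => Ω (j, b)) ⬝ᵥ ((Q k)ᴴ *ᵥ (fun b => Ω (i, b))) := rfl
        rw [e1, e2, ← star_dotProduct, star_mulVec, ← dotProduct_mulVec]
      have h1 : ∑ j, q k i j ^ 2 / p j ≤ p i := by
        simp only [hadj]
        refine (bessel p Ω hp hp0 ((Q k)ᴴ *ᵥ (fun b => Ω (i, b)))).trans ?_
        rw [← hpn i]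
        exact hQ' k _
      rcases (hp0 i).eq_or_lt with hi | hi
      · rw [← hi, div_zero]
        exact zero_le_one
      · rw [div_le_one hi]
        exact h1
    have hcol : ∀ j, ∑ i, r i j ^ 2 ≤ 1 := by
      intro j
      have h1 : ∑ i, q k i j ^ 2 / p i ≤ p j := by
        refine (bessel p Ω hp hp0 (Q k *ᵥ (fun b => Ω (j, b)))).trans ?_
        rw [← hpn j]
        exact hQ k _
      have h2 : ∑ i, r i j ^ 2 = (∑ i, q k i j ^ 2 / p i) / p j := by
        rw [Finset.sum_div]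
        refine Finset.sum_congr rfl fun i _ => ?_
        rw [hrsq, div_div, div_div, mul_comm]
      rw [h2]
      rcases (hp0 j).eq_or_lt with hi | hi
      · rw [← hi, div_zero]
        exact zero_le_one
      · rw [div_le_one hi]
        exact h1
    have hpt : ∀ i j, ‖P k i j‖ * q k i j * (f i - f j) ^ 2 ≤
        (‖P k i j‖ * r i j) * (p i * g i) + (‖P k i j‖ * r i j) * (p j * g j) := by
      intro i j
      have hP0 := norm_nonneg (P k i j)
      have hR : 0 ≤ (‖P k i j‖ * r i j) * (p i * g i) + (‖P k i j‖ * r i j) * (p j * g j) := by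
        have h1 := mul_nonneg hP0 (hr0 i j)
        have h2 := mul_nonneg (hp0 i) (hg i)
        have h3 := mul_nonneg (hp0 j) (hg j)
        (clear * - h2 h3; positivity)
      by_cases hi : p i = 0
      · have : q k i j = 0 := by
          simp only [q]
          rw [Finset.sum_eq_zero (fun b _ => by rw [hzero i hi b]; simp only [star_zero, zero_mul]), norm_zero]
        rw [this]
        simpa only [mul_zero, zero_mul, ge_iff_le] using hR
      by_cases hj : p j = 0
      · have : q k i j = 0 := by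
          simp only [q]
          have : (fun b => Ω (j, b)) = 0 := funext fun b => hzero j hj b
          rw [this, mulVec_zero]
          simp only [RCLike.star_def, Pi.zero_apply, mul_zero, sum_const_zero, norm_zero]
        rw [this]
        simpa only [mul_zero, zero_mul, ge_iff_le] using hR
      have hi' : 0 < p i := lt_of_le_of_ne (hp0 i) (Ne.symm hi)
      have hj' : 0 < p j := lt_of_le_of_ne (hp0 j) (Ne.symm hj)
      have hs : 0 < Real.sqrt (p i * p j) := Real.sqrt_pos.mpr (mul_pos hi' hj')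
      have hq : q k i j = r i j * Real.sqrt (p i * p j) := by
        simp only [r]
        (clear * - hi' hj'; field_simp)
      have h1 := hfg i j hi' hj'
      calc ‖P k i j‖ * q k i j * (f i - f j) ^ 2
          = (‖P k i j‖ * r i j) * (Real.sqrt (p i * p j) * (f i - f j) ^ 2) := by rw [hq]; ring
        _ ≤ (‖P k i j‖ * r i j) * (p i * g i + p j * g j) :=
            mul_le_mul_of_nonneg_left h1 (mul_nonneg hP0 (hr0 i j))
        _ = _ := by ring
    have hs1 : ∑ i, ∑ j, (‖P k i j‖ * r i j) * (p i * g i) ≤ ∑ i, p i * g i := by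
      refine Finset.sum_le_sum fun i _ => ?_
      rw [← Finset.sum_mul]
      have h1 := row_sum_le (contr_row (hP' k) i) (hrow i)
      have h2 := mul_nonneg (hp0 i) (hg i)
      nlinarith only [h1, h2]
    have hs2 : ∑ i, ∑ j, (‖P k i j‖ * r i j) * (p j * g j) ≤ ∑ i, p i * g i := by
      rw [Finset.sum_comm]
      refine Finset.sum_le_sum fun j _ => ?_
      rw [← Finset.sum_mul]
      have h1 := row_sum_le (contr_col (hP k) j) (hcol j)
      have h2 := mul_nonneg (hp0 j) (hg j)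
      nlinarith only [h1, h2]
    calc ∑ i, ∑ j, ‖P k i j‖ * q k i j * (f i - f j) ^ 2
        ≤ ∑ i, ∑ j, ((‖P k i j‖ * r i j) * (p i * g i) + (‖P k i j‖ * r i j) * (p j * g j)) :=
          Finset.sum_le_sum fun i _ => Finset.sum_le_sum fun j _ => hpt i j
      _ = ∑ i, ∑ j, (‖P k i j‖ * r i j) * (p i * g i) +
          ∑ i, ∑ j, (‖P k i j‖ * r i j) * (p j * g j) := by
          simp only [Finset.sum_add_distrib]
      _ ≤ _ := by linarith
  calc (1 / 2) * ∑ i, ∑ j, ‖blk (∑ k, c k • (P k ⊗ₖ Q k)) Ω i j‖ * (f i - f j) ^ 2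
      ≤ (1 / 2) * ∑ i, ∑ j, (∑ k, ‖c k‖ * (‖P k i j‖ * q k i j)) * (f i - f j) ^ 2 := by
        refine mul_le_mul_of_nonneg_left ?_ (by norm_num)
        exact Finset.sum_le_sum fun i _ => Finset.sum_le_sum fun j _ =>
          mul_le_mul_of_nonneg_right (hblk i j) (sq_nonneg _)
    _ = (1 / 2) * ∑ k, ‖c k‖ * ∑ i, ∑ j, ‖P k i j‖ * q k i j * (f i - f j) ^ 2 := by
        congr 1
        simp only [Finset.sum_mul, Finset.mul_sum]
        have e : ∀ i, ∑ j, ∑ k, ‖c k‖ * (‖P k i j‖ * q k i j) * (f i - f j) ^ 2 =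
            ∑ k, ∑ j, ‖c k‖ * (‖P k i j‖ * q k i j * (f i - f j) ^ 2) := by
          intro i
          rw [Finset.sum_comm]
          exact Finset.sum_congr rfl fun k _ => Finset.sum_congr rfl fun j _ => by ring
        simp only [e]
        rw [Finset.sum_comm]
    _ ≤ (1 / 2) * ∑ k, ‖c k‖ * (2 * ∑ i, p i * g i) := by
        refine mul_le_mul_of_nonneg_left ?_ (by norm_num)
        exact Finset.sum_le_sum fun k _ => mul_le_mul_of_nonneg_left (hk k) (norm_nonneg _)
    _ = (∑ k, ‖c k‖) * ∑ i, p i * g i := by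
        rw [← Finset.sum_mul]
        ring

/-- Weighted variance bound for the entanglement spectrum. -/
theorem varW {ι : Type*} [Fintype ι] (HA : Matrix α α ℂ) (HB : Matrix β β ℂ)
    (c : ι → ℂ) (P : ι → Matrix α α ℂ) (Q : ι → Matrix β β ℂ)
    (hP : ∀ k, Contr (P k)) (hP' : ∀ k, Contr (P k)ᴴ)
    (hQ : ∀ k, Contr (Q k)) (hQ' : ∀ k, Contr (Q k)ᴴ)
    (hG : (∑ k, c k • (P k ⊗ₖ Q k)).IsHermitian) {E Δ : ℝ} {x : α × β → ℂ}
    (h : Gapped (HA ⊗ₖ (1 : Matrix β β ℂ) + (1 : Matrix α α ℂ) ⊗ₖ HB +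
      ∑ k, c k • (P k ⊗ₖ Q k)) E x Δ)
    (f g : α → ℝ)
    (hfg : ∀ i j, 0 < eigp x i → 0 < eigp x j →
      Real.sqrt (eigp x i * eigp x j) * (f i - f j) ^ 2 ≤ eigp x i * g i + eigp x j * g j)
    (hg : ∀ i, 0 ≤ g i) :
    Δ * (∑ i, eigp x i * f i ^ 2 - (∑ i, eigp x i * f i) ^ 2) ≤
      (∑ k, ‖c k‖) * ∑ i, eigp x i * g i := by
  have hWW := rotW_mul x
  have hrot := gapped_conj h (rotW x) hWW
  have hHrot : (rotW x)ᴴ * (HA ⊗ₖ (1 : Matrix β β ℂ) + (1 : Matrix α α ℂ) ⊗ₖ HB +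
      ∑ k, c k • (P k ⊗ₖ Q k)) * rotW x =
      ((eigU x)ᴴ * HA * eigU x) ⊗ₖ (1 : Matrix β β ℂ) + (1 : Matrix α α ℂ) ⊗ₖ HB +
      ∑ k, c k • (((eigU x)ᴴ * P k * eigU x) ⊗ₖ Q k) := by
    rw [Matrix.mul_add, Matrix.mul_add, Matrix.add_mul, Matrix.add_mul, rotW_conj, rotW_conj,
      Matrix.mul_one, eigU_mul', Matrix.mul_sum, Matrix.sum_mul]
    congr 1
    refine Finset.sum_congr rfl fun k _ => ?_
    rw [Matrix.mul_smul, Matrix.smul_mul, rotW_conj]
  rw [hHrot] at hrot
  have hGrot : (∑ k, c k • (((eigU x)ᴴ * P k * eigU x) ⊗ₖ Q k)).IsHermitian := by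
    have e : ∑ k, c k • (((eigU x)ᴴ * P k * eigU x) ⊗ₖ Q k) =
        (rotW x)ᴴ * (∑ k, c k • (P k ⊗ₖ Q k)) * rotW x := by
      rw [Matrix.mul_sum, Matrix.sum_mul]
      refine Finset.sum_congr rfl fun k _ => ?_
      rw [Matrix.mul_smul, Matrix.smul_mul, rotW_conj]
    rw [e]
    exact isHermitian_conjTranspose_mul_mul _ hG
  refine varW_diag _ HB c (fun k => (eigU x)ᴴ * P k * eigU x) Q
    (fun k => contr_conj (hP k) (eigU x) (eigU_mul x)) (fun k => ?_) hQ hQ' hGrot hrot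
    (eigp x) (rot_self x) f g hfg hg
  have : ((eigU x)ᴴ * P k * eigU x)ᴴ = (eigU x)ᴴ * (P k)ᴴ * eigU x := by
    rw [conjTranspose_mul, conjTranspose_mul, conjTranspose_conjTranspose, Matrix.mul_assoc]
  rw [this]
  exact contr_conj (hP' k) (eigU x) (eigU_mul x)

end Vale.Agent.P356.Path
end
end

section

section

open Matrix Finset
open scoped BigOperators ComplexOrder Kronecker

set_option linter.unusedSectionVars false

namespace Vale.Agent.P356.Path

section real
variable {ι : Type*} [Fintype ι]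

theorem one_sub_exp_sq_le (u : ℝ) : (1 - Real.exp (-u)) ^ 2 ≤ u ^ 2 * Real.exp (2 * |u|) := by
  have h1 : |1 - Real.exp (-u)| ≤ |u| * Real.exp |u| := by
    have hle : (1 : ℝ) ≤ Real.exp |u| := Real.one_le_exp (abs_nonneg u)
    rcases le_total 0 u with h | h
    · rw [abs_of_nonneg h]
      have h2 : Real.exp (-u) ≤ 1 := Real.exp_le_one_iff.mpr (by linarith)
      rw [abs_of_nonneg (by linarith only [h2])]
      have h3 := Real.add_one_le_exp (-u)
      rw [abs_of_nonneg h] at hle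
      nlinarith only [h3, hle, h]
    · rw [abs_of_nonpos h]
      have h2 : 1 ≤ Real.exp (-u) := Real.one_le_exp (by linarith only [h])
      rw [abs_of_nonpos (by linarith only [h2])]
      have h3 := Real.add_one_le_exp u
      have h4 : Real.exp (-u) * Real.exp u = 1 := by
        rw [← Real.exp_add]; simp
      have h5 := Real.exp_pos (-u)
      nlinarith only [h3, h4, h2]
  have h2 : |1 - Real.exp (-u)| ^ 2 ≤ (|u| * Real.exp |u|) ^ 2 :=
    pow_le_pow_left₀ (abs_nonneg _) h1 2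
  rw [sq_abs, mul_pow, sq_abs, ← Real.exp_nat_mul] at h2
  push_cast at h2
  exact h2

/-- the pointwise inequality behind the exponential moment estimate -/
theorem sqrt_mul_expdiff_aux {x y : ℝ} (hx : 0 < x) (hy : 0 < y) (hxy : y ≤ x) {l : ℝ}
    (hl : |l| ≤ 1 / 4) (S : ℝ) :
    Real.sqrt (x * y) * (Real.exp (l * (Real.log x + S) / 2) -
      Real.exp (l * (Real.log y + S) / 2)) ^ 2 ≤
      x * (9 / 4 * l ^ 2 * Real.exp (l * (Real.log x + S))) := by
  set t := Real.log x - Real.log y with ht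
  have ht0 : 0 ≤ t := by
    have := Real.log_le_log hy hxy
    linarith only [this]
  have hy' : y = x * Real.exp (-t) := by
    have : Real.exp (-t) = y / x := by
      rw [ht, neg_sub, Real.exp_sub, Real.exp_log hx, Real.exp_log hy]
    rw [this]
    field_simp
  have hs : Real.sqrt (x * y) = x * Real.exp (-(t / 2)) := by
    rw [hy']
    have : x * (x * Real.exp (-t)) = (x * Real.exp (-(t / 2))) ^ 2 := by
      rw [mul_pow, ← Real.exp_nat_mul]
      have : ((2 : ℕ) : ℝ) * (-(t / 2)) = -t := by push_cast; ring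
      rw [this]
      ring
    rw [this, Real.sqrt_sq (by positivity)]
  have hlogy : Real.log y = Real.log x - t := by rw [ht]; ring
  have e1 : Real.exp (l * (Real.log y + S) / 2) =
      Real.exp (l * (Real.log x + S) / 2) * Real.exp (-(l * t / 2)) := by
    rw [← Real.exp_add, hlogy]
    congr 1
    ring
  have e2 : Real.exp (l * (Real.log x + S)) = Real.exp (l * (Real.log x + S) / 2) ^ 2 := by
    rw [← Real.exp_nat_mul]
    congr 1
    push_cast
    ring
  rw [hs, e1, e2]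
  set a := Real.exp (l * (Real.log x + S) / 2) with ha
  have e3 : x * Real.exp (-(t / 2)) * (a - a * Real.exp (-(l * t / 2))) ^ 2 =
      x * a ^ 2 * (Real.exp (-(t / 2)) * (1 - Real.exp (-(l * t / 2))) ^ 2) := by ring
  have e4 : x * (9 / 4 * l ^ 2 * a ^ 2) = x * a ^ 2 * (9 / 4 * l ^ 2) := by ring
  rw [e3, e4]
  refine mul_le_mul_of_nonneg_left ?_ (by positivity)
  have h1 := one_sub_exp_sq_le (l * t / 2)
  have h2 : 2 * |l * t / 2| ≤ t / 4 := by
    rw [abs_div, abs_mul, abs_of_nonneg ht0, abs_of_pos (by norm_num : (0 : ℝ) < 2)]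
    nlinarith only [hl, ht0]
  have h3 : (l * t / 2) ^ 2 * Real.exp (2 * |l * t / 2|) ≤ (l * t / 2) ^ 2 * Real.exp (t / 4) :=
    mul_le_mul_of_nonneg_left (Real.exp_le_exp.mpr h2) (sq_nonneg _)
  have h4 := sq_mul_exp_le (t / 2) (by linarith only [ht0])
  have h5 : Real.exp (-(t / 2)) * ((l * t / 2) ^ 2 * Real.exp (t / 4)) =
      l ^ 2 * ((t / 2) ^ 2 * Real.exp (-(t / 2 / 2))) := by
    have : Real.exp (-(t / 2 / 2)) = Real.exp (-(t / 2)) * Real.exp (t / 4) := by
      rw [← Real.exp_add]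
      congr 1
      ring
    rw [this]
    ring
  calc Real.exp (-(t / 2)) * (1 - Real.exp (-(l * t / 2))) ^ 2
      ≤ Real.exp (-(t / 2)) * ((l * t / 2) ^ 2 * Real.exp (t / 4)) :=
        mul_le_mul_of_nonneg_left (h1.trans h3) (Real.exp_pos _).le
    _ = l ^ 2 * ((t / 2) ^ 2 * Real.exp (-(t / 2 / 2))) := h5
    _ ≤ l ^ 2 * (9 / 4) := mul_le_mul_of_nonneg_left h4 (sq_nonneg _)
    _ = 9 / 4 * l ^ 2 := by ring

theorem sqrt_mul_expdiff {x y : ℝ} (hx : 0 < x) (hy : 0 < y) {l : ℝ}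
    (hl : |l| ≤ 1 / 4) (S : ℝ) :
    Real.sqrt (x * y) * (Real.exp (l * (Real.log x + S) / 2) -
      Real.exp (l * (Real.log y + S) / 2)) ^ 2 ≤
      x * (9 / 4 * l ^ 2 * Real.exp (l * (Real.log x + S))) +
      y * (9 / 4 * l ^ 2 * Real.exp (l * (Real.log y + S))) := by
  rcases le_total y x with h | h
  · have h1 := sqrt_mul_expdiff_aux hx hy h hl S
    have h2 : 0 ≤ y * (9 / 4 * l ^ 2 * Real.exp (l * (Real.log y + S))) := by positivity
    linarith
  · have h1 := sqrt_mul_expdiff_aux hy hx h hl S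
    have h2 : 0 ≤ x * (9 / 4 * l ^ 2 * Real.exp (l * (Real.log x + S))) := by positivity
    have e : (Real.exp (l * (Real.log y + S) / 2) - Real.exp (l * (Real.log x + S) / 2)) ^ 2 =
        (Real.exp (l * (Real.log x + S) / 2) - Real.exp (l * (Real.log y + S) / 2)) ^ 2 := by ring
    rw [e, mul_comm y x] at h1
    (clear * - h1 h2; linarith)

/-- From the doubling inequality to the exponential moment. -/
theorem moment_of_doubling (p X : ι → ℝ) (hp0 : ∀ i, 0 ≤ p i) (hp1 : ∑ i, p i = 1)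
    (hX : ∑ i, p i * X i = 0) {K : ℝ} (hK : 0 ≤ K)
    (hd : ∀ l : ℝ, |l| ≤ 1 / 4 → (∑ i, p i * Real.exp (l * X i)) -
      (∑ i, p i * Real.exp (l * X i / 2)) ^ 2 ≤ K * l ^ 2 * ∑ i, p i * Real.exp (l * X i))
    {l : ℝ} (hl : |l| ≤ 1 / 4) (hKl : K * l ^ 2 ≤ 1 / 2) :
    ∑ i, p i * Real.exp (l * X i) ≤ Real.exp (4 * K * l ^ 2) := by
  set N : ℝ → ℝ := fun l => ∑ i, p i * Real.exp (l * X i) with hN
  have hNpos : ∀ l, 0 ≤ N l := fun l =>
    Finset.sum_nonneg fun i _ => mul_nonneg (hp0 i) (Real.exp_pos _).le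
  have hhalf : ∀ l, ∑ i, p i * Real.exp (l * X i / 2) = N (l / 2) := by
    intro l
    refine Finset.sum_congr rfl fun i _ => ?_
    congr 2
    ring
  -- one step
  have hstep : ∀ l : ℝ, |l| ≤ 1 / 4 → K * l ^ 2 ≤ 1 / 2 →
      N l ≤ Real.exp (2 * K * l ^ 2) * N (l / 2) ^ 2 := by
    intro l hl hKl
    have h1 := hd l hl
    rw [hhalf] at h1
    have h2 : N l * (1 - K * l ^ 2) ≤ N (l / 2) ^ 2 := by
      have : ∑ i, p i * Real.exp (l * X i) = N l := rfl
      rw [this] at h1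
      (clear * - h1; linarith)
    have hx0 : 0 ≤ K * l ^ 2 := by (clear * - hK; positivity)
    have h3 : 1 ≤ Real.exp (2 * K * l ^ 2) * (1 - K * l ^ 2) := by
      have h4 := Real.add_one_le_exp (2 * K * l ^ 2)
      have h5 : 0 ≤ 1 - K * l ^ 2 := by linarith only [hKl]
      have h6 := mul_le_mul_of_nonneg_right h4 h5
      nlinarith only [h6, hKl, hx0]
    have h4 := Real.exp_pos (2 * K * l ^ 2)
    calc N l ≤ N l * (Real.exp (2 * K * l ^ 2) * (1 - K * l ^ 2)) :=
          le_mul_of_one_le_right (hNpos l) h3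
      _ = Real.exp (2 * K * l ^ 2) * (N l * (1 - K * l ^ 2)) := by ring
      _ ≤ Real.exp (2 * K * l ^ 2) * N (l / 2) ^ 2 := mul_le_mul_of_nonneg_left h2 h4.le
  -- iteration
  have hiter : ∀ n : ℕ, N l ≤ Real.exp (4 * K * l ^ 2 * (1 - (1 / 2) ^ n)) *
      N (l / 2 ^ n) ^ (2 ^ n) := by
    intro n
    induction n with
    | zero => simp
    | succ n ih =>
      have h1 : |l / 2 ^ n| ≤ 1 / 4 := by
        rw [abs_div, abs_of_pos (by positivity : (0 : ℝ) < 2 ^ n)]
        have : (1 : ℝ) ≤ 2 ^ n := one_le_pow₀ (by norm_num)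
        exact (div_le_self (abs_nonneg l) this).trans hl
      have h2 : K * (l / 2 ^ n) ^ 2 ≤ 1 / 2 := by
        have h3 : (l / 2 ^ n) ^ 2 ≤ l ^ 2 := by
          rw [div_pow]
          refine div_le_self (sq_nonneg l) ?_
          exact one_le_pow₀ (one_le_pow₀ (by norm_num))
        exact (mul_le_mul_of_nonneg_left h3 hK).trans hKl
      have h3 := hstep (l / 2 ^ n) h1 h2
      have h4 := pow_le_pow_left₀ (hNpos _) h3 (2 ^ n)
      rw [mul_pow, ← pow_mul, ← Real.exp_nat_mul] at h4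
      have e1 : l / 2 ^ n / 2 = l / 2 ^ (n + 1) := by
        rw [pow_succ]
        (clear * -; field_simp)
      have e2 : 2 * 2 ^ n = 2 ^ (n + 1) := by ring
      rw [e1, e2] at h4
      have e3 : ((2 ^ n : ℕ) : ℝ) * (2 * K * (l / 2 ^ n) ^ 2) = 4 * K * l ^ 2 * ((1 / 2) ^ (n + 1)) := by
        push_cast
        rw [one_div, inv_pow, pow_succ]
        field_simp
        ring
      rw [e3] at h4
      refine ih.trans ?_
      refine (mul_le_mul_of_nonneg_left h4 (Real.exp_pos _).le).trans (le_of_eq ?_)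
      rw [← mul_assoc, ← Real.exp_add]
      congr 2
      ring
  -- small parameter
  set B : ℝ := ∑ i, |X i| with hB
  have hXB : ∀ i, |X i| ≤ B := fun i =>
    Finset.single_le_sum (f := fun i => |X i|) (fun _ _ => abs_nonneg _) (Finset.mem_univ i)
  have hB0 : 0 ≤ B := Finset.sum_nonneg fun _ _ => abs_nonneg _
  have hsmall : ∀ m : ℝ, |m| * B ≤ 1 → N m ≤ Real.exp (m ^ 2 * B ^ 2) := by
    intro m hm
    have h1 : ∀ i, p i * Real.exp (m * X i) ≤ p i + m * (p i * X i) + p i * (m ^ 2 * B ^ 2) := by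
      intro i
      have h2 : |m * X i| ≤ 1 := by
        rw [abs_mul]
        exact (mul_le_mul_of_nonneg_left (hXB i) (abs_nonneg m)).trans hm
      have h3 := Real.abs_exp_sub_one_sub_id_le h2
      have h4 := (abs_le.mp h3).2
      have h5 : (m * X i) ^ 2 ≤ m ^ 2 * B ^ 2 := by
        rw [mul_pow]
        refine mul_le_mul_of_nonneg_left ?_ (sq_nonneg m)
        rw [← sq_abs (X i)]
        exact pow_le_pow_left₀ (abs_nonneg _) (hXB i) 2
      have h6 : Real.exp (m * X i) ≤ 1 + m * X i + m ^ 2 * B ^ 2 := by linarith only [h4, h5]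
      have h7 := mul_le_mul_of_nonneg_left h6 (hp0 i)
      linarith only [h7]
    have h2 : N m ≤ ∑ i, (p i + m * (p i * X i) + p i * (m ^ 2 * B ^ 2)) :=
      Finset.sum_le_sum fun i _ => h1 i
    rw [Finset.sum_add_distrib, Finset.sum_add_distrib, ← Finset.mul_sum, hX, hp1,
      ← Finset.sum_mul, hp1] at h2
    have h3 := Real.add_one_le_exp (m ^ 2 * B ^ 2)
    linarith only [h2, h3]
  -- passage to the limit
  have hev : ∀ᶠ n : ℕ in Filter.atTop, N l ≤
      Real.exp (4 * K * l ^ 2) * Real.exp (l ^ 2 * B ^ 2 * (1 / 2) ^ n) := by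
    have h0 : Filter.Tendsto (fun n : ℕ => |l| * B * ((1 : ℝ) / 2) ^ n) Filter.atTop
        (nhds (|l| * B * 0)) :=
      (tendsto_pow_atTop_nhds_zero_of_lt_one (by norm_num) (by norm_num)).const_mul _
    rw [mul_zero] at h0
    filter_upwards [h0.eventually (ge_mem_nhds (zero_lt_one))] with n hn
    have h1 := hiter n
    have h2 : |l / 2 ^ n| * B ≤ 1 := by
      rw [abs_div, abs_of_pos (by positivity : (0 : ℝ) < 2 ^ n)]
      have : |l| / 2 ^ n * B = |l| * B * (1 / 2) ^ n := by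
        rw [one_div, inv_pow]
        (clear * -; field_simp)
      rw [this]
      exact hn
    have h3 := hsmall _ h2
    have h4 := pow_le_pow_left₀ (hNpos _) h3 (2 ^ n)
    rw [← Real.exp_nat_mul] at h4
    have e1 : ((2 ^ n : ℕ) : ℝ) * ((l / 2 ^ n) ^ 2 * B ^ 2) = l ^ 2 * B ^ 2 * (1 / 2) ^ n := by
      push_cast
      rw [one_div, inv_pow]
      (clear * -; field_simp)
    rw [e1] at h4
    refine h1.trans (mul_le_mul ?_ h4 (pow_nonneg (hNpos _) _) (Real.exp_pos _).le)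
    refine Real.exp_le_exp.mpr ?_
    have h5 : 0 ≤ 4 * K * l ^ 2 := by (clear * - hK; positivity)
    have h6 : (0 : ℝ) ≤ (1 / 2) ^ n := by positivity
    nlinarith only [h5, h6]
  have hlim : Filter.Tendsto (fun n : ℕ => Real.exp (4 * K * l ^ 2) *
      Real.exp (l ^ 2 * B ^ 2 * ((1 : ℝ) / 2) ^ n)) Filter.atTop
      (nhds (Real.exp (4 * K * l ^ 2) * Real.exp (l ^ 2 * B ^ 2 * 0))) := by
    refine Filter.Tendsto.const_mul _ ?_
    refine (Real.continuous_exp.tendsto _).comp ?_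
    exact (tendsto_pow_atTop_nhds_zero_of_lt_one (by norm_num) (by norm_num)).const_mul _
  rw [mul_zero, Real.exp_zero, mul_one] at hlim
  exact ge_of_tendsto hlim hev

end real

variable {α β : Type*} [Fintype α] [Fintype β] [DecidableEq α] [DecidableEq β]

/-- Exponential concentration of the entanglement spectrum. -/
theorem moment_bound {ι : Type*} [Fintype ι] (HA : Matrix α α ℂ) (HB : Matrix β β ℂ)
    (c : ι → ℂ) (P : ι → Matrix α α ℂ) (Q : ι → Matrix β β ℂ)
    (hP : ∀ k, Contr (P k)) (hP' : ∀ k, Contr (P k)ᴴ)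
    (hQ : ∀ k, Contr (Q k)) (hQ' : ∀ k, Contr (Q k)ᴴ)
    (hG : (∑ k, c k • (P k ⊗ₖ Q k)).IsHermitian) {E Δ : ℝ} (hΔ : 0 < Δ) {x : α × β → ℂ}
    (h : Gapped (HA ⊗ₖ (1 : Matrix β β ℂ) + (1 : Matrix α α ℂ) ⊗ₖ HB +
      ∑ k, c k • (P k ⊗ₖ Q k)) E x Δ)
    {K : ℝ} (hK : 9 / 4 * (∑ k, ‖c k‖) / Δ ≤ K)
    {l : ℝ} (hl : |l| ≤ 1 / 4) (hKl : K * l ^ 2 ≤ 1 / 2) :
    ∑ i, eigp x i * Real.exp (l * (Real.log (eigp x i) + ent x)) ≤ Real.exp (4 * K * l ^ 2) := by
  have hg0 : 0 ≤ ∑ k, ‖c k‖ := Finset.sum_nonneg fun k _ => norm_nonneg _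
  have hK0 : 0 ≤ K := le_trans (by (clear * - hΔ; positivity)) hK
  have hp1 := eigp_sum x h.unit
  refine moment_of_doubling (eigp x) (fun i => Real.log (eigp x i) + ent x) (eigp_nonneg x) hp1
    ?_ hK0 (fun m hm => ?_) hl hKl
  · have e1 : ∀ i, eigp x i * (Real.log (eigp x i) + ent x) =
        - Real.negMulLog (eigp x i) + ent x * eigp x i := by
      intro i
      rw [Real.negMulLog]
      ring
    simp only [e1, Finset.sum_add_distrib, Finset.sum_neg_distrib, ← Finset.mul_sum, hp1]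
    have : ∑ i, Real.negMulLog (eigp x i) = ent x := rfl
    rw [this]
    ring
  · have h1 := varW HA HB c P Q hP hP' hQ hQ' hG h
      (fun i => Real.exp (m * (Real.log (eigp x i) + ent x) / 2))
      (fun i => 9 / 4 * m ^ 2 * Real.exp (m * (Real.log (eigp x i) + ent x)))
      (fun i j hi hj => sqrt_mul_expdiff hi hj hm (ent x)) (fun i => by (clear * -; positivity))
    have e1 : ∀ i, Real.exp (m * (Real.log (eigp x i) + ent x) / 2) ^ 2 =
        Real.exp (m * (Real.log (eigp x i) + ent x)) := by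
      intro i
      rw [← Real.exp_nat_mul]
      congr 1
      push_cast
      ring
    simp only [e1] at h1
    have e2 : ∑ i, eigp x i * (9 / 4 * m ^ 2 * Real.exp (m * (Real.log (eigp x i) + ent x))) =
        9 / 4 * m ^ 2 * ∑ i, eigp x i * Real.exp (m * (Real.log (eigp x i) + ent x)) := by
      rw [Finset.mul_sum]
      exact Finset.sum_congr rfl fun i _ => by ring
    rw [e2] at h1
    set T := ∑ i, eigp x i * Real.exp (m * (Real.log (eigp x i) + ent x)) with hT
    have hT0 : 0 ≤ T := Finset.sum_nonneg fun i _ =>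
      mul_nonneg (eigp_nonneg x i) (Real.exp_pos _).le
    have h2 : T - (∑ i, eigp x i * Real.exp (m * (Real.log (eigp x i) + ent x) / 2)) ^ 2 ≤
        9 / 4 * (∑ k, ‖c k‖) / Δ * m ^ 2 * T := by
      have h3 : (∑ k, ‖c k‖) * (9 / 4 * m ^ 2 * T) = Δ * (9 / 4 * (∑ k, ‖c k‖) / Δ * m ^ 2 * T) := by
        (clear * - hΔ; field_simp)
      rw [h3] at h1
      exact le_of_mul_le_mul_left h1 hΔ
    refine h2.trans ?_
    have h4 : 0 ≤ m ^ 2 * T := mul_nonneg (sq_nonneg _) hT0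
    calc 9 / 4 * (∑ k, ‖c k‖) / Δ * m ^ 2 * T = 9 / 4 * (∑ k, ‖c k‖) / Δ * (m ^ 2 * T) := by ring
      _ ≤ K * (m ^ 2 * T) := mul_le_mul_of_nonneg_right hK h4
      _ = K * m ^ 2 * T := by ring

/-- The entropy is controlled by any single Schmidt coefficient, up to the square root of the
coupling strength. -/
theorem ent_le_of_moment {x : α × β → ℂ} {K : ℝ} (hK0 : 0 ≤ K)
    (hmom : ∀ l : ℝ, |l| ≤ 1 / 4 → K * l ^ 2 ≤ 1 / 2 →
      ∑ i, eigp x i * Real.exp (l * (Real.log (eigp x i) + ent x)) ≤ Real.exp (4 * K * l ^ 2))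
    (i : α) (hi : 0 < eigp x i) (hi1 : eigp x i ≤ 1) :
    ent x ≤ (5 + 3 * Real.sqrt K) * (1 - Real.log (eigp x i)) := by
  set s := Real.sqrt (2 * K) with hs
  have hs0 : 0 ≤ s := Real.sqrt_nonneg _
  have hs2 : s ^ 2 = 2 * K := Real.sq_sqrt (by linarith only [hK0])
  have hden : 0 < 4 + s := by linarith only [hs0]
  set l := 1 / (4 + s) with hl
  have hl0 : 0 < l := by (clear * -; positivity)
  have hl4 : l ≤ 1 / 4 := by
    rw [hl]
    exact one_div_le_one_div_of_le (by norm_num) (by linarith only [hs0])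
  have hls : l * s ≤ 1 := by
    rw [hl, one_div, inv_mul_le_iff₀ hden]
    linarith only []
  have hKl : K * l ^ 2 ≤ 1 / 2 := by
    have : (l * s) ^ 2 ≤ 1 := by
      have h0 : 0 ≤ l * s := by (clear * -; positivity)
      nlinarith only [hls, h0]
    rw [mul_pow, hs2] at this
    linarith only [this]
  have h1 := hmom l (by rw [abs_of_pos hl0]; exact hl4) hKl
  have h2 : eigp x i * Real.exp (l * (Real.log (eigp x i) + ent x)) ≤ Real.exp (4 * K * l ^ 2) := by
    refine le_trans ?_ h1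
    exact Finset.single_le_sum (f := fun i => eigp x i * Real.exp (l * (Real.log (eigp x i) + ent x)))
      (fun j _ => mul_nonneg (eigp_nonneg x j) (Real.exp_pos _).le) (Finset.mem_univ i)
  have h3 : Real.log (eigp x i) + l * (Real.log (eigp x i) + ent x) ≤ 4 * K * l ^ 2 := by
    have h4 : Real.exp (Real.log (eigp x i) + l * (Real.log (eigp x i) + ent x)) ≤
        Real.exp (4 * K * l ^ 2) := by
      rw [Real.exp_add, Real.exp_log hi]
      exact h2
    exact Real.exp_le_exp.mp h4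
  set L := - Real.log (eigp x i) with hL
  have hL0 : 0 ≤ L := by
    have := Real.log_nonpos hi.le hi1
    linarith only [this]
  have hlog : Real.log (eigp x i) = - L := by rw [hL]; ring
  rw [hlog] at h3 ⊢
  -- divide by l
  have h5 : ent x ≤ (5 + s) * L + 4 * K * l := by
    have h6 : l * ent x ≤ l * ((5 + s) * L + 4 * K * l) := by
      have e1 : l * ((5 + s) * L) = (1 + l) * L := by
        have : l * (5 + s) = 1 + l := by
          rw [hl]
          field_simp
          ring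
        rw [← mul_assoc, this]
      have e2 : l * ((5 + s) * L + 4 * K * l) = (1 + l) * L + 4 * K * l ^ 2 := by
        rw [mul_add, e1]
        ring
      rw [e2]
      linarith only [h3]
    exact le_of_mul_le_mul_left h6 hl0
  have h6 : 4 * K * l ≤ 2 * s := by
    have : 4 * K * l = 2 * s * (l * s) := by
      have : 4 * K = 2 * s ^ 2 := by rw [hs2]; ring
      rw [this]
      ring
    rw [this]
    nlinarith only [hs0, hls]
  have hsK : s ≤ 3 / 2 * Real.sqrt K := by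
    have h7 : s = Real.sqrt 2 * Real.sqrt K := by rw [hs, Real.sqrt_mul (by norm_num)]
    have h8 : Real.sqrt 2 ≤ 3 / 2 := by
      rw [show (3 / 2 : ℝ) = Real.sqrt ((3 / 2) ^ 2) by rw [Real.sqrt_sq (by norm_num)]]
      exact Real.sqrt_le_sqrt (by norm_num)
    rw [h7]
    exact mul_le_mul_of_nonneg_right h8 (Real.sqrt_nonneg _)
  have hq0 : 0 ≤ Real.sqrt K := Real.sqrt_nonneg _
  have h9 : (5 + s) * L ≤ (5 + 3 * Real.sqrt K) * L := by
    refine mul_le_mul_of_nonneg_right ?_ hL0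
    linarith only [hs0, hsK]
  have h10 : (5 + 3 * Real.sqrt K) * (1 - -L) =
      (5 + 3 * Real.sqrt K) * L + (5 + 3 * Real.sqrt K) := by ring
  rw [h10]
  linarith only [h5, h6, hsK, h9]

end Vale.Agent.P356.Path
end
end

section

section

namespace Vale.Agent.P356
open Finset Matrix

variable {V : Type*} [Fintype V] [DecidableEq V]

/-- Ising Hamiltonian with couplings `J`, transverse field `h` and longitudinal field `b`. -/
noncomputable def isingH (J : V → V → ℝ) (h b : V → ℝ) : Op V 2 :=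
  - ∑ x, ∑ y, ((J x y : ℝ) : ℂ) • (opZ x * opZ y) - ∑ x, ((h x : ℝ) : ℂ) • opX x
    - ∑ x, ((b x : ℝ) : ℂ) • opZ x

lemma flipC_eq_update (x : V) (s : Conf V 2) : Function.update s x (1 - s x) = flipC x s := by
  funext z
  by_cases hz : z = x
  · subst hz
    simp only [Function.update_self, flipC, Pi.add_apply, Pi.single_eq_same]
    have : ∀ a : Fin 2, 1 - a = a + 1 := by decide
    exact this _
  · simp only [Fin.isValue, ne_eq, hz, not_false_eq_true, Function.update_of_ne, flipC, Pi.add_apply, Pi.single_eq_of_ne, add_zero]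

lemma sgC (s : Fin 2) : (if s = 0 then (1 : ℂ) else -1) = ((sg s : ℝ) : ℂ) := by
  unfold sg sz
  split_ifs <;> simp

lemma opZ_mulVec (x : V) (f : Conf V 2 → ℂ) (s : Conf V 2) :
    (opZ x *ᵥ f) s = (sg (s x) : ℂ) * f s := by
  unfold opZ
  rw [Matrix.mulVec_diagonal, sgC]

lemma opX_mulVec (x : V) (f : Conf V 2 → ℂ) (s : Conf V 2) :
    (opX x *ᵥ f) s = f (flipC x s) := by
  simp only [mulVec, dotProduct, opX, flipC_eq_update]
  simp only [ite_mul, one_mul, zero_mul, sum_ite_eq', mem_univ, ↓reduceIte]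

lemma isingH_mulVec (J : V → V → ℝ) (h b : V → ℝ) (f : Conf V 2 → ℂ) (s : Conf V 2) :
    (isingH J h b *ᵥ f) s =
      - (((∑ x, ∑ y, J x y * (sg (s x) * sg (s y))) + ∑ x, b x * sg (s x) : ℝ) : ℂ) * f s
      - ∑ x, (h x : ℂ) * f (flipC x s) := by
  unfold isingH
  simp only [Matrix.sub_mulVec, Matrix.neg_mulVec, Matrix.sum_mulVec, Matrix.smul_mulVec,
    ← Matrix.mulVec_mulVec, Pi.sub_apply, Pi.neg_apply, Finset.sum_apply, Pi.smul_apply,
    opZ_mulVec, opX_mulVec, smul_eq_mul]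
  push_cast
  rw [neg_mul, add_mul]
  simp only [Finset.sum_mul]
  have h1 : ∑ x, ∑ y, (J x y : ℂ) * ((sg (s x) : ℂ) * ((sg (s y) : ℂ) * f s)) =
      ∑ x, ∑ y, (J x y : ℂ) * ((sg (s x) : ℂ) * (sg (s y) : ℂ)) * f s :=
    Finset.sum_congr rfl fun x _ => Finset.sum_congr rfl fun y _ => by ring
  have h2 : ∑ x, (b x : ℂ) * ((sg (s x) : ℂ) * f s) = ∑ x, (b x : ℂ) * (sg (s x) : ℂ) * f s :=
    Finset.sum_congr rfl fun x _ => by ring
  rw [h1, h2]
  ring

/-- complex form of the Hamiltonian, split in real and imaginary parts -/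
lemma form_complex (J : V → V → ℝ) (h b : V → ℝ) (ψ : Conf V 2 → ℂ) :
    (star ψ ⬝ᵥ (isingH J h b *ᵥ ψ)).re =
      BI J h b (fun s => (ψ s).re) (fun s => (ψ s).re) +
      BI J h b (fun s => (ψ s).im) (fun s => (ψ s).im) := by
  simp only [dotProduct, Pi.star_apply, RCLike.star_def, isingH_mulVec, Complex.re_sum]
  have h1 : ∀ s : Conf V 2, ((starRingEnd ℂ) (ψ s) *
      (- (((∑ x, ∑ y, J x y * (sg (s x) * sg (s y))) + ∑ x, b x * sg (s x) : ℝ) : ℂ) * ψ s
      - ∑ x, (h x : ℂ) * ψ (flipC x s))).re =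
      - ((∑ x, ∑ y, J x y * (sg (s x) * sg (s y))) + ∑ x, b x * sg (s x)) *
        ((ψ s).re * (ψ s).re + (ψ s).im * (ψ s).im)
      - ∑ x, h x * ((ψ s).re * (ψ (flipC x s)).re + (ψ s).im * (ψ (flipC x s)).im) := by
    intro s
    rw [mul_sub, Complex.sub_re, Finset.mul_sum, Complex.re_sum]
    congr 1
    · simp only [Complex.mul_re, Complex.mul_im, Complex.conj_re, Complex.conj_im,
        Complex.neg_re, Complex.neg_im, Complex.ofReal_re, Complex.ofReal_im]
      ring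
    · refine Finset.sum_congr rfl fun x _ => ?_
      simp only [Complex.mul_re, Complex.conj_re, Complex.ofReal_re, Complex.ofReal_im, Complex.conj_im, Complex.mul_im]
      ring
  simp only [h1]
  unfold BI
  rw [Finset.sum_sub_distrib]
  have h2 : ∑ s : Conf V 2, ∑ x, h x * ((ψ s).re * (ψ (flipC x s)).re + (ψ s).im * (ψ (flipC x s)).im) =
      (∑ x, h x * ∑ s, (ψ s).re * (ψ (flipC x s)).re) + ∑ x, h x * ∑ s, (ψ s).im * (ψ (flipC x s)).im := by
    rw [Finset.sum_comm, ← Finset.sum_add_distrib]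
    refine Finset.sum_congr rfl fun x _ => ?_
    rw [← mul_add, ← Finset.sum_add_distrib, Finset.mul_sum]
  rw [h2]
  have h3 : ∑ s : Conf V 2, -((∑ x, ∑ y, J x y * (sg (s x) * sg (s y))) + ∑ x, b x * sg (s x)) *
        ((ψ s).re * (ψ s).re + (ψ s).im * (ψ s).im) =
      - (∑ s, ((∑ x, ∑ y, J x y * (sg (s x) * sg (s y))) + ∑ x, b x * sg (s x)) * ((ψ s).re * (ψ s).re))
      - (∑ s, ((∑ x, ∑ y, J x y * (sg (s x) * sg (s y))) + ∑ x, b x * sg (s x)) * ((ψ s).im * (ψ s).im)) := by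
    rw [← Finset.sum_neg_distrib, ← Finset.sum_sub_distrib]
    refine Finset.sum_congr rfl fun s _ => ?_
    ring
  rw [h3]
  ring

lemma nsq_split (ψ : Conf V 2 → ℂ) :
    nsq ψ = ∑ s, (ψ s).re ^ 2 + ∑ s, (ψ s).im ^ 2 := by
  unfold nsq
  rw [← Finset.sum_add_distrib]
  refine Finset.sum_congr rfl fun s _ => ?_
  rw [← Complex.normSq_eq_norm_sq, Complex.normSq_apply]; ring

/-- real vector as complex vector -/
noncomputable def toC (u : Conf V 2 → ℝ) : Conf V 2 → ℂ := fun s => (u s : ℂ)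

lemma inner_toC (u : Conf V 2 → ℝ) (ψ : Conf V 2 → ℂ) :
    ‖star (toC u) ⬝ᵥ ψ‖ ^ 2 = (∑ s, u s * (ψ s).re) ^ 2 + (∑ s, u s * (ψ s).im) ^ 2 := by
  rw [← Complex.normSq_eq_norm_sq, Complex.normSq_apply]
  have h1 : (star (toC u) ⬝ᵥ ψ).re = ∑ s, u s * (ψ s).re := by
    simp only [dotProduct, toC, Pi.star_apply, RCLike.star_def, Complex.conj_ofReal, Complex.re_sum,
      Complex.re_ofReal_mul]
  have h2 : (star (toC u) ⬝ᵥ ψ).im = ∑ s, u s * (ψ s).im := by
    simp only [dotProduct, toC, Pi.star_apply, RCLike.star_def, Complex.conj_ofReal, Complex.im_sum,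
      Complex.im_ofReal_mul]
  rw [h1, h2]; ring

lemma isingH_toC (J : V → V → ℝ) (h b : V → ℝ) (u : Conf V 2 → ℝ) :
    isingH J h b *ᵥ toC u = toC (fun s =>
      - ((∑ x, ∑ y, J x y * (sg (s x) * sg (s y))) + ∑ x, b x * sg (s x)) * u s
      - ∑ x, h x * u (flipC x s)) := by
  funext s
  rw [isingH_mulVec]
  simp only [toC]
  push_cast
  ring

/-- a real gapped ground state is a complex gapped ground state -/
theorem gapped_of_rgap (J : V → V → ℝ) (h b : V → ℝ) (Δ E : ℝ) (hΔ : 0 ≤ Δ) (u : Conf V 2 → ℝ)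
    (hu : RGap J h b Δ E u) : GappedGround (isingH J h b) Δ E (toC u) := by
  obtain ⟨h1, h2, h3⟩ := hu
  have hcs : ∀ f : Conf V 2 → ℝ, (∑ s, u s * f s) ^ 2 ≤ ∑ s, f s ^ 2 := by
    intro f
    have := Finset.sum_mul_sq_le_sq_mul_sq Finset.univ u f
    rw [h1, one_mul] at this
    exact this
  have hmin : ∀ f : Conf V 2 → ℝ, E * ∑ s, f s ^ 2 ≤ BI J h b f f := by
    intro f
    have ha := h3 f
    have hb := mul_nonneg hΔ (sub_nonneg.mpr (hcs f))
    linarith only [ha, hb]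
  have heig := ground_eigen J h b E u h1 h2 hmin
  refine ⟨?_, ?_, ?_⟩
  · rw [nsq_split]
    simp only [toC, Complex.ofReal_re, Complex.ofReal_im]
    simpa only [ne_eq, OfNat.ofNat_ne_zero, not_false_eq_true, zero_pow, sum_const_zero, add_zero] using h1
  · rw [isingH_toC]
    funext s
    simp only [toC, Pi.smul_apply, smul_eq_mul]
    have h4 := heig (Pi.single s 1)
    rw [BI_symm] at h4
    have h5 : BI J h b (Pi.single s 1) u =
        - ((∑ x, ∑ y, J x y * (sg (s x) * sg (s y))) + ∑ x, b x * sg (s x)) * u s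
        - ∑ x, h x * u (flipC x s) := by
      unfold BI
      congr 1
      · rw [neg_mul]
        congr 1
        rw [Finset.sum_eq_single s]
        · simp only [Pi.single_eq_same, one_mul]
        · intro t _ ht; simp only [Pi.single_eq_of_ne ht, zero_mul, mul_zero]
        · simp only [mem_univ, not_true_eq_false, Pi.single_eq_same, one_mul, mul_eq_zero, IsEmpty.forall_iff]
      · refine Finset.sum_congr rfl fun x _ => ?_
        congr 1
        rw [Finset.sum_eq_single s]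
        · simp
        · intro t _ ht; simp only [Pi.single_eq_of_ne ht, zero_mul]
        · simp only [mem_univ, not_true_eq_false, Pi.single_eq_same, one_mul, IsEmpty.forall_iff]
    have h6 : ∑ t, u t * (Pi.single s (1 : ℝ) : Conf V 2 → ℝ) t = u s := by
      rw [Finset.sum_eq_single s]
      · simp
      · intro t _ ht; simp only [Pi.single_eq_of_ne ht, mul_zero]
      · simp only [mem_univ, not_true_eq_false, Pi.single_eq_same, mul_one, IsEmpty.forall_iff]
    rw [h5, h6] at h4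
    rw [h4]
    push_cast; ring
  · intro ψ
    rw [form_complex, nsq_split, inner_toC]
    have ha := h3 (fun s => (ψ s).re)
    have hb := h3 (fun s => (ψ s).im)
    linarith

/-- a complex gapped ground state is, up to a phase, a real one -/
theorem rgap_of_gapped (J : V → V → ℝ) (h b : V → ℝ) (Δ E : ℝ) (hΔ : 0 < Δ) (Ω : Conf V 2 → ℂ)
    (hΩ : GappedGround (isingH J h b) Δ E Ω) :
    ∃ (u : Conf V 2 → ℝ) (ζ : ℂ), RGap J h b Δ E u ∧ ‖ζ‖ = 1 ∧ ∀ s, Ω s = ζ * u s := by
  obtain ⟨h1, h2, h3⟩ := hΩ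
  obtain ⟨E0, u, hu1, huE, hmin⟩ := exists_ground J h b
  -- E0 ≤ E
  have hE : (star Ω ⬝ᵥ (isingH J h b *ᵥ Ω)).re = E := by
    rw [h2]
    simp only [dotProduct_smul, smul_eq_mul, Complex.re_ofReal_mul]
    have : (star Ω ⬝ᵥ Ω).re = nsq Ω := by
      unfold nsq
      simp only [dotProduct, Pi.star_apply, RCLike.star_def, Complex.re_sum]
      refine Finset.sum_congr rfl fun s _ => ?_
      rw [← Complex.normSq_eq_norm_sq, Complex.normSq_apply]
      simp [Complex.mul_re]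
    rw [this, h1, mul_one]
  have hE0 : E0 ≤ E := by
    rw [form_complex] at hE
    have ha := hmin (fun s => (Ω s).re)
    have hb := hmin (fun s => (Ω s).im)
    have hc := nsq_split Ω
    rw [h1] at hc
    have : E0 * 1 ≤ E := by
      rw [← hE, hc, mul_add]
      exact add_le_add ha hb
    linarith only [this]
  have hnu : nsq (toC u) = 1 := by
    rw [nsq_split]; simp only [toC, Complex.ofReal_re, Complex.ofReal_im]; simpa only [ne_eq, OfNat.ofNat_ne_zero, not_false_eq_true, zero_pow, sum_const_zero, add_zero] using hu1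
  have hfu : (star (toC u) ⬝ᵥ (isingH J h b *ᵥ toC u)).re = E0 := by
    rw [form_complex]
    simp only [toC, Complex.ofReal_re, Complex.ofReal_im]
    rw [huE]
    have : BI J h b (fun _ => (0 : ℝ)) (fun _ => 0) = 0 := by
      have := BI_smul J h b u 0
      simpa using this
    rw [this, add_zero]
  have hgu := h3 (toC u)
  rw [hfu, hnu, mul_one] at hgu
  set z := star Ω ⬝ᵥ toC u with hz
  have hzle : 1 ≤ ‖z‖ ^ 2 := by
    by_contra hlt
    push Not at hlt
    have := mul_pos hΔ (sub_pos.mpr hlt)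
    linarith only [hE0, hgu, this]
  -- Ω - (star z) u has zero norm
  have hzz : nsq (fun s => Ω s - star z * toC u s) = 1 - ‖z‖ ^ 2 := by
    have e1 : ∀ s, ‖Ω s - star z * toC u s‖ ^ 2 =
        ‖Ω s‖ ^ 2 - 2 * (z * (star (toC u s) * Ω s)).re + ‖z‖ ^ 2 * ‖toC u s‖ ^ 2 := by
      intro s
      rw [← Complex.normSq_eq_norm_sq, ← Complex.normSq_eq_norm_sq, ← Complex.normSq_eq_norm_sq,
        ← Complex.normSq_eq_norm_sq, Complex.normSq_sub, map_mul]
      have : Complex.normSq (star z) = Complex.normSq z := Complex.normSq_conj z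
      rw [this]
      have e2 : (Ω s * (starRingEnd ℂ) (star z * toC u s)).re = (z * (star (toC u s) * Ω s)).re := by
        congr 1
        simp only [RCLike.star_def, map_mul, Complex.conj_conj]
        ring
      rw [e2]; ring
    unfold nsq
    simp only [e1, sum_add_distrib, sum_sub_distrib, ← mul_sum]
    have e3 : ∑ s, (z * (star (toC u s) * Ω s)).re = ‖z‖ ^ 2 := by
      rw [← Complex.re_sum, ← Finset.mul_sum]
      have e4 : ∑ s, star (toC u s) * Ω s = star z := by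
        rw [hz]
        simp only [dotProduct, Pi.star_apply, star_sum, star_mul', star_star]
        refine Finset.sum_congr rfl fun s _ => ?_
        ring
      rw [e4, RCLike.star_def, Complex.mul_conj, Complex.ofReal_re, Complex.normSq_eq_norm_sq]
    rw [e3]
    have e5 : ∑ s, ‖Ω s‖ ^ 2 = 1 := h1
    have e6 : ∑ s, ‖toC u s‖ ^ 2 = 1 := hnu
    rw [e5, e6]; ring
  have hnn : 0 ≤ nsq (fun s => Ω s - star z * toC u s) :=
    Finset.sum_nonneg fun _ _ => sq_nonneg _
  have hz1 : ‖z‖ ^ 2 = 1 := le_antisymm (by rw [hzz] at hnn; linarith only [hnn]) hzle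
  have hz1' : ‖z‖ = 1 := by
    have h0 := norm_nonneg z
    nlinarith only [hzle, h0, hzz, hnn]
  have hEq : E0 = E := by
    have : Δ * (1 - ‖z‖ ^ 2) ≤ E0 - E := hgu
    rw [hz1] at this
    linarith only [this, hE0]
  have hΩu : ∀ s, Ω s = star z * u s := by
    intro s
    have h0 : nsq (fun s => Ω s - star z * toC u s) = 0 := by rw [hzz, hz1]; ring
    have := (Finset.sum_eq_zero_iff_of_nonneg (fun s _ => sq_nonneg _)).mp h0 s (Finset.mem_univ s)
    have h4 : Ω s - star z * toC u s = 0 := by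
      rw [pow_eq_zero_iff two_ne_zero, norm_eq_zero] at this
      exact this
    rw [sub_eq_zero] at h4
    exact h4
  refine ⟨u, star z, ⟨hu1, by rw [huE, hEq], ?_⟩, by rw [norm_star, hz1'], hΩu⟩
  intro f
  have h5 := h3 (toC f)
  have h6 : (star (toC f) ⬝ᵥ (isingH J h b *ᵥ toC f)).re = BI J h b f f := by
    rw [form_complex]
    simp only [toC, Complex.ofReal_re, Complex.ofReal_im]
    have : BI J h b (fun _ => (0 : ℝ)) (fun _ => 0) = 0 := by
      have := BI_smul J h b u 0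
      simpa using this
    rw [this, add_zero]
  have h7 : nsq (toC f) = ∑ s, f s ^ 2 := by
    rw [nsq_split]; simp only [toC, Complex.ofReal_re, Complex.ofReal_im]; simp only [ne_eq, OfNat.ofNat_ne_zero, not_false_eq_true, zero_pow, sum_const_zero, add_zero]
  have h8 : ‖star Ω ⬝ᵥ toC f‖ ^ 2 = (∑ s, u s * f s) ^ 2 := by
    have : star Ω ⬝ᵥ toC f = z * ((∑ s, u s * f s : ℝ) : ℂ) := by
      simp only [dotProduct, Pi.star_apply, toC, hΩu]
      push_cast
      rw [Finset.mul_sum]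
      refine Finset.sum_congr rfl fun s _ => ?_
      simp only [star_mul', RCLike.star_def, Complex.conj_ofReal, Complex.conj_conj]
      ring
    rw [this, norm_mul, hz1', one_mul, Complex.norm_real, Real.norm_eq_abs, sq_abs]
  rw [h6, h7, h8] at h5
  linarith only [h5]

/-- **Gap monotonicity**, complex form: for unfrustrated Ising Hamiltonians the gap persists when
the compatible longitudinal field is increased. -/
theorem gapped_field (c : V → V → ℝ) (h b b' ε : V → ℝ) (hε : ∀ x, ε x = 1 ∨ ε x = -1)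
    (hc : ∀ x y, 0 ≤ c x y) (hb : ∀ x, 0 ≤ b x) (hb' : ∀ x, b x ≤ b' x) (Δ E : ℝ) (hΔ : 0 < Δ)
    (Ω : Conf V 2 → ℂ)
    (hΩ : GappedGround (isingH (fun x y => c x y * ε x * ε y) h (fun x => b x * ε x)) Δ E Ω) :
    ∃ E' Ω', GappedGround (isingH (fun x y => c x y * ε x * ε y) h (fun x => b' x * ε x)) Δ E' Ω' := by
  obtain ⟨u, ζ, hu, _, _⟩ := rgap_of_gapped _ _ _ Δ E hΔ Ω hΩ
  obtain ⟨E', u', hu'⟩ := rgap_field c h b b' ε hε hc hb hb' Δ E hΔ.le u hu
  exact ⟨E', toC u', gapped_of_rgap _ _ _ Δ E' hΔ.le u' hu'⟩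

end Vale.Agent.P356
end
end

section

section

namespace Vale.Agent.P356
open Finset

variable {L : ℕ}

lemma dist1_comm (x y : Site L) : dist1 x y = dist1 y x := by
  unfold dist1; omega

lemma dist1_tri (x y z : Site L) : dist1 x z ≤ dist1 x y + dist1 y z := by
  unfold dist1; (clear * -; omega)

lemma dist1_self (x : Site L) : dist1 x x = 0 := by
  unfold dist1; omega

lemma eq_of_dist1_zero {x y : Site L} (h : dist1 x y = 0) : x = y := by
  unfold dist1 at h
  have h1 : (x.1 : ℕ) = y.1 := by (clear * - h; omega)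
  have h2 : (x.2 : ℕ) = y.2 := by omega
  exact Prod.ext (Fin.ext h1) (Fin.ext h2)

/-- a neighbour of `x` closer to `y` -/
lemma exists_closer (x y : Site L) (h : x ≠ y) :
    ∃ z : Site L, dist1 x z = 1 ∧ dist1 z y + 1 = dist1 x y := by
  obtain ⟨x1, x2⟩ := x
  obtain ⟨y1, y2⟩ := y
  by_cases h1 : (x1 : ℕ) < y1
  · refine ⟨(⟨x1 + 1, by omega⟩, x2), ?_, ?_⟩ <;> simp only [dist1] <;> push_cast <;> omega
  · by_cases h2 : (y1 : ℕ) < x1
    · refine ⟨(⟨x1 - 1, by omega⟩, x2), ?_, ?_⟩ <;> simp only [dist1] <;> omega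
    · have h3 : x1 = y1 := Fin.ext (by omega)
      by_cases h4 : (x2 : ℕ) < y2
      · refine ⟨(x1, ⟨x2 + 1, by omega⟩), ?_, ?_⟩ <;> simp only [dist1] <;> push_cast <;> omega
      · by_cases h5 : (y2 : ℕ) < x2
        · refine ⟨(x1, ⟨x2 - 1, by omega⟩), ?_, ?_⟩ <;> simp only [dist1] <;> omega
        · have h6 : x2 = y2 := Fin.ext (by omega)
          exact absurd (by rw [h3, h6]) h

/-- between a site of `A` and a site outside there is a boundary edge -/
lemma exists_edge (A : Finset (Site L)) (d : ℕ) : ∀ (x y : Site L), x ∈ A → y ∉ A → dist1 x y = d →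
    ∃ u v : Site L, u ∈ A ∧ v ∉ A ∧ dist1 u v = 1 ∧ dist1 x u ≤ d ∧ dist1 y u ≤ d := by
  induction d with
  | zero =>
    intro x y hx hy h
    exact absurd (eq_of_dist1_zero h ▸ hx) hy
  | succ n ih =>
    intro x y hx hy h
    have hne : x ≠ y := fun e => hy (e ▸ hx)
    obtain ⟨z, hz1, hz2⟩ := exists_closer x y hne
    by_cases hz : z ∈ A
    · obtain ⟨u, v, hu, hv, huv, h1, h2⟩ := ih z y hz hy (by omega)
      refine ⟨u, v, hu, hv, huv, ?_, by omega⟩
      have := dist1_tri x z u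
      omega
    · refine ⟨x, z, hx, hz, hz1, ?_, ?_⟩
      · rw [dist1_self]; omega
      · rw [dist1_comm]; omega

/-- the ball of radius `R` has at most `(2R+1)^2` sites -/
lemma card_ball (u : Site L) (R : ℕ) :
    ((univ : Finset (Site L)).filter (fun x => dist1 x u ≤ R)).card ≤ (2 * R + 1) ^ 2 := by
  have hmaps : ∀ x ∈ (univ : Finset (Site L)).filter (fun x => dist1 x u ≤ R),
      (((x.1 : ℤ) - u.1), ((x.2 : ℤ) - u.2)) ∈ (Finset.Icc (-(R : ℤ)) R) ×ˢ (Finset.Icc (-(R : ℤ)) R) := by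
    intro x hx
    have hx' := (Finset.mem_filter.mp hx).2
    unfold dist1 at hx'
    rw [Finset.mem_product, Finset.mem_Icc, Finset.mem_Icc]
    dsimp only
    omega
  have hinj : Set.InjOn (fun x : Site L => (((x.1 : ℤ) - u.1), ((x.2 : ℤ) - u.2)))
      ((univ : Finset (Site L)).filter (fun x => dist1 x u ≤ R)) := by
    intro x _ y _ h
    simp only [Prod.mk.injEq] at h
    have h1 : (x.1 : ℕ) = y.1 := by omega
    have h2 : (x.2 : ℕ) = y.2 := by omega
    exact Prod.ext (Fin.ext h1) (Fin.ext h2)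
  have := Finset.card_le_card_of_injOn _ hmaps hinj
  refine this.trans ?_
  rw [Finset.card_product, Int.card_Icc]
  have : ((R : ℤ) + 1 - -(R : ℤ)).toNat = 2 * R + 1 := by omega
  rw [this, pow_two]

/-- number of pairs at distance at most `R` across the boundary -/
lemma card_pairs (A : Finset (Site L)) (R : ℕ) :
    ((univ : Finset (Site L × Site L)).filter
      (fun p => p.1 ∈ A ∧ p.2 ∉ A ∧ dist1 p.1 p.2 ≤ R)).card ≤ (2 * R + 1) ^ 4 * bdry A := by
  set B := (univ : Finset (Site L × Site L)).filter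
    (fun p => p.1 ∈ A ∧ p.2 ∉ A ∧ dist1 p.1 p.2 = 1) with hB
  have hsub : (univ : Finset (Site L × Site L)).filter
      (fun p => p.1 ∈ A ∧ p.2 ∉ A ∧ dist1 p.1 p.2 ≤ R) ⊆
      B.biUnion (fun e => ((univ : Finset (Site L)).filter (fun x => dist1 x e.1 ≤ R)) ×ˢ
        ((univ : Finset (Site L)).filter (fun x => dist1 x e.1 ≤ R))) := by
    intro p hp
    simp only [mem_filter, mem_univ, true_and] at hp
    obtain ⟨h1, h2, h3⟩ := hp
    obtain ⟨u, v, hu, hv, huv, hxu, hyu⟩ := exists_edge A _ p.1 p.2 h1 h2 rfl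
    simp only [mem_biUnion]
    refine ⟨(u, v), ?_, ?_⟩
    · rw [hB]; simp only [mem_filter, mem_univ, true_and]; exact ⟨hu, hv, huv⟩
    · simp only [mem_product, mem_filter, mem_univ, true_and]
      exact ⟨hxu.trans h3, hyu.trans h3⟩
  refine (Finset.card_le_card hsub).trans (Finset.card_biUnion_le.trans ?_)
  have : ∀ e ∈ B, (((univ : Finset (Site L)).filter (fun x => dist1 x e.1 ≤ R)) ×ˢ
        ((univ : Finset (Site L)).filter (fun x => dist1 x e.1 ≤ R))).card ≤ (2 * R + 1) ^ 4 := by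
    intro e _
    rw [Finset.card_product]
    have h := card_ball e.1 R
    calc _ ≤ (2 * R + 1) ^ 2 * (2 * R + 1) ^ 2 := Nat.mul_le_mul h h
      _ = _ := by ring
  refine (Finset.sum_le_card_nsmul _ _ _ this).trans ?_
  rw [smul_eq_mul, mul_comm]
  rfl

/-- the outer collar of `A` -/
def collar (A : Finset (Site L)) (R : ℕ) : Finset (Site L) :=
  (univ : Finset (Site L)).filter (fun y => y ∉ A ∧ ∃ x ∈ A, dist1 x y ≤ R)

lemma card_collar (A : Finset (Site L)) (R : ℕ) : (collar A R).card ≤ (2 * R + 1) ^ 4 * bdry A := by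
  refine le_trans ?_ (card_pairs A R)
  have : collar A R ⊆ ((univ : Finset (Site L × Site L)).filter
      (fun p => p.1 ∈ A ∧ p.2 ∉ A ∧ dist1 p.1 p.2 ≤ R)).image Prod.snd := by
    intro y hy
    simp only [collar, mem_filter, mem_univ, true_and] at hy
    obtain ⟨hyA, x, hx, hxy⟩ := hy
    simp only [mem_image, mem_filter, mem_univ, true_and]
    exact ⟨(x, y), ⟨hx, hyA, hxy⟩, rfl⟩
  exact (Finset.card_le_card this).trans Finset.card_image_le

end Vale.Agent.P356
end
end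

section

section

namespace Vale.Agent.P356
open Finset Matrix

set_option linter.unusedSectionVars false

section norm
variable {ι : Type*} [Fintype ι] [DecidableEq ι]

lemma entry_le {h : Matrix ι ι ℂ} {J : ℝ} (hJ : OpNormLe h J) (s t : ι) : ‖h s t‖ ≤ |J| := by
  have h1 := hJ (Pi.single t 1)
  have h2 : nsq (Pi.single t 1 : ι → ℂ) = 1 := by
    unfold nsq
    rw [Finset.sum_eq_single t]
    · simp
    · intro b _ hb; simp [hb]
    · intro h; exact absurd (Finset.mem_univ _) h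
  have h3 : ‖h s t‖ ^ 2 ≤ nsq (h *ᵥ (Pi.single t 1 : ι → ℂ)) := by
    unfold nsq
    have : (h *ᵥ (Pi.single t 1 : ι → ℂ)) s = h s t := by
      rw [Matrix.mulVec_single_one]; rfl
    rw [← this]
    exact Finset.single_le_sum
      (f := fun s => ‖(h *ᵥ (Pi.single t 1 : ι → ℂ)) s‖ ^ 2)
      (fun _ _ => by (clear * -; positivity)) (Finset.mem_univ s)
  rw [h2, mul_one] at h1
  have h4 : ‖h s t‖ ^ 2 ≤ |J| ^ 2 := by rw [sq_abs]; exact h3.trans h1
  exact (pow_le_pow_iff_left₀ (norm_nonneg _) (abs_nonneg _) two_ne_zero).mp h4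

end norm

section gen
variable {V : Type*} [Fintype V] [DecidableEq V]

lemma flipC_ne (x : V) (s : Conf V 2) {z : V} (hz : z ≠ x) : flipC x s z = s z := by
  simp [flipC, hz]

lemma flipC_self (x : V) (s : Conf V 2) : flipC x s x = s x + 1 := by
  simp [flipC]

lemma fin2_add_one_ne (a : Fin 2) : a + 1 ≠ a := by
  revert a; decide

lemma sg_flipC (x u : V) (s : Conf V 2) :
    sg (flipC x s u) = (if u = x then -1 else 1) * sg (s u) := by
  by_cases h : u = x
  · subst h; rw [flipC_self, sg_add_one]; simp only [↓reduceIte, neg_mul, one_mul]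
  · rw [flipC_ne x s h]; simp [h]

lemma actsOn_diag_flip {X : Finset V} {h : Op V 2} (hX : ActsOn X h) {x : V} (hx : x ∉ X)
    (s : Conf V 2) : h (flipC x s) (flipC x s) = h s s := by
  obtain ⟨k, hk⟩ := hX
  rw [(hk s s).1 (fun _ _ => rfl), (hk (flipC x s) (flipC x s)).1 (fun _ _ => rfl)]
  have : (fun z : {z // z ∈ X} => flipC x s z) = fun z : {z // z ∈ X} => s z := by
    funext z
    exact flipC_ne x s (fun e => hx (e ▸ z.2))
  rw [this]

lemma actsOn_off_flip {X : Finset V} {h : Op V 2} (hX : ActsOn X h) {x : V} (hx : x ∉ X)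
    (s : Conf V 2) : h s (flipC x s) = 0 := by
  obtain ⟨k, hk⟩ := hX
  refine (hk s (flipC x s)).2 ⟨x, hx, ?_⟩
  rw [flipC_self]
  exact (fin2_add_one_ne _).symm

/-- second difference of the diagonal -/
def d2 (h : Op V 2) (x y : V) (s : Conf V 2) : ℂ :=
  h s s - h (flipC x s) (flipC x s) - h (flipC y s) (flipC y s)
    + h (flipC x (flipC y s)) (flipC x (flipC y s))

lemma flipC_comm (x y : V) (s : Conf V 2) : flipC x (flipC y s) = flipC y (flipC x s) := by
  unfold flipC; abel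

lemma d2_zero_left {X : Finset V} {h : Op V 2} (hX : ActsOn X h) {x : V} (hx : x ∉ X) (y : V)
    (s : Conf V 2) : d2 h x y s = 0 := by
  unfold d2
  rw [actsOn_diag_flip hX hx, actsOn_diag_flip hX hx]
  ring

lemma d2_zero_right {X : Finset V} {h : Op V 2} (hX : ActsOn X h) (x : V) {y : V} (hy : y ∉ X)
    (s : Conf V 2) : d2 h x y s = 0 := by
  unfold d2
  rw [flipC_comm, actsOn_diag_flip hX hy, actsOn_diag_flip hX hy]
  ring

lemma d2_norm {h : Op V 2} {J : ℝ} (hJ : OpNormLe h J) (x y : V) (s : Conf V 2) :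
    ‖d2 h x y s‖ ≤ 4 * |J| := by
  unfold d2
  have a := entry_le hJ s s
  have b := entry_le hJ (flipC x s) (flipC x s)
  have c := entry_le hJ (flipC y s) (flipC y s)
  have d := entry_le hJ (flipC x (flipC y s)) (flipC x (flipC y s))
  have h1 := norm_add_le (h s s - h (flipC x s) (flipC x s) - h (flipC y s) (flipC y s))
    (h (flipC x (flipC y s)) (flipC x (flipC y s)))
  have h2 := norm_sub_le (h s s - h (flipC x s) (flipC x s)) (h (flipC y s) (flipC y s))
  have h3 := norm_sub_le (h s s) (h (flipC x s) (flipC x s))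
  linarith

lemma d2_sum {κ : Type*} [Fintype κ] (h : κ → Op V 2) (x y : V) (s : Conf V 2) :
    d2 (∑ i, h i) x y s = ∑ i, d2 (h i) x y s := by
  unfold d2
  simp only [Matrix.sum_apply, Finset.sum_add_distrib, Finset.sum_sub_distrib]

lemma isingH_diag (J : V → V → ℝ) (h b : V → ℝ) (s : Conf V 2) :
    isingH J h b s s =
      - (((∑ x, ∑ y, J x y * (sg (s x) * sg (s y))) + ∑ x, b x * sg (s x) : ℝ) : ℂ) := by
  have h1 := isingH_mulVec J h b (Pi.single s 1) s
  rw [Matrix.mulVec_single_one] at h1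
  have h2 : ∑ x, (h x : ℂ) * (Pi.single s (1 : ℂ) : Conf V 2 → ℂ) (flipC x s) = 0 := by
    refine Finset.sum_eq_zero fun x _ => ?_
    have : flipC x s ≠ s := fun e => fin2_add_one_ne (s x) (by rw [← flipC_self, e])
    simp [this]
  rw [h2] at h1
  simpa only [Complex.ofReal_add, Complex.ofReal_sum, Complex.ofReal_mul, neg_add_rev, col, transpose_apply,     Pi.single_eq_same, mul_one, sub_zero] using h1

lemma isingH_off (J : V → V → ℝ) (h b : V → ℝ) (x : V) (s : Conf V 2) :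
    isingH J h b s (flipC x s) = - (h x : ℂ) := by
  have h1 := isingH_mulVec J h b (Pi.single (flipC x s) 1) s
  rw [Matrix.mulVec_single_one] at h1
  have hne : s ≠ flipC x s := fun e => fin2_add_one_ne (s x) (by rw [← flipC_self, ← e])
  have h2 : ∑ y, (h y : ℂ) * (Pi.single (flipC x s) (1 : ℂ) : Conf V 2 → ℂ) (flipC y s) = h x := by
    rw [Finset.sum_eq_single x]
    · simp
    · intro y _ hy
      have : flipC y s ≠ flipC x s := by
        intro e
        have := congrFun e y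
        rw [flipC_self, flipC_ne x s hy] at this
        exact fin2_add_one_ne _ this
      simp [this]
    · intro h; exact absurd (Finset.mem_univ _) h
  rw [h2] at h1
  simpa only [col, transpose_apply, Complex.ofReal_add, Complex.ofReal_sum, Complex.ofReal_mul, neg_add_rev,     ne_eq, hne, not_false_eq_true, Pi.single_eq_of_ne, mul_zero, zero_sub] using h1

lemma d2_ising (J : V → V → ℝ) (h b : V → ℝ) {x y : V} (hxy : x ≠ y) (s : Conf V 2) :
    d2 (isingH J h b) x y s = - ((4 * (J x y + J y x) * (sg (s x) * sg (s y)) : ℝ) : ℂ) := by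
  unfold d2
  simp only [isingH_diag]
  rw [← Complex.ofReal_neg, ← Complex.ofReal_neg, ← Complex.ofReal_neg, ← Complex.ofReal_neg,
    ← Complex.ofReal_sub, ← Complex.ofReal_sub, ← Complex.ofReal_add, ← Complex.ofReal_neg]
  congr 1
  simp only [sg_flipC]
  have hlin : ∀ u : V, b u * sg (s u) - b u * ((if u = x then -1 else 1) * sg (s u)) -
      b u * ((if u = y then -1 else 1) * sg (s u)) +
      b u * ((if u = x then -1 else 1) * ((if u = y then -1 else 1) * sg (s u))) = 0 := by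
    intro u
    by_cases h1 : u = x
    · have h2 : u ≠ y := fun e => hxy (h1.symm.trans e)
      simp only [h1, if_true, if_neg hxy]
      ring
    · simp only [if_neg h1]
      ring
  have hquad : ∀ u v : V, J u v * (sg (s u) * sg (s v)) -
      J u v * ((if u = x then -1 else 1) * sg (s u) * ((if v = x then -1 else 1) * sg (s v))) -
      J u v * ((if u = y then -1 else 1) * sg (s u) * ((if v = y then -1 else 1) * sg (s v))) +
      J u v * ((if u = x then -1 else 1) * ((if u = y then -1 else 1) * sg (s u)) *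
        ((if v = x then -1 else 1) * ((if v = y then -1 else 1) * sg (s v)))) =
      (if v = y then (if u = x then 4 * J x y * (sg (s x) * sg (s y)) else 0) else 0) +
      (if v = x then (if u = y then 4 * J y x * (sg (s x) * sg (s y)) else 0) else 0) := by
    intro u v
    have hyx : y ≠ x := fun e => hxy e.symm
    by_cases h1 : u = x
    · subst h1
      by_cases h2 : v = u
      · subst h2; simp only [↓reduceIte, neg_mul, one_mul, mul_neg, neg_neg, sub_self, hxy, zero_sub, neg_add_cancel, add_zero]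
      · by_cases h3 : v = y
        · subst h3; simp only [↓reduceIte, neg_mul, one_mul, hyx, mul_neg, sub_neg_eq_add, hxy, neg_neg, add_zero]; ring
        · simp only [↓reduceIte, neg_mul, one_mul, h2, mul_neg, sub_neg_eq_add, hxy, h3, add_sub_cancel_right, add_neg_cancel, add_zero]
    · by_cases h1' : u = y
      · subst h1'
        by_cases h2 : v = x
        · subst h2; simp only [hyx, ↓reduceIte, one_mul, neg_mul, mul_neg, sub_neg_eq_add, hxy, neg_neg, zero_add]; ring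
        · by_cases h3 : v = u
          · subst h3; simp [hyx]
          · simp only [hyx, ↓reduceIte, one_mul, h2, sub_self, neg_mul, h3, mul_neg, sub_neg_eq_add, zero_add, add_neg_cancel, add_zero]
      · simp only [if_neg h1, if_neg h1']
        by_cases h2 : v = x
        · have h3 : v ≠ y := fun e => hxy (h2.symm.trans e)
          simp only [if_pos h2, if_neg h3]
          ring
        · by_cases h3 : v = y
          · simp only [if_neg h2, if_pos h3]
            ring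
          · simp only [if_neg h2, if_neg h3]
            ring
  have e1 : ∑ u, ∑ v, (J u v * (sg (s u) * sg (s v)) -
      J u v * ((if u = x then -1 else 1) * sg (s u) * ((if v = x then -1 else 1) * sg (s v))) -
      J u v * ((if u = y then -1 else 1) * sg (s u) * ((if v = y then -1 else 1) * sg (s v))) +
      J u v * ((if u = x then -1 else 1) * ((if u = y then -1 else 1) * sg (s u)) *
        ((if v = x then -1 else 1) * ((if v = y then -1 else 1) * sg (s v))))) =
      4 * (J x y + J y x) * (sg (s x) * sg (s y)) := by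
    simp only [hquad, Finset.sum_add_distrib]
    simp only [Finset.sum_ite_eq', Finset.mem_univ, if_true]
    ring
  have e2 : ∑ u, (b u * sg (s u) - b u * ((if u = x then -1 else 1) * sg (s u)) -
      b u * ((if u = y then -1 else 1) * sg (s u)) +
      b u * ((if u = x then -1 else 1) * ((if u = y then -1 else 1) * sg (s u)))) = 0 :=
    Finset.sum_eq_zero fun u _ => hlin u
  simp only [Finset.sum_add_distrib, Finset.sum_sub_distrib] at e1 e2
  linarith

end gen

section lattice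
variable {L : ℕ}

/-- the ball of radius `R` around `x` -/
def ball (x : Site L) (R : ℕ) : Finset (Site L) :=
  (univ : Finset (Site L)).filter (fun z => dist1 z x ≤ R)

/-- bound for the number of local terms at a site -/
def NR (R : ℕ) : ℕ := 2 ^ ((2 * R + 1) ^ 2)

lemma card_local (x : Site L) (R : ℕ) : (ball x R).powerset.card ≤ NR R := by
  rw [Finset.card_powerset]
  exact Nat.pow_le_pow_right (by norm_num) (card_ball x R)

theorem coeff_bounds {R : ℕ} {J : ℝ} {c : Site L → Site L → ℝ} {h b : Site L → ℝ}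
    (hA : Admissible L 2 R J (isingH c h b)) :
    (∀ x y, x ≠ y → |c x y + c y x| ≤ NR R * |J|) ∧
    (∀ x y, R < dist1 x y → c x y + c y x = 0) ∧
    (∀ x, |h x| ≤ NR R * |J|) := by
  obtain ⟨k, hk, hsum⟩ := hA
  have hsg : ∀ a : Fin 2, |sg a| = 1 := by
    intro a
    have := sg_sq a
    rcases abs_cases (sg a) with ⟨h1, _⟩ | ⟨h1, _⟩ <;> nlinarith
  have hloc : ∀ (X : Finset (Site L)) (x : Site L), k X ≠ 0 → x ∈ X → X ∈ (ball x R).powerset := by
    intro X x hX hx
    rw [Finset.mem_powerset]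
    intro z hz
    exact Finset.mem_filter.mpr ⟨Finset.mem_univ _, ((hk X).2.2.2 hX).2 z hz x hx⟩
  have key : ∀ x y, x ≠ y → ∀ s : Conf (Site L) 2,
      ∑ X, d2 (k X) x y s = - ((4 * (c x y + c y x) * (sg (s x) * sg (s y)) : ℝ) : ℂ) := by
    intro x y hxy s
    rw [← d2_ising c h b hxy s, hsum, d2_sum]
  refine ⟨?_, ?_, ?_⟩
  · intro x y hxy
    have h1 := key x y hxy 0
    have h2 : ∑ X, d2 (k X) x y 0 = ∑ X ∈ (ball x R).powerset, d2 (k X) x y 0 := by
      refine (Finset.sum_subset (Finset.subset_univ _) ?_).symm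
      intro X _ hX
      by_cases h0 : k X = 0
      · rw [h0]; simp [d2]
      · refine d2_zero_left (hk X).2.1 (fun hx => hX (hloc X x h0 hx)) y 0
    rw [h2] at h1
    have h3 : ‖∑ X ∈ (ball x R).powerset, d2 (k X) x y 0‖ ≤ NR R * (4 * |J|) := by
      refine (norm_sum_le _ _).trans ?_
      refine (Finset.sum_le_card_nsmul _ _ (4 * |J|)
        (fun X _ => d2_norm (hk X).2.2.1 x y 0)).trans ?_
      rw [nsmul_eq_mul]
      exact mul_le_mul_of_nonneg_right (by exact_mod_cast card_local x R) (by (clear * -; positivity))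
    rw [h1, norm_neg, Complex.norm_real, Real.norm_eq_abs, abs_mul, abs_mul, abs_mul, hsg, hsg] at h3
    rw [abs_of_pos (by norm_num : (0:ℝ) < 4)] at h3
    linarith only [h3]
  · intro x y hxy
    have hne : x ≠ y := by
      intro e
      rw [e, dist1_self] at hxy
      exact absurd hxy (Nat.not_lt_zero _)
    have h1 := key x y hne 0
    have h2 : ∑ X, d2 (k X) x y 0 = 0 := by
      refine Finset.sum_eq_zero fun X _ => ?_
      by_cases h0 : k X = 0
      · rw [h0]; simp [d2]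
      · by_cases hx : x ∈ X
        · refine d2_zero_right (hk X).2.1 x (fun hy => ?_) 0
          have := ((hk X).2.2.2 h0).2 x hx y hy
          omega
        · exact d2_zero_left (hk X).2.1 hx y 0
    rw [h2] at h1
    have h3 : (4 * (c x y + c y x) * (sg ((0 : Conf (Site L) 2) x) * sg ((0 : Conf (Site L) 2) y)) : ℝ) = 0 := by
      have : ((4 * (c x y + c y x) * (sg ((0 : Conf (Site L) 2) x) * sg ((0 : Conf (Site L) 2) y)) : ℝ) : ℂ) = 0 := by
        rw [← neg_eq_zero]; exact h1.symm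
      exact_mod_cast this
    have h4 : sg ((0 : Conf (Site L) 2) x) ≠ 0 := by
      intro e; have := hsg ((0 : Conf (Site L) 2) x); rw [e] at this; simp at this
    have h5 : sg ((0 : Conf (Site L) 2) y) ≠ 0 := by
      intro e; have := hsg ((0 : Conf (Site L) 2) y); rw [e] at this; simp only [abs_zero, zero_ne_one] at this
    have h6 : 4 * (c x y + c y x) = 0 := by
      rcases mul_eq_zero.mp h3 with h | h
      · exact h
      · exact absurd h (mul_ne_zero h4 h5)
    linarith only [h6]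
  · intro x
    have h1 := isingH_off c h b x 0
    rw [hsum, Matrix.sum_apply] at h1
    have h2 : ∑ X, k X 0 (flipC x 0) = ∑ X ∈ (ball x R).powerset, k X 0 (flipC x 0) := by
      refine (Finset.sum_subset (Finset.subset_univ _) ?_).symm
      intro X _ hX
      by_cases h0 : k X = 0
      · rw [h0]; rfl
      · exact actsOn_off_flip (hk X).2.1 (fun hx => hX (hloc X x h0 hx)) 0
    rw [h2] at h1
    have h3 : ‖∑ X ∈ (ball x R).powerset, k X 0 (flipC x 0)‖ ≤ NR R * |J| := by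
      refine (norm_sum_le _ _).trans ?_
      refine (Finset.sum_le_card_nsmul _ _ (|J|)
        (fun X _ => entry_le (hk X).2.2.1 _ _)).trans ?_
      rw [nsmul_eq_mul]
      exact mul_le_mul_of_nonneg_right (by exact_mod_cast card_local x R) (abs_nonneg _)
    rw [h1, norm_neg, Complex.norm_real, Real.norm_eq_abs] at h3
    exact h3

end lattice

end Vale.Agent.P356
end
end

section

section

namespace Vale.Agent.P356
open Finset Matrix

set_option linter.unusedSectionVars false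

lemma gapped_shift {ι : Type*} [Fintype ι] {H H' : Matrix ι ι ℂ} {Δ E κ : ℝ} {Ω : ι → ℂ}
    (h : ∀ f : ι → ℂ, H *ᵥ f = H' *ᵥ f - (κ : ℂ) • f) (hg : GappedGround H Δ E Ω) :
    GappedGround H' Δ (E + κ) Ω := by
  obtain ⟨h1, h2, h3⟩ := hg
  refine ⟨h1, ?_, ?_⟩
  · have h4 : H' *ᵥ Ω = H *ᵥ Ω + (κ : ℂ) • Ω := by rw [h]; abel
    rw [h4, h2, ← add_smul]
    push_cast
    rfl
  · intro ψ
    have h5 := h3 ψ
    have h4 : H' *ᵥ ψ = H *ᵥ ψ + (κ : ℂ) • ψ := by rw [h]; abel
    have h6 : (star ψ ⬝ᵥ ((κ : ℂ) • ψ)).re = κ * nsq ψ := by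
      rw [dotProduct_smul, smul_eq_mul]
      have : star ψ ⬝ᵥ ψ = ((nsq ψ : ℝ) : ℂ) := by
        unfold nsq dotProduct
        push_cast
        refine Finset.sum_congr rfl fun s _ => ?_
        rw [Pi.star_apply, RCLike.star_def, Complex.conj_mul']
      rw [this, ← Complex.ofReal_mul, Complex.ofReal_re]
    rw [h4, dotProduct_add, Complex.add_re, h6]
    (clear * - h5; linarith)

section gen
variable {V : Type*} [Fintype V] [DecidableEq V]

/-- symmetrized couplings without diagonal -/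
noncomputable def symm0 (c : V → V → ℝ) : V → V → ℝ :=
  fun x y => if x = y then 0 else (c x y + c y x) / 2

lemma quad_symm0 (c : V → V → ℝ) (ε : V → ℝ) (hε : ∀ x, ε x = 1 ∨ ε x = -1) (t : V → ℝ)
    (ht : ∀ x, t x * t x = 1) :
    ∑ x, ∑ y, c x y * ε x * ε y * (t x * t y) =
      ∑ x, ∑ y, symm0 c x y * ε x * ε y * (t x * t y) + ∑ x, c x x := by
  have hεε : ∀ x, ε x * ε x = 1 := by
    intro x; rcases hε x with h | h <;> rw [h] <;> norm_num
  have h1 : ∑ x, ∑ y, c x y * ε x * ε y * (t x * t y) =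
      ∑ x, ∑ y, c y x * ε x * ε y * (t x * t y) := by
    rw [Finset.sum_comm]
    refine Finset.sum_congr rfl fun x _ => Finset.sum_congr rfl fun y _ => by ring
  have h2 : ∑ x, ∑ y, c x y * ε x * ε y * (t x * t y) =
      ∑ x, ∑ y, (c x y + c y x) / 2 * ε x * ε y * (t x * t y) := by
    have : ∑ x, ∑ y, (c x y + c y x) / 2 * ε x * ε y * (t x * t y) =
        (∑ x, ∑ y, c x y * ε x * ε y * (t x * t y) +
          ∑ x, ∑ y, c y x * ε x * ε y * (t x * t y)) / 2 := by
      rw [← Finset.sum_add_distrib, Finset.sum_div]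
      refine Finset.sum_congr rfl fun x _ => ?_
      rw [← Finset.sum_add_distrib, Finset.sum_div]
      refine Finset.sum_congr rfl fun y _ => by ring
    rw [this, ← h1]
    ring
  rw [h2, ← Finset.sum_add_distrib]
  refine Finset.sum_congr rfl fun x _ => ?_
  have h3 : ∀ y, (c x y + c y x) / 2 * ε x * ε y * (t x * t y) =
      symm0 c x y * ε x * ε y * (t x * t y) + if x = y then c x x else 0 := by
    intro y
    by_cases h : x = y
    · subst h
      simp only [symm0, if_true]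
      have h5 : (c x x + c x x) / 2 * ε x * ε x * (t x * t x) = c x x := by
        calc _ = c x x * (ε x * ε x) * (t x * t x) := by ring
          _ = _ := by rw [hεε, ht]; ring
      rw [h5]; ring
    · simp only [symm0, if_neg h]
      ring
  rw [Finset.sum_congr rfl fun y _ => h3 y, Finset.sum_add_distrib, Finset.sum_ite_eq]
  simp only [mem_univ, ↓reduceIte]

lemma isingH_symm0 (c : V → V → ℝ) (h b ε : V → ℝ) (hε : ∀ x, ε x = 1 ∨ ε x = -1)
    (f : Conf V 2 → ℂ) :
    isingH (fun x y => c x y * ε x * ε y) h b *ᵥ f =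
      isingH (fun x y => symm0 c x y * ε x * ε y) h b *ᵥ f - ((∑ x, c x x : ℝ) : ℂ) • f := by
  funext s
  rw [Pi.sub_apply, Pi.smul_apply, isingH_mulVec, isingH_mulVec,
    quad_symm0 c ε hε (fun x => sg (s x)) (fun x => sg_sq (s x)), smul_eq_mul]
  push_cast
  ring

end gen

theorem normalize {L R : ℕ} {J Δ E : ℝ} {H : Op (Site L) 2} {Ω : Conf (Site L) 2 → ℂ}
    (hI : H ∈ UnfrustratedIsing L) (hA : Admissible L 2 R J H) (hg : GappedGround H Δ E Ω) :
    ∃ (ε : Site L → ℝ) (c : Site L → Site L → ℝ) (h b : Site L → ℝ) (E' : ℝ),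
      (∀ x, ε x = 1 ∨ ε x = -1) ∧ (∀ x y, 0 ≤ c x y) ∧ (∀ x y, c x y = c y x) ∧
      (∀ x, c x x = 0) ∧ (∀ x y, c x y ≤ NR R * |J|) ∧ (∀ x y, R < dist1 x y → c x y = 0) ∧
      (∀ x, |h x| ≤ NR R * |J|) ∧ (∀ x, 0 ≤ b x) ∧
      GappedGround (isingH (fun x y => c x y * ε x * ε y) h (fun x => b x * ε x)) Δ E' Ω := by
  obtain ⟨ε, c, h, b, hε, hc, hb, hH⟩ := hI
  have hH' : H = isingH (fun x y => c x y * ε x * ε y) h (fun x => b x * ε x) := hH
  rw [hH'] at hA hg
  obtain ⟨h1, h2, h3⟩ := coeff_bounds hA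
  have habs : ∀ x, |ε x| = 1 := by
    intro x; rcases hε x with h | h <;> rw [h] <;> norm_num
  have hne : ∀ x, ε x ≠ 0 := by
    intro x; rcases hε x with h | h <;> rw [h] <;> norm_num
  have hpos : 0 ≤ (NR R : ℝ) * |J| := by (clear * -; positivity)
  refine ⟨ε, symm0 c, h, b, E + ∑ x, c x x, hε, ?_, ?_, ?_, ?_, ?_, h3, hb, ?_⟩
  · intro x y
    unfold symm0
    split_ifs
    · exact le_refl 0
    · have := hc x y; have := hc y x; linarith
  · intro x y
    unfold symm0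
    by_cases hxy : x = y
    · rw [if_pos hxy, if_pos hxy.symm]
    · rw [if_neg hxy, if_neg (fun e => hxy e.symm)]; ring
  · intro x
    simp [symm0]
  · intro x y
    unfold symm0
    split_ifs with hxy
    · exact hpos
    · have h4 := h1 x y hxy
      have h5 : c x y * ε x * ε y + c y x * ε y * ε x = (c x y + c y x) * (ε x * ε y) := by ring
      rw [h5, abs_mul, abs_mul, habs, habs, abs_of_nonneg (add_nonneg (hc x y) (hc y x))] at h4
      linarith only [hpos, h4]
  · intro x y hxy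
    unfold symm0
    split_ifs with h6
    · rfl
    · have h4 := h2 x y hxy
      have h5 : c x y * ε x * ε y + c y x * ε y * ε x = (c x y + c y x) * (ε x * ε y) := by ring
      rw [h5] at h4
      rcases mul_eq_zero.mp h4 with h | h
      · rw [h]; norm_num
      · exact absurd h (mul_ne_zero (hne x) (hne y))
  · exact gapped_shift (isingH_symm0 c h _ ε hε) hg

end Vale.Agent.P356
end
end

section

section

open Matrix Finset
open scoped BigOperators ComplexOrder Kronecker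

set_option linter.unusedSectionVars false

namespace Vale.Agent.P356

open Vale.Agent.P356.Path

theorem gapped_of {n : Type*} [Fintype n] {H : Matrix n n ℂ} (hH : H.IsHermitian) {Δ E : ℝ}
    {Ω : n → ℂ} (h : GappedGround H Δ E Ω) : Gapped H E Ω Δ :=
  ⟨hH, h.1, h.2.1, h.2.2⟩

theorem gapped_reindex {n m : Type*} [Fintype n] [Fintype m] (e : n ≃ m) {H : Matrix n n ℂ}
    {E Δ : ℝ} {Ω : n → ℂ} (h : Gapped H E Ω Δ) :
    Gapped (Matrix.reindex e e H) E (Ω ∘ e.symm) Δ := by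
  have hmv : ∀ ψ : m → ℂ, (Matrix.reindex e e H) *ᵥ ψ = (H *ᵥ (ψ ∘ e)) ∘ e.symm := by
    intro ψ
    rw [Matrix.reindex_apply, Matrix.submatrix_mulVec_equiv]
    rfl
  have hdp : ∀ x y : m → ℂ, x ⬝ᵥ y = (x ∘ e) ⬝ᵥ (y ∘ e) := by
    intro x y
    simp only [dotProduct, Function.comp]
    exact (Equiv.sum_comp e (fun i => x i * y i)).symm
  refine ⟨?_, ?_, ?_, ?_⟩
  · exact h.herm.submatrix _
  · have := Equiv.sum_comp e.symm (fun i => ‖Ω i‖ ^ 2)
    simp only [Function.comp]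
    rw [this]
    exact h.unit
  · rw [hmv]
    have e1 : (Ω ∘ e.symm) ∘ e = Ω := by
      funext i
      simp
    rw [e1, h.eig]
    rfl
  · intro ψ
    have h1 := h.gap (ψ ∘ e)
    have e1 : ∑ i, ‖(ψ ∘ e) i‖ ^ 2 = ∑ i, ‖ψ i‖ ^ 2 :=
      Equiv.sum_comp e (fun i => ‖ψ i‖ ^ 2)
    have e2 : star (Ω ∘ e.symm) ⬝ᵥ ψ = star Ω ⬝ᵥ (ψ ∘ e) := by
      rw [hdp]
      congr 1
      funext i
      simp only [Function.comp_apply, Pi.star_apply, Equiv.symm_apply_apply, RCLike.star_def]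
    have e3 : star ψ ⬝ᵥ ((Matrix.reindex e e H) *ᵥ ψ) = star (ψ ∘ e) ⬝ᵥ (H *ᵥ (ψ ∘ e)) := by
      rw [hmv, hdp]
      congr 1
      funext i
      simp
    rw [e1] at h1
    rw [e2, e3]
    exact h1

section lattice
variable {V : Type*} [Fintype V] [DecidableEq V] {q : ℕ}

/-- splitting of configurations along a region -/
abbrev cut (A : Finset V) (q : ℕ) :
    Conf V q ≃ ({x // x ∈ A} → Fin q) × ({x // ¬ x ∈ A} → Fin q) :=
  Equiv.piEquivPiSubtypeProd (fun x => x ∈ A) (fun _ => Fin q)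

theorem rdm_eq (A : Finset V) (Ω : Conf V q → ℂ) : rdm A Ω = redA (Ω ∘ (cut A q).symm) := rfl

theorem vnEntropy_rdm (A : Finset V) (Ω : Conf V q → ℂ) :
    vnEntropy (rdm A Ω) = ent (Ω ∘ (cut A q).symm) := by
  rw [rdm_eq, vnEntropy, dif_pos (redA_isHermitian _)]
  rfl

end lattice

end Vale.Agent.P356
end
end

section

section

open Matrix Finset
open scoped BigOperators ComplexOrder Kronecker

set_option linter.unusedSectionVars false

namespace Vale.Agent.P356

open Vale.Agent.P356.Path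

variable {V : Type*} [Fintype V] [DecidableEq V]

/-- gauged spin value -/
noncomputable def zz (ε : V → ℝ) (s : Conf V 2) (x : V) : ℝ := ε x * sg (s x)

/-- indicator of the spin pointing against the field -/
noncomputable def dn (ε : V → ℝ) (s : Conf V 2) (x : V) : ℝ := (1 - zz ε s x) / 2

lemma zz_val {ε : V → ℝ} (hε : ∀ x, ε x = 1 ∨ ε x = -1) (s : Conf V 2) (x : V) :
    zz ε s x = 1 ∨ zz ε s x = -1 := by
  have h2 : sg (s x) = 1 ∨ sg (s x) = -1 := by
    have := sg_sq (s x)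
    have h3 : (sg (s x) - 1) * (sg (s x) + 1) = 0 := by linarith
    rcases mul_eq_zero.mp h3 with h | h
    · exact Or.inl (by linarith only [h])
    · exact Or.inr (by linarith only [h])
  unfold zz
  rcases hε x with h | h <;> rcases h2 with h' | h' <;> rw [h, h'] <;> norm_num

lemma dn_val {ε : V → ℝ} (hε : ∀ x, ε x = 1 ∨ ε x = -1) (s : Conf V 2) (x : V) :
    dn ε s x = 0 ∨ dn ε s x = 1 := by
  unfold dn
  rcases zz_val hε s x with h | h <;> rw [h] <;> (clear * -; norm_num)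

lemma fl_self (x : V) (s : Conf V 2) : flipC x s x = s x + 1 := by
  simp [flipC]

lemma fl_ne {x z : V} (h : z ≠ x) (s : Conf V 2) : flipC x s z = s z := by
  simp [flipC, h]

lemma fl_fl (x : V) (s : Conf V 2) : flipC x (flipC x s) = s := by
  funext z
  by_cases hz : z = x
  · subst hz
    rw [fl_self, fl_self]
    have : ∀ a : Fin 2, a + 1 + 1 = a := by decide
    exact this _
  · rw [fl_ne hz, fl_ne hz]

lemma fl_comm (x y : V) (s : Conf V 2) : flipC x (flipC y s) = flipC y (flipC x s) := by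
  unfold flipC
  abel

lemma zz_flip_self (ε : V → ℝ) (s : Conf V 2) (x : V) : zz ε (flipC x s) x = - zz ε s x := by
  unfold zz
  rw [fl_self, sg_add_one]
  ring

lemma zz_flip_ne (ε : V → ℝ) (s : Conf V 2) {x z : V} (h : z ≠ x) :
    zz ε (flipC x s) z = zz ε s z := by
  unfold zz
  rw [fl_ne h]

/-- the diagonal part -/
noncomputable def DD (c : V → V → ℝ) (b ε : V → ℝ) (s : Conf V 2) : ℝ :=
  ∑ x, ∑ y, c x y * (zz ε s x * zz ε s y) + ∑ x, b x * zz ε s x

lemma isingH_mulVec' (c : V → V → ℝ) (h b ε : V → ℝ) (f : Conf V 2 → ℂ) (s : Conf V 2) :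
    (isingH (fun x y => c x y * ε x * ε y) h (fun x => b x * ε x) *ᵥ f) s =
      - (DD c b ε s : ℂ) * f s - ∑ x, (h x : ℂ) * f (flipC x s) := by
  rw [isingH_mulVec]
  have e1 : (∑ x, ∑ y, c x y * ε x * ε y * (sg (s x) * sg (s y))) + ∑ x, b x * ε x * sg (s x) =
      DD c b ε s := by
    unfold DD zz
    congr 1
    · refine Finset.sum_congr rfl fun x _ => Finset.sum_congr rfl fun y _ => by ring
    · refine Finset.sum_congr rfl fun x _ => by ring
  rw [e1]

lemma DD_flip (c : V → V → ℝ) (b ε : V → ℝ) (hsym : ∀ x y, c x y = c y x)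
    (hdiag : ∀ x, c x x = 0) (s : Conf V 2) (y : V) :
    DD c b ε s - DD c b ε (flipC y s) =
      2 * zz ε s y * (2 * ∑ x, c x y * zz ε s x + b y) := by
  have hz : ∀ x, zz ε (flipC y s) x = zz ε s x - (if x = y then 2 * zz ε s y else 0) := by
    intro x
    by_cases hx : x = y
    · subst hx
      rw [zz_flip_self, if_pos rfl]
      ring
    · rw [zz_flip_ne ε s hx, if_neg hx, sub_zero]
  have e1 : ∑ x, b x * zz ε (flipC y s) x = ∑ x, b x * zz ε s x - b y * (2 * zz ε s y) := by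
    simp only [hz, mul_sub, Finset.sum_sub_distrib, mul_ite, mul_zero, Finset.sum_ite_eq',
      Finset.mem_univ, if_true]
  have e2 : ∑ x, ∑ x', c x x' * (zz ε (flipC y s) x * zz ε (flipC y s) x') =
      ∑ x, ∑ x', c x x' * (zz ε s x * zz ε s x') -
        4 * zz ε s y * ∑ x, c x y * zz ε s x := by
    have e3 : ∀ x x', c x x' * (zz ε (flipC y s) x * zz ε (flipC y s) x') =
        c x x' * (zz ε s x * zz ε s x')
        - (if x' = y then c x x' * zz ε s x * (2 * zz ε s y) else 0)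
        - (if x = y then c x x' * zz ε s x' * (2 * zz ε s y) else 0)
        + (if x' = y then (if x = y then c x x' * (2 * zz ε s y) * (2 * zz ε s y) else 0) else 0) := by
      intro x x'
      rw [hz, hz]
      split_ifs <;> ring
    simp only [e3, Finset.sum_add_distrib, Finset.sum_sub_distrib, Finset.sum_ite_eq',
      Finset.mem_univ, if_true]
    rw [hdiag]
    have e4 : ∑ x, (if x = y then ∑ x', c x x' * zz ε s x' * (2 * zz ε s y) else 0) =
        ∑ x', c y x' * zz ε s x' * (2 * zz ε s y) := by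
      simp only [sum_ite_eq', mem_univ, ↓reduceIte]
    have e5 : ∑ x, ∑ x', (if x = y then c x x' * zz ε s x' * (2 * zz ε s y) else 0) =
        ∑ x', c y x' * zz ε s x' * (2 * zz ε s y) := by
      rw [← e4]
      refine Finset.sum_congr rfl fun x _ => ?_
      split_ifs <;> simp
    rw [e5, ← Finset.sum_mul, ← Finset.sum_mul]
    have e6 : ∑ x', c y x' * zz ε s x' = ∑ x, c x y * zz ε s x :=
      Finset.sum_congr rfl fun x _ => by rw [hsym]
    rw [e6]
    ring
  unfold DD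
  rw [e1, e2]
  ring

/-- probability of the wrong orientation at `y` -/
noncomputable def Nd (ε : V → ℝ) (y : V) (Ω : Conf V 2 → ℂ) : ℝ := ∑ s, dn ε s y * ‖Ω s‖ ^ 2

lemma Nd_nonneg {ε : V → ℝ} (hε : ∀ x, ε x = 1 ∨ ε x = -1) (y : V) (Ω : Conf V 2 → ℂ) :
    0 ≤ Nd ε y Ω :=
  Finset.sum_nonneg fun s _ => mul_nonneg (by rcases dn_val hε s y with h | h <;> rw [h] <;> norm_num)
    (sq_nonneg _)

lemma Nd_le_one {ε : V → ℝ} (hε : ∀ x, ε x = 1 ∨ ε x = -1) (y : V) {Ω : Conf V 2 → ℂ}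
    (hΩ : nsq Ω = 1) : Nd ε y Ω ≤ 1 := by
  rw [← hΩ]
  refine Finset.sum_le_sum fun s _ => ?_
  have h0 : 0 ≤ ‖Ω s‖ ^ 2 := sq_nonneg _
  rcases dn_val hε s y with h | h <;> rw [h] <;> linarith

/-- flipping as a permutation -/
def flipE (y : V) : Conf V 2 ≃ Conf V 2 where
  toFun := flipC y
  invFun := flipC y
  left_inv := fl_fl y
  right_inv := fl_fl y

/-- The single site bound. -/
theorem site_bound (c : V → V → ℝ) (h b ε : V → ℝ) (hε : ∀ x, ε x = 1 ∨ ε x = -1)
    (hc : ∀ x y, 0 ≤ c x y) (hsym : ∀ x y, c x y = c y x) (hdiag : ∀ x, c x x = 0)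
    {Δ E : ℝ} (hΔ : 0 ≤ Δ) {Ω : Conf V 2 → ℂ}
    (hG : GappedGround (isingH (fun x y => c x y * ε x * ε y) h (fun x => b x * ε x)) Δ E Ω)
    (y : V) :
    2 * (b y - 2 * ∑ x, c x y) * Nd ε y Ω ≤ |h y| * Real.sqrt (Nd ε y Ω) := by
  obtain ⟨h1, h2, h3⟩ := hG
  have hup : ∀ s, (1 - dn ε s y = 0 ∨ 1 - dn ε s y = 1) := by
    intro s
    rcases dn_val hε s y with h | h <;> rw [h] <;> norm_num
  -- trial vector
  let φ : Conf V 2 → ℂ := fun s => ((1 - dn ε s y : ℝ) : ℂ) * Ω (flipC y s)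
  have hdnflip : ∀ s, 1 - dn ε (flipC y s) y = dn ε s y := by
    intro s
    unfold dn
    rw [zz_flip_self]
    ring
  have hnφ : nsq φ = Nd ε y Ω := by
    unfold nsq Nd
    rw [← Equiv.sum_comp (flipE y) (fun s => dn ε s y * ‖Ω s‖ ^ 2)]
    refine Finset.sum_congr rfl fun s _ => ?_
    have e1 := hdnflip s
    simp only [φ, flipE, Equiv.coe_fn_mk, norm_mul, Complex.norm_real, Real.norm_eq_abs, mul_pow,
      sq_abs]
    have e2 : dn ε (flipC y s) y = 1 - dn ε s y := by linarith only [e1]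
    rw [e2]
    congr 1
    rcases hup s with h | h <;> rw [h] <;> norm_num
  have heig : ∀ s, - (DD c b ε s : ℂ) * Ω s - ∑ x, (h x : ℂ) * Ω (flipC x s) = (E : ℂ) * Ω s := by
    intro s
    have := congrFun h2 s
    rw [isingH_mulVec'] at this
    simpa only [neg_mul, Pi.smul_apply, smul_eq_mul] using this
  -- action on the trial vector
  have hHφ : ∀ s, star (φ s) * (isingH (fun x y => c x y * ε x * ε y) h (fun x => b x * ε x) *ᵥ φ) s =
      ((1 - dn ε s y : ℝ) : ℂ) * ((E + (DD c b ε (flipC y s) - DD c b ε s) : ℝ) : ℂ) *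
        (star (Ω (flipC y s)) * Ω (flipC y s)) +
      (h y : ℂ) * (((1 - dn ε s y : ℝ) : ℂ) * (star (Ω (flipC y s)) * Ω s)) := by
    intro s
    rcases hup s with hu | hu
    · have : φ s = 0 := by simp only [φ, hu]; simp
      rw [this, hu]
      simp only [star_zero, zero_mul, Complex.ofReal_zero, Complex.ofReal_add, Complex.ofReal_sub, RCLike.star_def, mul_zero, add_zero]
    · have hφs : φ s = Ω (flipC y s) := by simp only [φ, hu]; simp
      rw [isingH_mulVec', hφs, hu]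
      have hsum : ∑ x, (h x : ℂ) * φ (flipC x s) =
          ∑ x, (h x : ℂ) * Ω (flipC x (flipC y s)) - (h y : ℂ) * Ω s := by
        rw [← Finset.add_sum_erase _ _ (Finset.mem_univ y),
          ← Finset.add_sum_erase (a := y) _ (fun x => (h x : ℂ) * Ω (flipC x (flipC y s)))
            (Finset.mem_univ y)]
        have e1 : φ (flipC y s) = 0 := by
          simp only [φ]
          rw [hdnflip]
          have : dn ε s y = 0 := by linarith only [hu]
          rw [this]
          simp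
        rw [e1, fl_fl]
        have e2 : ∑ x ∈ Finset.univ.erase y, (h x : ℂ) * φ (flipC x s) =
            ∑ x ∈ Finset.univ.erase y, (h x : ℂ) * Ω (flipC x (flipC y s)) := by
          refine Finset.sum_congr rfl fun x hx => ?_
          have hxy : y ≠ x := (Finset.ne_of_mem_erase hx).symm
          have e3 : dn ε (flipC x s) y = dn ε s y := by
            unfold dn
            rw [zz_flip_ne ε s hxy]
          simp only [φ]
          rw [e3, hu, fl_comm y x]
          simp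
        rw [e2]
        ring
      rw [hsum]
      have h4 := heig (flipC y s)
      have h5 : ∑ x, (h x : ℂ) * Ω (flipC x (flipC y s)) =
          - (DD c b ε (flipC y s) : ℂ) * Ω (flipC y s) - (E : ℂ) * Ω (flipC y s) := by
        rw [← h4]
        ring
      rw [h5]
      push_cast
      ring
  have hform : (star φ ⬝ᵥ (isingH (fun x y => c x y * ε x * ε y) h (fun x => b x * ε x) *ᵥ φ)).re =
      ∑ s, (1 - dn ε s y) * (E + (DD c b ε (flipC y s) - DD c b ε s)) * ‖Ω (flipC y s)‖ ^ 2 +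
      h y * (∑ s, ((1 - dn ε s y : ℝ) : ℂ) * (star (Ω (flipC y s)) * Ω s)).re := by
    rw [dotProduct, Complex.re_sum]
    simp only [Pi.star_apply]
    have e0 : ∀ s, (star (φ s) * (isingH (fun x y => c x y * ε x * ε y) h
        (fun x => b x * ε x) *ᵥ φ) s).re =
        (1 - dn ε s y) * (E + (DD c b ε (flipC y s) - DD c b ε s)) * ‖Ω (flipC y s)‖ ^ 2 +
        h y * (((1 - dn ε s y : ℝ) : ℂ) * (star (Ω (flipC y s)) * Ω s)).re := by
      intro s
      rw [hHφ s, Complex.add_re, Complex.re_ofReal_mul]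
      congr 1
      rw [RCLike.star_def, Complex.conj_mul', ← Complex.ofReal_mul, Complex.re_ofReal_mul,
        ← Complex.ofReal_pow, Complex.ofReal_re]
    simp only [e0, Finset.sum_add_distrib, ← Finset.mul_sum, Complex.re_sum]
  -- lower bound from the ground state energy
  have hlow : E * Nd ε y Ω ≤
      (star φ ⬝ᵥ (isingH (fun x y => c x y * ε x * ε y) h (fun x => b x * ε x) *ᵥ φ)).re := by
    have h4 := h3 φ
    have h5 : ‖star Ω ⬝ᵥ φ‖ ^ 2 ≤ nsq φ := by
      have h6 := norm_ip_le Ω φ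
      have h7 : ∑ i, ‖Ω i‖ ^ 2 = 1 := h1
      rw [h7, Real.sqrt_one, one_mul] at h6
      have h8 : ‖star Ω ⬝ᵥ φ‖ ^ 2 ≤ Real.sqrt (∑ i, ‖φ i‖ ^ 2) ^ 2 :=
        pow_le_pow_left₀ (norm_nonneg _) h6 2
      rw [Real.sq_sqrt (Finset.sum_nonneg fun _ _ => sq_nonneg _)] at h8
      exact h8
    have h6 := mul_nonneg hΔ (sub_nonneg.mpr h5)
    rw [hnφ] at h4 h6
    linarith only [h4, h6]
  -- diagonal part
  have hdiagB : ∑ s, (1 - dn ε s y) * (E + (DD c b ε (flipC y s) - DD c b ε s)) *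
      ‖Ω (flipC y s)‖ ^ 2 ≤ (E - 2 * (b y - 2 * ∑ x, c x y)) * Nd ε y Ω := by
    have e1 : (E - 2 * (b y - 2 * ∑ x, c x y)) * Nd ε y Ω =
        ∑ s, (1 - dn ε s y) * (E - 2 * (b y - 2 * ∑ x, c x y)) * ‖Ω (flipC y s)‖ ^ 2 := by
      unfold Nd
      rw [← Equiv.sum_comp (flipE y) (fun s => dn ε s y * ‖Ω s‖ ^ 2), Finset.mul_sum]
      refine Finset.sum_congr rfl fun s _ => ?_
      simp only [flipE, Equiv.coe_fn_mk]
      have e2 : dn ε (flipC y s) y = 1 - dn ε s y := by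
        have := hdnflip s
        linarith only [this]
      rw [e2]
      ring
    rw [e1]
    refine Finset.sum_le_sum fun s _ => ?_
    rcases hup s with hu | hu
    · rw [hu]
      simp only [zero_mul, Std.le_refl]
    · rw [hu]
      have hz1 : zz ε s y = 1 := by
        unfold dn at hu
        (clear * - hu; linarith)
      have h4 := DD_flip c b ε hsym hdiag s y
      rw [hz1] at h4
      have h5 : - ∑ x, c x y ≤ ∑ x, c x y * zz ε s x := by
        rw [← Finset.sum_neg_distrib]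
        refine Finset.sum_le_sum fun x _ => ?_
        have := hc x y
        rcases zz_val hε s x with h | h <;> rw [h] <;> linarith only [this]
      have h6 : 0 ≤ ‖Ω (flipC y s)‖ ^ 2 := sq_nonneg _
      have h7 : E + (DD c b ε (flipC y s) - DD c b ε s) ≤ E - 2 * (b y - 2 * ∑ x, c x y) := by
        linarith only [h4, h5]
      have := mul_le_mul_of_nonneg_right h7 h6
      linarith only [this]
  -- off diagonal part
  have hoff : h y * (∑ s, ((1 - dn ε s y : ℝ) : ℂ) * (star (Ω (flipC y s)) * Ω s)).re ≤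
      |h y| * Real.sqrt (Nd ε y Ω) := by
    have e1 : ∑ s, ((1 - dn ε s y : ℝ) : ℂ) * (star (Ω (flipC y s)) * Ω s) = star φ ⬝ᵥ Ω := by
      rw [dotProduct]
      refine Finset.sum_congr rfl fun s _ => ?_
      simp only [φ, Pi.star_apply, star_mul', RCLike.star_def, Complex.conj_ofReal]
      ring
    rw [e1]
    have h4 := norm_ip_le φ Ω
    have h7 : ∑ i, ‖Ω i‖ ^ 2 = 1 := h1
    have h8 : ∑ i, ‖φ i‖ ^ 2 = Nd ε y Ω := hnφ
    rw [h7, h8, Real.sqrt_one, mul_one] at h4
    have h5 := (Complex.abs_re_le_norm (star φ ⬝ᵥ Ω)).trans h4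
    calc h y * (star φ ⬝ᵥ Ω).re ≤ |h y * (star φ ⬝ᵥ Ω).re| := le_abs_self _
      _ = |h y| * |(star φ ⬝ᵥ Ω).re| := abs_mul _ _
      _ ≤ |h y| * Real.sqrt (Nd ε y Ω) := mul_le_mul_of_nonneg_left h5 (abs_nonneg _)
  rw [hform] at hlow
  linarith only [hlow, hdiagB, hoff]

end Vale.Agent.P356
end
end

section

section

open Matrix Finset
open scoped BigOperators ComplexOrder Kronecker

set_option linter.unusedSectionVars false

namespace Vale.Agent.P356

open Vale.Agent.P356.Path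

variable {V : Type*} [Fintype V] [DecidableEq V]

theorem ext_mulVec {n : Type*} [Fintype n] [DecidableEq n] {M N : Matrix n n ℂ}
    (h : ∀ f : n → ℂ, M *ᵥ f = N *ᵥ f) : M = N := by
  ext i j
  have := congrFun (h (Pi.single j 1)) i
  simpa using this

theorem kron_one_mulVec {α β : Type*} [Fintype α] [Fintype β] [DecidableEq α] [DecidableEq β]
    (M : Matrix α α ℂ) (f : α × β → ℂ) (a : α) (b : β) :
    ((M ⊗ₖ (1 : Matrix β β ℂ)) *ᵥ f) (a, b) = (M *ᵥ (fun a' => f (a', b))) a := by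
  simp only [mulVec, dotProduct, Fintype.sum_prod_type, kroneckerMap_apply, one_apply]
  refine Finset.sum_congr rfl fun a' _ => ?_
  rw [Finset.sum_eq_single b]
  · simp
  · intro b' _ hb
    simp [Ne.symm hb]
  · simp only [mem_univ, not_true_eq_false, ↓reduceIte, mul_one, mul_eq_zero, IsEmpty.forall_iff]

theorem one_kron_mulVec {α β : Type*} [Fintype α] [Fintype β] [DecidableEq α] [DecidableEq β]
    (M : Matrix β β ℂ) (f : α × β → ℂ) (a : α) (b : β) :
    (((1 : Matrix α α ℂ) ⊗ₖ M) *ᵥ f) (a, b) = (M *ᵥ (fun b' => f (a, b'))) b := by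
  simp only [mulVec, dotProduct, Fintype.sum_prod_type, kroneckerMap_apply, one_apply]
  rw [Finset.sum_eq_single a]
  · simp only [↓reduceIte, one_mul]
  · intro a' _ ha
    simp only [Ne.symm ha, ↓reduceIte, zero_mul, sum_const_zero]
  · simp only [mem_univ, not_true_eq_false, ↓reduceIte, one_mul, IsEmpty.forall_iff]

theorem diag_kron_mulVec {α β : Type*} [Fintype α] [Fintype β] [DecidableEq α] [DecidableEq β]
    (u : α → ℂ) (w : β → ℂ) (f : α × β → ℂ) (a : α) (b : β) :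
    ((diagonal u ⊗ₖ diagonal w) *ᵥ f) (a, b) = u a * w b * f (a, b) := by
  rw [diagonal_kronecker_diagonal, mulVec_diagonal]

theorem sum_split {M : Type*} [AddCommMonoid M] (A : Finset V) (F : V → M) :
    ∑ x, F x = ∑ x : {x // x ∈ A}, F x.1 + ∑ x : {x // ¬ x ∈ A}, F x.1 := by
  have h1 : ∑ x : {x // x ∈ A}, F x.1 = ∑ x ∈ A, F x := Finset.sum_coe_sort A F
  have h2 : ∑ x : {x // ¬ x ∈ A}, F x.1 = ∑ x ∈ Aᶜ, F x := by
    rw [← Finset.sum_coe_sort Aᶜ F]
    exact Fintype.sum_equiv (Equiv.subtypeEquivRight (by simp)) _ _ (fun _ => rfl)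
  rw [h1, h2, Finset.sum_add_sum_compl]

section
variable (A : Finset V)

/-- glueing of configurations -/
abbrev glue (a : {x // x ∈ A} → Fin 2) (b : {x // ¬ x ∈ A} → Fin 2) : Conf V 2 :=
  (cut A 2).symm (a, b)

lemma glue_in (a : {x // x ∈ A} → Fin 2) (b : {x // ¬ x ∈ A} → Fin 2) (x : {x // x ∈ A}) :
    glue A a b x.1 = a x := by
  have h : (cut A 2) (glue A a b) = (a, b) := Equiv.apply_symm_apply _ _
  exact congrFun (congrArg Prod.fst h) x

lemma glue_out (a : {x // x ∈ A} → Fin 2) (b : {x // ¬ x ∈ A} → Fin 2) (x : {x // ¬ x ∈ A}) :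
    glue A a b x.1 = b x := by
  have h : (cut A 2) (glue A a b) = (a, b) := Equiv.apply_symm_apply _ _
  exact congrFun (congrArg Prod.snd h) x

lemma glue_flip_in (a : {x // x ∈ A} → Fin 2) (b : {x // ¬ x ∈ A} → Fin 2) (x : {x // x ∈ A}) :
    flipC x.1 (glue A a b) = glue A (flipC x a) b := by
  funext z
  by_cases hz : z ∈ A
  · rw [glue_in A (flipC x a) b ⟨z, hz⟩]
    by_cases hzx : z = x.1
    · subst hzx
      have e : (⟨x.1, hz⟩ : {x // x ∈ A}) = x := rfl
      rw [fl_self, e, fl_self, glue_in]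
    · rw [fl_ne hzx, glue_in A a b ⟨z, hz⟩, fl_ne]
      intro h
      exact hzx (congrArg Subtype.val h)
  · rw [glue_out A (flipC x a) b ⟨z, hz⟩]
    have hzx : z ≠ x.1 := fun h => hz (h ▸ x.2)
    rw [fl_ne hzx, glue_out A a b ⟨z, hz⟩]

lemma glue_flip_out (a : {x // x ∈ A} → Fin 2) (b : {x // ¬ x ∈ A} → Fin 2)
    (x : {x // ¬ x ∈ A}) : flipC x.1 (glue A a b) = glue A a (flipC x b) := by
  funext z
  by_cases hz : z ∈ A
  · rw [glue_in A a (flipC x b) ⟨z, hz⟩]
    have hzx : z ≠ x.1 := fun h => x.2 (h ▸ hz)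
    rw [fl_ne hzx, glue_in A a b ⟨z, hz⟩]
  · rw [glue_out A a (flipC x b) ⟨z, hz⟩]
    by_cases hzx : z = x.1
    · subst hzx
      have e : (⟨x.1, hz⟩ : {x // ¬ x ∈ A}) = x := rfl
      rw [fl_self, e, fl_self, glue_out]
    · rw [fl_ne hzx, glue_out A a b ⟨z, hz⟩, fl_ne]
      intro h
      exact hzx (congrArg Subtype.val h)

variable (c : V → V → ℝ) (h b ε : V → ℝ)

/-- Hamiltonian of the inside, with a shifted field. -/
noncomputable def hIn : Op {x // x ∈ A} 2 :=
  isingH (fun x y => c x.1 y.1 * ε x.1 * ε y.1) (fun x => h x.1)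
    (fun x => (b x.1 + 2 * ∑ y : {y // ¬ y ∈ A}, c x.1 y.1) * ε x.1)

/-- Hamiltonian of the outside. -/
noncomputable def hOut : Op {x // ¬ x ∈ A} 2 :=
  isingH (fun x y => c x.1 y.1 * ε x.1 * ε y.1) (fun x => h x.1) (fun x => b x.1 * ε x.1)

/-- left factors of the coupling -/
noncomputable def pIn (k : {x // x ∈ A} × {x // ¬ x ∈ A}) : Op {x // x ∈ A} 2 :=
  diagonal fun a => (zz (fun x : {x // x ∈ A} => ε x.1) a k.1 : ℂ)

/-- right factors of the coupling -/
noncomputable def qOut (k : {x // x ∈ A} × {x // ¬ x ∈ A}) : Op {x // ¬ x ∈ A} 2 :=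
  diagonal fun a => (dn (fun x : {x // ¬ x ∈ A} => ε x.1) a k.2 : ℂ)

/-- coupling constants -/
noncomputable def kc (k : {x // x ∈ A} × {x // ¬ x ∈ A}) : ℂ := ((4 * c k.1.1 k.2.1 : ℝ) : ℂ)

variable {c}

lemma DD_split (hsym : ∀ x y, c x y = c y x) (a : {x // x ∈ A} → Fin 2)
    (s : {x // ¬ x ∈ A} → Fin 2) :
    DD c b ε (glue A a s) =
      DD (fun x y : {x // x ∈ A} => c x.1 y.1)
        (fun x => b x.1 + 2 * ∑ y : {y // ¬ y ∈ A}, c x.1 y.1) (fun x => ε x.1) a +
      DD (fun x y : {x // ¬ x ∈ A} => c x.1 y.1) (fun x => b x.1) (fun x => ε x.1) s -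
      ∑ k : {x // x ∈ A} × {x // ¬ x ∈ A}, 4 * c k.1.1 k.2.1 *
        (zz (fun x : {x // x ∈ A} => ε x.1) a k.1 *
          dn (fun x : {x // ¬ x ∈ A} => ε x.1) s k.2) := by
  have hin : ∀ x : {x // x ∈ A}, zz ε (glue A a s) x.1 =
      zz (fun x : {x // x ∈ A} => ε x.1) a x := fun x => by
    unfold zz
    rw [glue_in]
  have hout : ∀ x : {x // ¬ x ∈ A}, zz ε (glue A a s) x.1 =
      zz (fun x : {x // ¬ x ∈ A} => ε x.1) s x := fun x => by
    unfold zz
    rw [glue_out]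
  set zi := zz (fun x : {x // x ∈ A} => ε x.1) a with hzi
  set zo := zz (fun x : {x // ¬ x ∈ A} => ε x.1) s with hzo
  have hdn : ∀ y, dn (fun x : {x // ¬ x ∈ A} => ε x.1) s y = (1 - zo y) / 2 := fun y => rfl
  have split : ∀ F : V → ℝ, ∑ x, F x = ∑ x : {x // x ∈ A}, F x.1 + ∑ x : {x // ¬ x ∈ A}, F x.1 :=
    fun F => sum_split A F
  unfold DD
  rw [← hzi, ← hzo]
  have e1 : ∑ x, b x * zz ε (glue A a s) x =
      ∑ x : {x // x ∈ A}, b x.1 * zi x + ∑ x : {x // ¬ x ∈ A}, b x.1 * zo x := by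
    rw [split]
    simp only [hin, hout]
  have e2 : ∑ x, ∑ y, c x y * (zz ε (glue A a s) x * zz ε (glue A a s) y) =
      ∑ x : {x // x ∈ A}, ∑ y : {x // x ∈ A}, c x.1 y.1 * (zi x * zi y) +
      ∑ x : {x // x ∈ A}, ∑ y : {x // ¬ x ∈ A}, c x.1 y.1 * (zi x * zo y) +
      (∑ x : {x // ¬ x ∈ A}, ∑ y : {x // x ∈ A}, c x.1 y.1 * (zo x * zi y) +
      ∑ x : {x // ¬ x ∈ A}, ∑ y : {x // ¬ x ∈ A}, c x.1 y.1 * (zo x * zo y)) := by
    rw [split]
    congr 1
    · rw [← Finset.sum_add_distrib]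
      refine Finset.sum_congr rfl fun x _ => ?_
      rw [split]
      simp only [hin, hout]
    · rw [← Finset.sum_add_distrib]
      refine Finset.sum_congr rfl fun x _ => ?_
      rw [split]
      simp only [hin, hout]
  have e3 : ∑ x : {x // ¬ x ∈ A}, ∑ y : {x // x ∈ A}, c x.1 y.1 * (zo x * zi y) =
      ∑ x : {x // x ∈ A}, ∑ y : {x // ¬ x ∈ A}, c x.1 y.1 * (zi x * zo y) := by
    rw [Finset.sum_comm]
    refine Finset.sum_congr rfl fun x _ => Finset.sum_congr rfl fun y _ => ?_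
    rw [hsym]
    ring
  have e4 : ∑ k : {x // x ∈ A} × {x // ¬ x ∈ A}, 4 * c k.1.1 k.2.1 *
      (zi k.1 * dn (fun x : {x // ¬ x ∈ A} => ε x.1) s k.2) =
      ∑ x : {x // x ∈ A}, (2 * ∑ y : {y // ¬ y ∈ A}, c x.1 y.1) * zi x -
      2 * ∑ x : {x // x ∈ A}, ∑ y : {x // ¬ x ∈ A}, c x.1 y.1 * (zi x * zo y) := by
    rw [Fintype.sum_prod_type, Finset.mul_sum, ← Finset.sum_sub_distrib]
    refine Finset.sum_congr rfl fun x _ => ?_
    rw [Finset.mul_sum, Finset.mul_sum, Finset.sum_mul, ← Finset.sum_sub_distrib]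
    refine Finset.sum_congr rfl fun y _ => ?_
    rw [hdn]
    ring
  have e5 : ∑ x : {x // x ∈ A}, (b x.1 + 2 * ∑ y : {y // ¬ y ∈ A}, c x.1 y.1) * zi x =
      ∑ x : {x // x ∈ A}, b x.1 * zi x +
      ∑ x : {x // x ∈ A}, (2 * ∑ y : {y // ¬ y ∈ A}, c x.1 y.1) * zi x := by
    rw [← Finset.sum_add_distrib]
    exact Finset.sum_congr rfl fun x _ => by ring
  rw [e1, e2, e3, e4, e5]
  ring

/-- Splitting of the Hamiltonian along the cut. -/
theorem ising_split (hsym : ∀ x y, c x y = c y x) :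
    Matrix.reindex (cut A 2) (cut A 2)
      (isingH (fun x y => c x y * ε x * ε y) h (fun x => b x * ε x)) =
    hIn A c h b ε ⊗ₖ (1 : Op {x // ¬ x ∈ A} 2) + (1 : Op {x // x ∈ A} 2) ⊗ₖ hOut A c h b ε +
      ∑ k, kc A c k • (pIn A ε k ⊗ₖ qOut A ε k) := by
  refine ext_mulVec fun f => ?_
  funext ⟨a, s⟩
  have e0 : ((Matrix.reindex (cut A 2) (cut A 2)
      (isingH (fun x y => c x y * ε x * ε y) h (fun x => b x * ε x))) *ᵥ f) (a, s) =
      (isingH (fun x y => c x y * ε x * ε y) h (fun x => b x * ε x) *ᵥ (f ∘ cut A 2))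
        (glue A a s) := by
    rw [Matrix.reindex_apply, Matrix.submatrix_mulVec_equiv]
    rfl
  have e1 : ∀ a s, (f ∘ cut A 2) (glue A a s) = f (a, s) := fun a s => by
    simp only [glue, Function.comp_apply, Equiv.apply_symm_apply]
  rw [e0, isingH_mulVec', e1, add_mulVec, add_mulVec, Pi.add_apply, Pi.add_apply,
    kron_one_mulVec, one_kron_mulVec, hIn, hOut]
  rw [show (fun x y : {x // x ∈ A} => c x.1 y.1 * ε x.1 * ε y.1) =
    (fun x y => (fun x y : {x // x ∈ A} => c x.1 y.1) x y * (fun x : {x // x ∈ A} => ε x.1) x *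
      (fun x : {x // x ∈ A} => ε x.1) y) from rfl,
    show (fun x : {x // x ∈ A} => (b x.1 + 2 * ∑ y : {y // ¬ y ∈ A}, c x.1 y.1) * ε x.1) =
    (fun x => (fun x : {x // x ∈ A} => b x.1 + 2 * ∑ y : {y // ¬ y ∈ A}, c x.1 y.1) x *
      (fun x : {x // x ∈ A} => ε x.1) x) from rfl, isingH_mulVec',
    show (fun x y : {x // ¬ x ∈ A} => c x.1 y.1 * ε x.1 * ε y.1) =
    (fun x y => (fun x y : {x // ¬ x ∈ A} => c x.1 y.1) x y *
      (fun x : {x // ¬ x ∈ A} => ε x.1) x * (fun x : {x // ¬ x ∈ A} => ε x.1) y) from rfl,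
    show (fun x : {x // ¬ x ∈ A} => b x.1 * ε x.1) =
    (fun x => (fun x : {x // ¬ x ∈ A} => b x.1) x * (fun x : {x // ¬ x ∈ A} => ε x.1) x) from rfl,
    isingH_mulVec', DD_split A b ε hsym a s]
  have e2 : ((∑ k, kc A c k • (pIn A ε k ⊗ₖ qOut A ε k)) *ᵥ f) (a, s) =
      ((∑ k : {x // x ∈ A} × {x // ¬ x ∈ A}, 4 * c k.1.1 k.2.1 *
        (zz (fun x : {x // x ∈ A} => ε x.1) a k.1 *
          dn (fun x : {x // ¬ x ∈ A} => ε x.1) s k.2) : ℝ) : ℂ) * f (a, s) := by
    rw [Matrix.sum_mulVec, Finset.sum_apply]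
    push_cast
    rw [Finset.sum_mul]
    refine Finset.sum_congr rfl fun k _ => ?_
    rw [smul_mulVec, Pi.smul_apply, pIn, qOut, diag_kron_mulVec, kc, smul_eq_mul]
    push_cast
    ring
  have e3 : ∑ x, (h x : ℂ) * (f ∘ cut A 2) (flipC x (glue A a s)) =
      ∑ x : {x // x ∈ A}, (h x.1 : ℂ) * f (flipC x a, s) +
      ∑ x : {x // ¬ x ∈ A}, (h x.1 : ℂ) * f (a, flipC x s) := by
    rw [sum_split A]
    congr 1
    · refine Finset.sum_congr rfl fun x _ => ?_
      rw [glue_flip_in, e1]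
    · refine Finset.sum_congr rfl fun x _ => ?_
      rw [glue_flip_out, e1]
  rw [e2, e3]
  push_cast
  ring

/-- the right factors act on a state through the probability of the wrong orientation -/
theorem nsq_qOut {ε : V → ℝ} (hε : ∀ x, ε x = 1 ∨ ε x = -1) (Ω : Conf V 2 → ℂ)
    (k : {x // x ∈ A} × {x // ¬ x ∈ A}) :
    ∑ z, ‖(((1 : Op {x // x ∈ A} 2) ⊗ₖ qOut A ε k) *ᵥ (Ω ∘ (cut A 2).symm)) z‖ ^ 2 =
      Nd ε k.2.1 Ω := by
  unfold Nd
  rw [← Equiv.sum_comp (cut A 2).symm (fun s => dn ε s k.2.1 * ‖Ω s‖ ^ 2)]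
  refine Finset.sum_congr rfl fun z _ => ?_
  obtain ⟨a, s⟩ := z
  rw [one_kron_mulVec, qOut, mulVec_diagonal, norm_mul, mul_pow]
  have e1 : dn (fun x : {x // ¬ x ∈ A} => ε x.1) s k.2 = dn ε (glue A a s) k.2.1 := by
    unfold dn zz
    rw [glue_out]
  rw [e1, Complex.norm_real, Real.norm_eq_abs, sq_abs]
  congr 1
  rcases dn_val hε (glue A a s) k.2.1 with h | h <;> rw [h] <;> norm_num

theorem contr_diag {n : Type*} [Fintype n] [DecidableEq n] (u : n → ℝ) (hu : ∀ i, |u i| ≤ 1) :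
    Contr (diagonal fun i => (u i : ℂ)) := by
  intro v
  refine Finset.sum_le_sum fun i _ => ?_
  rw [mulVec_diagonal, norm_mul, mul_pow, Complex.norm_real, Real.norm_eq_abs]
  have h1 := hu i
  have h2 : |u i| ^ 2 ≤ 1 := by
    have := abs_nonneg (u i)
    nlinarith
  have h3 : 0 ≤ ‖v i‖ ^ 2 := sq_nonneg _
  nlinarith only [h2]

end

end Vale.Agent.P356
end
end

section

section

open Matrix Finset
open scoped BigOperators ComplexOrder Kronecker

set_option linter.unusedSectionVars false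

namespace Vale.Agent.P356

open Vale.Agent.P356.Path

variable {V : Type*} [Fintype V] [DecidableEq V]

lemma opZ_herm (x : V) : (opZ x : Op V 2).IsHermitian := by
  unfold opZ
  refine Matrix.isHermitian_diagonal_of_self_adjoint _ ?_
  refine (Pi.isSelfAdjoint).mpr fun s => ?_
  split_ifs
  · exact IsSelfAdjoint.one ℂ
  · exact (IsSelfAdjoint.one ℂ).neg

lemma opX_herm (x : V) : (opX x : Op V 2).IsHermitian := by
  ext s t
  rw [conjTranspose_apply]
  unfold opX
  simp only [flipC_eq_update]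
  have : (s = flipC x t) ↔ (t = flipC x s) := by
    constructor
    · intro h
      rw [h, fl_fl]
    · intro h
      rw [h, fl_fl]
  by_cases hs : s = flipC x t
  · rw [if_pos hs, if_pos (this.mp hs)]
    simp
  · rw [if_neg hs, if_neg (fun h => hs (this.mpr h))]
    simp

lemma opZ_mul_comm (x y : V) : (opZ x : Op V 2) * opZ y = opZ y * opZ x := by
  unfold opZ
  rw [diagonal_mul_diagonal, diagonal_mul_diagonal]
  congr 1
  funext s
  ring

lemma herm_real_smul {n : Type*} {M : Matrix n n ℂ} (hM : M.IsHermitian) (r : ℝ) :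
    ((r : ℂ) • M).IsHermitian := by
  unfold Matrix.IsHermitian at *
  rw [conjTranspose_smul, hM, RCLike.star_def, Complex.conj_ofReal]

lemma herm_sum {n ι : Type*} [Fintype n] (s : Finset ι) (M : ι → Matrix n n ℂ)
    (hM : ∀ i ∈ s, (M i).IsHermitian) : (∑ i ∈ s, M i).IsHermitian := by
  unfold Matrix.IsHermitian at *
  rw [conjTranspose_sum]
  exact Finset.sum_congr rfl fun i hi => hM i hi

lemma isingH_herm (J : V → V → ℝ) (h b : V → ℝ) : (isingH J h b).IsHermitian := by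
  unfold isingH
  refine Matrix.IsHermitian.sub (Matrix.IsHermitian.sub (Matrix.IsHermitian.neg ?_) ?_) ?_
  · refine herm_sum _ _ fun x _ => herm_sum _ _ fun y _ => herm_real_smul ?_ _
    unfold Matrix.IsHermitian
    rw [conjTranspose_mul, opZ_herm, opZ_herm, opZ_mul_comm]
  · exact herm_sum _ _ fun x _ => herm_real_smul (opX_herm x) _
  · exact herm_sum _ _ fun x _ => herm_real_smul (opZ_herm x) _

/-- collar field -/
noncomputable def fieldC (C : Finset V) (ε : V → ℝ) : Op V 2 :=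
  - ∑ y ∈ C, (ε y : ℂ) • opZ y

lemma isingH_field (C : Finset V) (J : V → V → ℝ) (h b ε : V → ℝ) (t : ℝ) :
    isingH J h (fun x => (b x + if x ∈ C then t else 0) * ε x) =
      isingH J h (fun x => b x * ε x) + (t : ℂ) • fieldC C ε := by
  unfold isingH fieldC
  have e1 : ∑ x, (((b x + if x ∈ C then t else 0) * ε x : ℝ) : ℂ) • (opZ x : Op V 2) =
      ∑ x, ((b x * ε x : ℝ) : ℂ) • (opZ x : Op V 2) + (t : ℂ) • ∑ y ∈ C, (ε y : ℂ) • opZ y := by
    have e2 : ∑ y ∈ C, (ε y : ℂ) • (opZ y : Op V 2) =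
        ∑ y, if y ∈ C then (ε y : ℂ) • (opZ y : Op V 2) else 0 := by
      rw [← Finset.sum_filter]
      congr 1
      ext y
      simp only [subset_univ, filter_mem_eq_of_subset]
    rw [e2, Finset.smul_sum, ← Finset.sum_add_distrib]
    refine Finset.sum_congr rfl fun x _ => ?_
    split_ifs with hx
    · rw [smul_smul, ← add_smul]
      push_cast
      ring_nf
    · simp
  rw [e1, smul_neg]
  abel

lemma expv_field (C : Finset V) (A : Finset V) (ε : V → ℝ) {Ω : Conf V 2 → ℂ}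
    (hΩ : nsq Ω = 1) :
    expv (Matrix.reindex (cut A 2) (cut A 2) (fieldC C ε)) (Ω ∘ (cut A 2).symm) =
      - (C.card : ℝ) + 2 * ∑ y ∈ C, Nd ε y Ω := by
  have e0 : expv (Matrix.reindex (cut A 2) (cut A 2) (fieldC C ε)) (Ω ∘ (cut A 2).symm) =
      (star Ω ⬝ᵥ (fieldC C ε *ᵥ Ω)).re := by
    unfold expv
    congr 1
    have e1 : (Matrix.reindex (cut A 2) (cut A 2) (fieldC C ε)) *ᵥ (Ω ∘ (cut A 2).symm) =
        (fieldC C ε *ᵥ Ω) ∘ (cut A 2).symm := by
      rw [Matrix.reindex_apply, Matrix.submatrix_mulVec_equiv]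
      congr 2
      funext s
      exact congrArg Ω ((cut A 2).symm_apply_apply s)
    rw [e1]
    simp only [dotProduct]
    exact Equiv.sum_comp (cut A 2).symm (fun i => (star Ω) i * (fieldC C ε *ᵥ Ω) i)
  have e2 : ∀ s, (fieldC C ε *ᵥ Ω) s = ((- ∑ y ∈ C, zz ε s y : ℝ) : ℂ) * Ω s := by
    intro s
    unfold fieldC
    rw [neg_mulVec, Matrix.sum_mulVec, Pi.neg_apply, Finset.sum_apply]
    push_cast
    rw [neg_mul, Finset.sum_mul]
    congr 1
    refine Finset.sum_congr rfl fun y _ => ?_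
    rw [smul_mulVec, Pi.smul_apply, opZ_mulVec, smul_eq_mul, zz]
    push_cast
    ring
  rw [e0, dotProduct, Complex.re_sum]
  have e3 : ∀ s, ((star Ω) s * (fieldC C ε *ᵥ Ω) s).re =
      - (C.card : ℝ) * ‖Ω s‖ ^ 2 + 2 * ∑ y ∈ C, dn ε s y * ‖Ω s‖ ^ 2 := by
    intro s
    rw [e2, Pi.star_apply, RCLike.star_def, mul_left_comm, Complex.conj_mul',
      Complex.re_ofReal_mul, ← Complex.ofReal_pow, Complex.ofReal_re, ← Finset.sum_mul]
    have e4 : ∑ y ∈ C, dn ε s y = (C.card - ∑ y ∈ C, zz ε s y) / 2 := by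
      unfold dn
      rw [← Finset.sum_div, Finset.sum_sub_distrib]
      simp only [sum_const, nsmul_eq_mul, mul_one]
    rw [e4]
    ring
  simp only [e3, Finset.sum_add_distrib, ← Finset.mul_sum]
  have e5 : ∑ s, ‖Ω s‖ ^ 2 = 1 := hΩ
  rw [e5, Finset.sum_comm]
  unfold Nd
  ring

/-- Entropy bound for unfrustrated Ising models through the collar path. -/
theorem ising_collar (A C : Finset V) (c : V → V → ℝ) (h b ε : V → ℝ)
    (hε : ∀ x, ε x = 1 ∨ ε x = -1)
    (hc : ∀ x y, 0 ≤ c x y) (hsym : ∀ x y, c x y = c y x) (hdiag : ∀ x, c x x = 0)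
    (hb : ∀ x, 0 ≤ b x) (hcross : ∀ x ∈ A, ∀ y, y ∉ A → y ∉ C → c x y = 0)
    {S : ℝ} (hS0 : 0 < S) (hS : ∀ y ∈ C, 2 * ∑ x, c x y ≤ S) (hh : ∀ y ∈ C, |h y| ≤ S)
    {Δ E : ℝ} (hΔ : 0 < Δ) {Ω : Conf V 2 → ℂ}
    (hG : GappedGround (isingH (fun x y => c x y * ε x * ε y) h (fun x => b x * ε x)) Δ E Ω) :
    vnEntropy (rdm A Ω) ≤ 12 * S * C.card / Δ := by
  -- the family of ground states
  let bt : ℝ → V → ℝ := fun t x => b x + if x ∈ C then t else 0
  have hex : ∀ t : ℝ, ∃ p : ℝ × (Conf V 2 → ℂ), 0 ≤ t →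
      GappedGround (isingH (fun x y => c x y * ε x * ε y) h (fun x => bt t x * ε x)) Δ p.1 p.2 := by
    intro t
    by_cases ht : 0 ≤ t
    · have hbt : ∀ x, b x ≤ bt t x := by
        intro x
        simp only [bt]
        split_ifs <;> linarith only [ht]
      obtain ⟨E', Ω', h'⟩ := gapped_field c h b (bt t) ε hε hc hb hbt Δ E hΔ Ω hG
      exact ⟨(E', Ω'), fun _ => h'⟩
    · exact ⟨(0, 0), fun h => absurd h ht⟩
  choose p hp using hex
  let Et : ℝ → ℝ := fun t => if t = 0 then E else (p t).1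
  let Ωt : ℝ → Conf V 2 → ℂ := fun t => if t = 0 then Ω else (p t).2
  have hGt : ∀ t : ℝ, 0 ≤ t →
      GappedGround (isingH (fun x y => c x y * ε x * ε y) h (fun x => bt t x * ε x)) Δ
        (Et t) (Ωt t) := by
    intro t ht
    by_cases h0 : t = 0
    · subst h0
      simp only [Et, Ωt, if_true]
      have : (fun x => bt 0 x * ε x) = fun x => b x * ε x := by
        funext x
        simp [bt]
      rw [this]
      exact hG
    · simp only [Et, Ωt, if_neg h0]
      exact hp t ht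
  set e := cut A 2 with he
  set H0 := Matrix.reindex e e (isingH (fun x y => c x y * ε x * ε y) h (fun x => b x * ε x))
    with hH0
  set VC := Matrix.reindex e e (fieldC C ε) with hVC
  have hHt : ∀ t : ℝ, Matrix.reindex e e
      (isingH (fun x y => c x y * ε x * ε y) h (fun x => bt t x * ε x)) = H0 + (t : ℂ) • VC := by
    intro t
    simp only [bt]
    rw [isingH_field]
    rfl
  have hgap : ∀ t : ℝ, 0 ≤ t → Gapped (H0 + (t : ℂ) • VC) (Et t) (Ωt t ∘ e.symm) Δ := by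
    intro t ht
    rw [← hHt]
    exact gapped_reindex e (gapped_of (isingH_herm _ _ _) (hGt t ht))
  -- total coupling
  set G : ℝ := ∑ k : {x // x ∈ A} × {x // ¬ x ∈ A}, 4 * c k.1.1 k.2.1 with hGdef
  have hGnn : 0 ≤ G := Finset.sum_nonneg fun k _ => by
    have := hc k.1.1 k.2.1
    (clear * - this; positivity)
  have hGle : G ≤ 2 * S * C.card := by
    have e1 : G = ∑ y : {x // ¬ x ∈ A}, ∑ x : {x // x ∈ A}, 4 * c x.1 y.1 := by
      rw [hGdef, Fintype.sum_prod_type, Finset.sum_comm]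
    have e2 : ∀ y : {x // ¬ x ∈ A}, ∑ x : {x // x ∈ A}, 4 * c x.1 y.1 ≤
        if y.1 ∈ C then 2 * S else 0 := by
      intro y
      by_cases hy : y.1 ∈ C
      · rw [if_pos hy]
        have h1 := hS y.1 hy
        have h2 : ∑ x : {x // x ∈ A}, c x.1 y.1 ≤ ∑ x, c x y.1 := by
          rw [Finset.sum_coe_sort A (fun x => c x y.1)]
          exact Finset.sum_le_sum_of_subset_of_nonneg (Finset.subset_univ _)
            (fun x _ _ => hc x y.1)
        rw [← Finset.mul_sum]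
        linarith only [h1, h2]
      · rw [if_neg hy]
        refine le_of_eq (Finset.sum_eq_zero fun x _ => ?_)
        rw [hcross x.1 x.2 y.1 y.2 hy, mul_zero]
    rw [e1]
    refine (Finset.sum_le_sum fun y _ => e2 y).trans ?_
    rw [← Finset.sum_filter, Finset.sum_const, nsmul_eq_mul]
    have e3 : (((Finset.univ : Finset {x // ¬ x ∈ A}).filter (fun y => y.1 ∈ C)).card : ℝ) ≤
        C.card := by
      have : ((Finset.univ : Finset {x // ¬ x ∈ A}).filter (fun y => y.1 ∈ C)).card ≤ C.card :=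
        Finset.card_le_card_of_injOn (fun y => y.1) (fun y hy => by
          simpa only [SetLike.mem_coe, coe_filter, mem_univ, true_and, Set.mem_ofPred_eq] using hy) (fun y _ y' _ h => Subtype.ext h)
      exact_mod_cast this
    have : 0 ≤ 2 * S := by linarith only [hS0]
    nlinarith only [hS0, e3]
  -- orientation bounds
  have hNd : ∀ t : ℝ, 2 * S ≤ t → ∀ y ∈ C, Real.sqrt (Nd ε y (Ωt t)) ≤ (2 * S) / t / 2 := by
    intro t ht y hy
    have ht0 : 0 ≤ t := by linarith only [hS0, ht]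
    have htpos : 0 < t := by linarith only [hS0, ht]
    have h1 := site_bound c h (bt t) ε hε hc hsym hdiag hΔ.le (hGt t ht0) y
    have hN0 := Nd_nonneg hε y (Ωt t)
    set N := Nd ε y (Ωt t) with hN
    have hbt : t ≤ bt t y := by
      simp only [bt, if_pos hy]
      have := hb y
      linarith only [this]
    have h2 := hS y hy
    have h3 : t * N ≤ 2 * (bt t y - 2 * ∑ x, c x y) * N := by
      refine mul_le_mul_of_nonneg_right ?_ hN0
      linarith only [ht, hbt, h2]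
    have h4 : |h y| * Real.sqrt N ≤ S * Real.sqrt N :=
      mul_le_mul_of_nonneg_right (hh y hy) (Real.sqrt_nonneg _)
    have h5 : t * N ≤ S * Real.sqrt N := h3.trans (h1.trans h4)
    have h6 : Real.sqrt N * Real.sqrt N = N := Real.mul_self_sqrt hN0
    have e1 : (2 * S) / t / 2 = S / t := by (clear * - htpos hS0; field_simp)
    rw [e1, le_div_iff₀ htpos]
    rcases (Real.sqrt_nonneg N).eq_or_lt with h0 | h0
    · rw [← h0, zero_mul]
      exact hS0.le
    · have h8 : t * (Real.sqrt N * Real.sqrt N) ≤ S * Real.sqrt N := by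
        rw [h6]
        exact h5
      have h7 : Real.sqrt N * (Real.sqrt N * t) ≤ Real.sqrt N * S := by linarith only [h8]
      exact le_of_mul_le_mul_left h7 h0
  -- variance bounds
  have hsplit : ∀ t : ℝ, H0 + (t : ℂ) • VC =
      hIn A c h (bt t) ε ⊗ₖ (1 : Op {x // ¬ x ∈ A} 2) +
      (1 : Op {x // x ∈ A} 2) ⊗ₖ hOut A c h (bt t) ε +
      ∑ k, kc A c k • (pIn A ε k ⊗ₖ qOut A ε k) := by
    intro t
    rw [← hHt, he]
    exact ising_split A h (bt t) ε hsym
  have hPc : ∀ k, Contr (pIn A ε k) := fun k => by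
    refine contr_diag _ fun a => ?_
    rcases zz_val (ε := fun x : {x // x ∈ A} => ε x.1) (fun x => hε x.1) a k.1 with h | h <;>
      rw [h] <;> norm_num
  have hQc : ∀ k, Contr (qOut A ε k) := fun k => by
    refine contr_diag _ fun a => ?_
    rcases dn_val (ε := fun x : {x // ¬ x ∈ A} => ε x.1) (fun x => hε x.1) a k.2 with h | h <;>
      rw [h] <;> norm_num
  have hdiagH : ∀ {n : Type _} [Fintype n] [DecidableEq n] (u : n → ℝ),
      (diagonal fun i => (u i : ℂ))ᴴ = diagonal fun i => (u i : ℂ) := by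
    intro n _ _ u
    rw [diagonal_conjTranspose]
    congr 1
    funext i
    simp only [Pi.star_apply, RCLike.star_def, Complex.conj_ofReal]
  have hPh : ∀ k, (pIn A ε k)ᴴ = pIn A ε k := fun k => hdiagH _
  have hQh : ∀ k, (qOut A ε k)ᴴ = qOut A ε k := fun k => hdiagH _
  have hGh : (∑ k, kc A c k • (pIn A ε k ⊗ₖ qOut A ε k)).IsHermitian := by
    refine herm_sum _ _ fun k _ => herm_real_smul ?_ _
    unfold Matrix.IsHermitian
    rw [conjTranspose_kronecker, hPh, hQh]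
  have hkc : ∀ k, ‖kc A c k‖ = 4 * c k.1.1 k.2.1 := by
    intro k
    have := hc k.1.1 k.2.1
    rw [kc, Complex.norm_real, Real.norm_eq_abs, abs_of_nonneg (by (clear * - this; positivity))]
  have hvar : ∀ t : ℝ, 0 ≤ t → VarBd (Ωt t ∘ e.symm)
      (9 / 4 * (∑ k, ‖kc A c k‖ * Real.sqrt (1 * Nd ε k.2.1 (Ωt t))) / Δ) := by
    intro t ht
    have hg := hgap t ht
    rw [hsplit t] at hg
    refine varBd_of_gapped _ _ _ _ _ hGh hΔ hg (fun _ => 1) (fun k => Nd ε k.2.1 (Ωt t))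
      (fun k => nsq_kron_left_le (hPc k) hg.unit)
      (fun k => by rw [hPh]; exact nsq_kron_left_le (hPc k) hg.unit)
      (fun k => ?_) (fun k => ?_)
    · exact (nsq_qOut A hε (Ωt t) k).le
    · rw [hQh]
      exact (nsq_qOut A hε (Ωt t) k).le
  have hmono : ∀ {x : ({x // x ∈ A} → Fin 2) × ({x // ¬ x ∈ A} → Fin 2) → ℂ} {K K' : ℝ},
      K ≤ K' → VarBd x K → VarBd x K' := fun hKK hK f hf => (hK f hf).trans hKK
  -- weighted sums of the coupling
  have hsum1 : ∀ t : ℝ, 0 ≤ t → ∑ k, ‖kc A c k‖ * Real.sqrt (1 * Nd ε k.2.1 (Ωt t)) ≤ G := by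
    intro t ht
    refine Finset.sum_le_sum fun k _ => ?_
    rw [hkc, one_mul]
    have h1 : Real.sqrt (Nd ε k.2.1 (Ωt t)) ≤ 1 := by
      rw [← Real.sqrt_one]
      exact Real.sqrt_le_sqrt (Nd_le_one hε _ (hGt t ht).1)
    have h2 := hc k.1.1 k.2.1
    have := mul_le_mul_of_nonneg_left h1 (by (clear * - h2; positivity) : 0 ≤ 4 * c k.1.1 k.2.1)
    linarith only [this]
  have hsum2 : ∀ t : ℝ, 2 * S ≤ t → ∑ k, ‖kc A c k‖ * Real.sqrt (Nd ε k.2.1 (Ωt t)) ≤
      G * ((2 * S) / t / 2) := by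
    intro t ht
    rw [hGdef, Finset.sum_mul]
    refine Finset.sum_le_sum fun k _ => ?_
    rw [hkc]
    by_cases hk : k.2.1 ∈ C
    · have h2 := hc k.1.1 k.2.1
      exact mul_le_mul_of_nonneg_left (hNd t ht k.2.1 hk) (by (clear * - h2; positivity))
    · rw [hcross k.1.1 k.1.2 k.2.1 k.2.2 hk]
      simp only [mul_zero, zero_mul, Std.le_refl]
  set k0 : ℝ := 9 / 4 * (2 * S * C.card) / Δ with hk0
  have hk00 : 0 ≤ k0 := by (clear * - hS0 hΔ; positivity)
  have hK1 : ∀ t : ℝ, 0 ≤ t → VarBd (Ωt t ∘ e.symm) k0 := by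
    intro t ht
    refine hmono ?_ (hvar t ht)
    have := (hsum1 t ht).trans hGle
    rw [hk0]
    (clear * - this hΔ; gcongr)
  have hK2 : ∀ t : ℝ, 2 * S ≤ t → VarBd (Ωt t ∘ e.symm) (k0 * (2 * S / t)) := by
    intro t ht
    have htpos : 0 < t := by linarith only [hS0, ht]
    refine hmono ?_ (hvar t htpos.le)
    simp only [one_mul]
    have h1 := hsum2 t ht
    have h2 : G * ((2 * S) / t / 2) ≤ 2 * S * C.card * (2 * S / t) := by
      have h3 : 0 ≤ 2 * S / t := by (clear * - hS0 htpos; positivity)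
      have h4 := mul_le_mul_of_nonneg_right hGle h3
      have h5 : 0 ≤ G * (2 * S / t) := mul_nonneg hGnn h3
      linarith only [h4, h5]
    have h3 := h1.trans h2
    have e1 : k0 * (2 * S / t) = 9 / 4 * (2 * S * C.card * (2 * S / t)) / Δ := by
      rw [hk0]
      ring
    rw [e1]
    (clear * - h3 hΔ; gcongr)
  -- expectation of the field
  have hexp : ∀ t : ℝ, 0 ≤ t → expv VC (Ωt t ∘ e.symm) =
      - (C.card : ℝ) + 2 * ∑ y ∈ C, Nd ε y (Ωt t) := fun t ht =>
    expv_field C A ε (hGt t ht).1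
  have hv0 : ∀ t : ℝ, 0 ≤ t → - (C.card : ℝ) ≤ expv VC (Ωt t ∘ e.symm) := by
    intro t ht
    rw [hexp t ht]
    have : 0 ≤ ∑ y ∈ C, Nd ε y (Ωt t) := Finset.sum_nonneg fun y _ => Nd_nonneg hε y _
    linarith only [this]
  have hv1 : expv VC (Ωt 0 ∘ e.symm) ≤ - (C.card : ℝ) + 4 * (C.card / 2) := by
    rw [hexp 0 le_rfl]
    have : ∑ y ∈ C, Nd ε y (Ωt 0) ≤ ∑ _y ∈ C, (1 : ℝ) :=
      Finset.sum_le_sum fun y _ => Nd_le_one hε y (hGt 0 le_rfl).1
    rw [Finset.sum_const, nsmul_eq_mul, mul_one] at this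
    linarith only [this]
  have hv2 : ∀ t : ℝ, 2 * S ≤ t → expv VC (Ωt t ∘ e.symm) ≤
      - (C.card : ℝ) + (C.card / 2) * (2 * S / t) ^ 2 := by
    intro t ht
    have ht0 : 0 ≤ t := by linarith only [hS0, ht]
    rw [hexp t ht0]
    have : ∑ y ∈ C, Nd ε y (Ωt t) ≤ ∑ _y ∈ C, ((2 * S) / t / 2) ^ 2 := by
      refine Finset.sum_le_sum fun y hy => ?_
      have h1 := hNd t ht y hy
      have h2 := Real.mul_self_sqrt (Nd_nonneg hε y (Ωt t))
      have h3 := Real.sqrt_nonneg (Nd ε y (Ωt t))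
      rw [← h2, sq]
      exact mul_self_le_mul_self h3 h1
    rw [Finset.sum_const, nsmul_eq_mul] at this
    have e1 : 2 * ((C.card : ℝ) * ((2 * S) / t / 2) ^ 2) = (C.card / 2) * (2 * S / t) ^ 2 := by
      ring
    linarith only [this]
  -- the limit
  have hlim : ∀ r : ℝ, 0 < r → ∃ N : ℕ, ∀ n ≥ N,
      ent (Ωt (2 * S * 2 ^ n) ∘ e.symm) ≤ r := by
    intro r hr
    set D : ℝ := (Fintype.card ({x // x ∈ A} → Fin 2) : ℝ) with hD
    have hent : ∀ n : ℕ, ent (Ωt (2 * S * 2 ^ n) ∘ e.symm) ≤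
        D * (2 * (D ^ 2 * G / (2 * Δ) * (1 / 2) ^ n) +
          2 * Real.sqrt (2 * (D ^ 2 * G / (2 * Δ) * (1 / 2) ^ n))) := by
      intro n
      have hpn : (0 : ℝ) < 2 ^ n := by positivity
      have hpn1 : (1 : ℝ) ≤ 2 ^ n := one_le_pow₀ (by norm_num)
      have ht : 2 * S ≤ 2 * S * 2 ^ n := le_mul_of_one_le_right (by linarith only [hS0]) hpn1
      have ht0 : 0 ≤ 2 * S * 2 ^ n := by positivity
      have hg := hgap _ ht0
      refine ent_le_of_small hg.unit fun i => ?_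
      have hg2 := hg
      rw [hsplit] at hg2
      have h1 := spec_small _ _ _ _ _ hPc hGh hg2 (fun k => Nd ε k.2.1 (Ωt (2 * S * 2 ^ n)))
        (fun k => (nsq_qOut A hε _ k).le) i
      have h2 := hsum2 _ ht
      have h3 : 0 ≤ D ^ 2 := sq_nonneg _
      have h4 := mul_le_mul_of_nonneg_left h2 h3
      have h5 := h1.trans h4
      have hr2 : 2 * S / (2 * S * 2 ^ n) = (1 / 2) ^ n := by
        rw [one_div, inv_pow]
        field_simp
      rw [hr2] at h5
      have e1 : D ^ 2 * G / (2 * Δ) * (1 / 2) ^ n = (D ^ 2 * (G * ((1 / 2) ^ n / 2))) / Δ := by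
        (clear * - hΔ; field_simp)
      rw [e1, le_div_iff₀ hΔ]
      linarith only [h5]
    have htend : Filter.Tendsto (fun n : ℕ => D * (2 * (D ^ 2 * G / (2 * Δ) * (1 / 2) ^ n) +
          2 * Real.sqrt (2 * (D ^ 2 * G / (2 * Δ) * (1 / 2) ^ n)))) Filter.atTop
        (nhds (D * (2 * (D ^ 2 * G / (2 * Δ) * 0) +
          2 * Real.sqrt (2 * (D ^ 2 * G / (2 * Δ) * 0))))) := by
      have h0 : Filter.Tendsto (fun n : ℕ => ((1 : ℝ) / 2) ^ n) Filter.atTop (nhds 0) :=
        tendsto_pow_atTop_nhds_zero_of_lt_one (by norm_num) (by norm_num)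
      have hcont : Continuous (fun u : ℝ => D * (2 * (D ^ 2 * G / (2 * Δ) * u) +
          2 * Real.sqrt (2 * (D ^ 2 * G / (2 * Δ) * u)))) := by fun_prop
      exact (hcont.tendsto 0).comp h0
    have hz : D * (2 * (D ^ 2 * G / (2 * Δ) * 0) +
          2 * Real.sqrt (2 * (D ^ 2 * G / (2 * Δ) * 0))) = 0 := by simp
    rw [hz] at htend
    obtain ⟨N, hN⟩ := Filter.eventually_atTop.mp (htend.eventually (ge_mem_nhds hr))
    exact ⟨N, fun n hn => (hent n).trans (hN n hn)⟩
  have hfin := collar_abs H0 VC hΔ Et (fun t => Ωt t ∘ e.symm) hgap hk00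
    (by linarith only [hS0] : 0 < 2 * S) hK1 hK2 hv0 hv1 hv2 hlim
  have hΩ0 : Ωt 0 = Ω := by simp [Ωt]
  rw [vnEntropy_rdm, ← he]
  simp only [hΩ0] at hfin
  refine hfin.trans (le_of_eq ?_)
  have e1 : k0 * (C.card / 2) * (2 * S) / (2 * Δ) = (3 / 2 * S * C.card / Δ) ^ 2 := by
    rw [hk0]
    field_simp
    ring
  rw [e1, Real.sqrt_sq (by (clear * - hS0 hΔ; positivity))]
  ring

end Vale.Agent.P356
end
end

section

section

namespace Vale.Agent.P356
open Finset Matrix

/-- the constant of the area law -/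
noncomputable def ising_const (R : ℕ) : ℝ :=
  12 * (2 * (2 * R + 1) ^ 2 * NR R) * (2 * R + 1) ^ 4

theorem ising_bound {L R : ℕ} {J Δ E : ℝ} (hJ : 0 < J) (hΔ : 0 < Δ) {H : Op (Site L) 2}
    {Ω : Conf (Site L) 2 → ℂ} (hI : H ∈ UnfrustratedIsing L) (hA : Admissible L 2 R J H)
    (hg : GappedGround H Δ E Ω) (A : Finset (Site L)) :
    vnEntropy (rdm A Ω) ≤ ising_const R * (J / Δ) * bdry A := by
  obtain ⟨ε, c, h, b, E', hε, hc, hsym, hdiag, hbd, hrange, hh, hb, hg'⟩ := normalize hI hA hg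
  rw [abs_of_pos hJ] at hbd hh
  have hNR : (0 : ℝ) < NR R := by
    unfold NR; positivity
  set S : ℝ := 2 * (2 * R + 1) ^ 2 * NR R * J with hSdef
  have hS0 : 0 < S := by (clear * - hNR hJ; positivity)
  have hcross : ∀ x ∈ A, ∀ y, y ∉ A → y ∉ collar A R → c x y = 0 := by
    intro x hx y hy hyC
    apply hrange
    by_contra hle
    push Not at hle
    exact hyC (Finset.mem_filter.mpr ⟨Finset.mem_univ _, hy, x, hx, hle⟩)
  have hsum : ∀ y : Site L, ∑ x, c x y ≤ (2 * R + 1) ^ 2 * (NR R * J) := by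
    intro y
    have h1 : ∑ x, c x y = ∑ x ∈ ball y R, c x y := by
      refine (Finset.sum_subset (Finset.subset_univ _) ?_).symm
      intro x _ hx
      apply hrange
      by_contra hle
      push Not at hle
      exact hx (Finset.mem_filter.mpr ⟨Finset.mem_univ _, hle⟩)
    rw [h1]
    refine (Finset.sum_le_card_nsmul _ _ (NR R * J) (fun x _ => hbd x y)).trans ?_
    rw [nsmul_eq_mul]
    refine mul_le_mul_of_nonneg_right ?_ (by (clear * - hNR hJ; positivity))
    exact_mod_cast card_ball y R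
  have hS : ∀ y ∈ collar A R, 2 * ∑ x, c x y ≤ S := by
    intro y _
    have := hsum y
    rw [hSdef]
    linarith
  have hhS : ∀ y ∈ collar A R, |h y| ≤ S := by
    intro y _
    refine (hh y).trans ?_
    have h1 : (1 : ℝ) ≤ 2 * (2 * R + 1) ^ 2 := by
      have : (1 : ℝ) ≤ (2 * R + 1) ^ 2 := one_le_pow₀ (by linarith only [])
      linarith only [this]
    have h2 : (0 : ℝ) ≤ NR R * J := by (clear * - hNR hJ; positivity)
    have h3 := mul_le_mul_of_nonneg_right h1 h2
    rw [hSdef]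
    linarith only [h3]
  have key := ising_collar A (collar A R) c h b ε hε hc hsym hdiag hb hcross hS0 hS hhS hΔ hg'
  refine key.trans ?_
  have hcard : ((collar A R).card : ℝ) ≤ (2 * R + 1) ^ 4 * bdry A := by
    exact_mod_cast card_collar A R
  have h1 : 12 * S * (collar A R).card / Δ ≤ 12 * S * ((2 * R + 1) ^ 4 * bdry A) / Δ := by
    apply div_le_div_of_nonneg_right _ hΔ.le
    exact mul_le_mul_of_nonneg_left hcard (by (clear * - hNR hJ; positivity))
  refine h1.trans (le_of_eq ?_)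
  rw [hSdef]
  unfold ising_const
  ring

end Vale.Agent.P356
end
end

section

section

open Matrix Finset
open scoped BigOperators ComplexOrder Kronecker

set_option linter.unusedSectionVars false

namespace Vale.Agent.P356

open Vale.Agent.P356.Path

/-- Schur test -/
theorem contr_of_sums {n : Type*} [Fintype n] (M : Matrix n n ℂ)
    (hr : ∀ i, ∑ j, ‖M i j‖ ≤ 1) (hc : ∀ j, ∑ i, ‖M i j‖ ≤ 1) : Contr M := by
  intro v
  have h1 : ∀ i, ‖(M *ᵥ v) i‖ ^ 2 ≤ ∑ j, ‖M i j‖ * ‖v j‖ ^ 2 := by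
    intro i
    have h2 : ‖(M *ᵥ v) i‖ ≤ ∑ j, Real.sqrt ‖M i j‖ * (Real.sqrt ‖M i j‖ * ‖v j‖) := by
      simp only [mulVec, dotProduct]
      refine (norm_sum_le _ _).trans (Finset.sum_le_sum fun j _ => ?_)
      rw [norm_mul, ← mul_assoc, Real.mul_self_sqrt (norm_nonneg _)]
    have h3 := Finset.sum_mul_sq_le_sq_mul_sq Finset.univ (fun j => Real.sqrt ‖M i j‖)
      (fun j => Real.sqrt ‖M i j‖ * ‖v j‖)
    have h4 : ∑ j, Real.sqrt ‖M i j‖ ^ 2 ≤ 1 := by
      refine le_trans (le_of_eq ?_) (hr i)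
      exact Finset.sum_congr rfl fun j _ => Real.sq_sqrt (norm_nonneg _)
    have h5 : ∑ j, (Real.sqrt ‖M i j‖ * ‖v j‖) ^ 2 = ∑ j, ‖M i j‖ * ‖v j‖ ^ 2 :=
      Finset.sum_congr rfl fun j _ => by rw [mul_pow, Real.sq_sqrt (norm_nonneg _)]
    rw [h5] at h3
    have h6 : 0 ≤ ∑ j, ‖M i j‖ * ‖v j‖ ^ 2 := Finset.sum_nonneg fun j _ => by (clear * -; positivity)
    have h7 := pow_le_pow_left₀ (norm_nonneg _) h2 2
    nlinarith only [h3, h7, h4, h6]
  calc ∑ i, ‖(M *ᵥ v) i‖ ^ 2 ≤ ∑ i, ∑ j, ‖M i j‖ * ‖v j‖ ^ 2 :=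
        Finset.sum_le_sum fun i _ => h1 i
    _ = ∑ j, (∑ i, ‖M i j‖) * ‖v j‖ ^ 2 := by
        rw [Finset.sum_comm]
        exact Finset.sum_congr rfl fun j _ => (Finset.sum_mul _ _ _).symm
    _ ≤ ∑ j, ‖v j‖ ^ 2 := Finset.sum_le_sum fun j _ => by
        have := hc j
        have h2 : 0 ≤ ‖v j‖ ^ 2 := sq_nonneg _
        nlinarith only [this]

section units
variable {V W : Type*} [Fintype W] [DecidableEq W] [DecidableEq V] {q : ℕ}

/-- defining condition of the matrix units -/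
def UC (j : W → V) (X : Finset V) (u v : X → Fin q) (a a' : W → Fin q) : Prop :=
  ∀ x : W, (∀ hx : j x ∈ X, a x = u ⟨j x, hx⟩ ∧ a' x = v ⟨j x, hx⟩) ∧ (j x ∉ X → a x = a' x)

open Classical in
/-- matrix unit on the sites of `X`, seen on the part `W` -/
noncomputable def uOn (j : W → V) (X : Finset V) (u v : X → Fin q) :
    Matrix (W → Fin q) (W → Fin q) ℂ :=
  fun a a' => if UC j X u v a a' then 1 else 0

lemma UC_right {j : W → V} {X : Finset V} {u v : X → Fin q} {a a' a'' : W → Fin q}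
    (h1 : UC j X u v a a') (h2 : UC j X u v a a'') : a' = a'' := by
  funext x
  by_cases hx : j x ∈ X
  · rw [((h1 x).1 hx).2, ((h2 x).1 hx).2]
  · rw [← (h1 x).2 hx, ← (h2 x).2 hx]

lemma UC_symm {j : W → V} {X : Finset V} {u v : X → Fin q} {a a' : W → Fin q} :
    UC j X u v a a' ↔ UC j X v u a' a := by
  constructor
  · intro h x
    exact ⟨fun hx => ⟨((h x).1 hx).2, ((h x).1 hx).1⟩, fun hx => ((h x).2 hx).symm⟩
  · intro h x
    exact ⟨fun hx => ⟨((h x).1 hx).2, ((h x).1 hx).1⟩, fun hx => ((h x).2 hx).symm⟩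

lemma uOn_norm (j : W → V) (X : Finset V) (u v : X → Fin q) (a a' : W → Fin q) :
    ‖uOn j X u v a a'‖ = ‖uOn j X v u a' a‖ := by
  unfold uOn
  by_cases h : UC j X u v a a'
  · rw [if_pos h, if_pos (UC_symm.mp h)]
  · rw [if_neg h, if_neg (fun h' => h (UC_symm.mpr h'))]

lemma uOn_row (j : W → V) (X : Finset V) (u v : X → Fin q) (a : W → Fin q) :
    ∑ a', ‖uOn j X u v a a'‖ ≤ 1 := by
  classical
  have h1 : ∀ a', ‖uOn j X u v a a'‖ = if UC j X u v a a' then (1 : ℝ) else 0 := by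
    intro a'
    unfold uOn
    split_ifs <;> simp
  simp only [h1]
  rw [Finset.sum_boole]
  have : ((Finset.univ : Finset (W → Fin q)).filter (fun a' => UC j X u v a a')).card ≤ 1 := by
    rw [Finset.card_le_one]
    intro x hx y hy
    exact UC_right (Finset.mem_filter.mp hx).2 (Finset.mem_filter.mp hy).2
  exact_mod_cast this

lemma uOn_contr (j : W → V) (X : Finset V) (u v : X → Fin q) : Contr (uOn j X u v) := by
  refine contr_of_sums _ (uOn_row j X u v) (fun a' => ?_)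
  simp only [uOn_norm j X u v]
  exact uOn_row j X v u a'

lemma uOn_herm (j : W → V) (X : Finset V) (u v : X → Fin q) :
    (uOn j X u v)ᴴ = uOn j X v u := by
  ext a a'
  rw [conjTranspose_apply]
  unfold uOn
  by_cases h : UC j X u v a' a
  · rw [if_pos h, if_pos (UC_symm.mp h)]
    simp
  · rw [if_neg h, if_neg (fun h' => h (UC_symm.mpr h'))]
    simp

lemma uOn_one (j : W → V) (X : Finset V) (hX : ∀ x, j x ∉ X) (u v : X → Fin q) :
    uOn j X u v = 1 := by
  ext a a'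
  unfold uOn
  by_cases h : a = a'
  · subst h
    rw [Matrix.one_apply_eq, if_pos]
    exact fun x => ⟨fun hx => absurd hx (hX x), fun _ => rfl⟩
  · rw [Matrix.one_apply_ne h, if_neg]
    intro hc
    exact h (funext fun x => (hc x).2 (hX x))

end units

section split
variable {V : Type*} [Fintype V] [DecidableEq V] {q : ℕ}

/-- inside embedding -/
abbrev jIn (A : Finset V) : {x // x ∈ A} → V := Subtype.val
/-- outside embedding -/
abbrev jOut (A : Finset V) : {x // ¬ x ∈ A} → V := Subtype.val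

lemma cut_in (A : Finset V) (z : ({x // x ∈ A} → Fin q) × ({x // ¬ x ∈ A} → Fin q))
    (x : {x // x ∈ A}) : (cut A q).symm z x.1 = z.1 x := by
  have h : (cut A q) ((cut A q).symm z) = z := Equiv.apply_symm_apply _ _
  exact congrFun (congrArg Prod.fst h) x

lemma cut_out (A : Finset V) (z : ({x // x ∈ A} → Fin q) × ({x // ¬ x ∈ A} → Fin q))
    (x : {x // ¬ x ∈ A}) : (cut A q).symm z x.1 = z.2 x := by
  have h : (cut A q) ((cut A q).symm z) = z := Equiv.apply_symm_apply _ _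
  exact congrFun (congrArg Prod.snd h) x

lemma UC_cut (A X : Finset V) (u v : X → Fin q)
    (z w : ({x // x ∈ A} → Fin q) × ({x // ¬ x ∈ A} → Fin q)) :
    (UC (jIn A) X u v z.1 w.1 ∧ UC (jOut A) X u v z.2 w.2) ↔
    ((u = fun x : X => (cut A q).symm z x.1) ∧ (v = fun x : X => (cut A q).symm w x.1) ∧
      ∀ x, x ∉ X → (cut A q).symm z x = (cut A q).symm w x) := by
  constructor
  · rintro ⟨h1, h2⟩
    refine ⟨?_, ?_, ?_⟩
    · funext x
      by_cases hA : x.1 ∈ A
      · have := cut_in A z ⟨x.1, hA⟩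
        rw [this]
        exact (((h1 ⟨x.1, hA⟩).1 x.2).1).symm
      · have := cut_out A z ⟨x.1, hA⟩
        rw [this]
        exact (((h2 ⟨x.1, hA⟩).1 x.2).1).symm
    · funext x
      by_cases hA : x.1 ∈ A
      · have := cut_in A w ⟨x.1, hA⟩
        rw [this]
        exact (((h1 ⟨x.1, hA⟩).1 x.2).2).symm
      · have := cut_out A w ⟨x.1, hA⟩
        rw [this]
        exact (((h2 ⟨x.1, hA⟩).1 x.2).2).symm
    · intro x hx
      by_cases hA : x ∈ A
      · have e1 := cut_in A z ⟨x, hA⟩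
        have e2 := cut_in A w ⟨x, hA⟩
        rw [e1, e2]
        exact (h1 ⟨x, hA⟩).2 hx
      · have e1 := cut_out A z ⟨x, hA⟩
        have e2 := cut_out A w ⟨x, hA⟩
        rw [e1, e2]
        exact (h2 ⟨x, hA⟩).2 hx
  · rintro ⟨h1, h2, h3⟩
    subst h1
    subst h2
    constructor
    · intro x
      refine ⟨fun hx => ⟨(cut_in A z x).symm, (cut_in A w x).symm⟩, fun hx => ?_⟩
      rw [← cut_in A z x, ← cut_in A w x]
      exact h3 x.1 hx
    · intro x
      refine ⟨fun hx => ⟨(cut_out A z x).symm, (cut_out A w x).symm⟩, fun hx => ?_⟩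
      rw [← cut_out A z x, ← cut_out A w x]
      exact h3 x.1 hx

/-- A local operator in the product form of the cut. -/
theorem actsOn_split (A X : Finset V) (h : Op V q)
    (k : Matrix (X → Fin q) (X → Fin q) ℂ)
    (hk : ∀ s t : Conf V q,
      ((∀ x, x ∉ X → s x = t x) → h s t = k (fun x => s x) (fun x => t x)) ∧
      ((∃ x, x ∉ X ∧ s x ≠ t x) → h s t = 0)) :
    Matrix.reindex (cut A q) (cut A q) h =
      ∑ uv : (X → Fin q) × (X → Fin q), k uv.1 uv.2 •
        (uOn (jIn A) X uv.1 uv.2 ⊗ₖ uOn (jOut A) X uv.1 uv.2) := by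
  classical
  ext z w
  rw [Matrix.reindex_apply, Matrix.submatrix_apply, Matrix.sum_apply]
  have h1 : ∀ uv : (X → Fin q) × (X → Fin q), (k uv.1 uv.2 •
        (uOn (jIn A) X uv.1 uv.2 ⊗ₖ uOn (jOut A) X uv.1 uv.2)) z w =
      if (uv.1 = fun x : X => (cut A q).symm z x.1) ∧
        (uv.2 = fun x : X => (cut A q).symm w x.1) ∧
        (∀ x, x ∉ X → (cut A q).symm z x = (cut A q).symm w x) then k uv.1 uv.2 else 0 := by
    intro uv
    rw [Matrix.smul_apply, kroneckerMap_apply, smul_eq_mul]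
    by_cases hc : UC (jIn A) X uv.1 uv.2 z.1 w.1 ∧ UC (jOut A) X uv.1 uv.2 z.2 w.2
    · rw [if_pos ((UC_cut A X uv.1 uv.2 z w).mp hc)]
      unfold uOn
      rw [if_pos hc.1, if_pos hc.2]
      ring
    · rw [if_neg (fun h' => hc ((UC_cut A X uv.1 uv.2 z w).mpr h'))]
      unfold uOn
      by_cases hA : UC (jIn A) X uv.1 uv.2 z.1 w.1
      · have hB : ¬ UC (jOut A) X uv.1 uv.2 z.2 w.2 := fun h' => hc ⟨hA, h'⟩
        rw [if_neg hB]
        ring
      · rw [if_neg hA]
        ring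
  simp only [h1]
  by_cases hoff : ∀ x, x ∉ X → (cut A q).symm z x = (cut A q).symm w x
  · rw [(hk _ _).1 hoff]
    rw [Finset.sum_eq_single ((fun x : X => (cut A q).symm z x.1),
      (fun x : X => (cut A q).symm w x.1))]
    · rw [if_pos ⟨rfl, rfl, hoff⟩]
    · intro uv _ hne
      rw [if_neg]
      rintro ⟨e1, e2, _⟩
      exact hne (Prod.ext e1 e2)
    · intro h
      exact absurd (Finset.mem_univ _) h
  · have : ∃ x, x ∉ X ∧ (cut A q).symm z x ≠ (cut A q).symm w x := by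
      push Not at hoff
      exact hoff
    rw [(hk _ _).2 this]
    refine (Finset.sum_eq_zero fun uv _ => ?_).symm
    rw [if_neg (fun h' => hoff h'.2.2)]

/-- The kernel of a local operator is bounded by its norm. -/
theorem exists_kernel {X : Finset V} {h : Op V q} {J : ℝ} (hX : ActsOn X h) (hJ : OpNormLe h J)
    (hne : h ≠ 0 → X.Nonempty) :
    ∃ k : Matrix (X → Fin q) (X → Fin q) ℂ, (∀ s t : Conf V q,
      ((∀ x, x ∉ X → s x = t x) → h s t = k (fun x => s x) (fun x => t x)) ∧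
      ((∃ x, x ∉ X ∧ s x ≠ t x) → h s t = 0)) ∧ (∀ u v, ‖k u v‖ ≤ |J|) ∧
      (h = 0 → k = 0) := by
  by_cases h0 : h = 0
  · refine ⟨0, fun s t => ?_, fun u v => by simp only [Matrix.zero_apply, norm_zero, abs_nonneg], fun _ => rfl⟩
    rw [h0]
    simp only [Matrix.zero_apply, implies_true, ne_eq, and_self]
  · obtain ⟨k, hk⟩ := hX
    refine ⟨k, hk, fun u v => ?_, fun h' => absurd h' h0⟩
    obtain ⟨x0, hx0⟩ := hne h0
    -- extension of the local configurations
    let s : Conf V q := fun x => if hx : x ∈ X then u ⟨x, hx⟩ else u ⟨x0, hx0⟩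
    let t : Conf V q := fun x => if hx : x ∈ X then v ⟨x, hx⟩ else u ⟨x0, hx0⟩
    have h1 : ∀ x, x ∉ X → s x = t x := by
      intro x hx
      simp only [s, t, dif_neg hx]
    have h2 := (hk s t).1 h1
    have e1 : (fun x : X => s x) = u := by
      funext x
      simp only [s, dif_pos x.2]
    have e2 : (fun x : X => t x) = v := by
      funext x
      simp only [t, dif_pos x.2]
    rw [e1, e2] at h2
    rw [← h2]
    exact entry_le hJ s t

/-- a set meeting both sides of the cut -/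
def Crosses (A X : Finset V) : Prop := (∃ x ∈ X, x ∈ A) ∧ (∃ x ∈ X, x ∉ A)

open Classical in
/-- Splitting of a local Hamiltonian along a cut. -/
theorem local_split (A : Finset V) (h : Finset V → Op V q) {J : ℝ}
    (hh : ∀ X, (h X).IsHermitian ∧ ActsOn X (h X) ∧ OpNormLe (h X) J ∧
      (h X ≠ 0 → X.Nonempty)) :
    ∃ (HA : Op {x // x ∈ A} q) (HB : Op {x // ¬ x ∈ A} q)
      (c : (Σ X : Finset V, (X → Fin q) × (X → Fin q)) → ℂ),
      Matrix.reindex (cut A q) (cut A q) (∑ X, h X) =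
        HA ⊗ₖ (1 : Op {x // ¬ x ∈ A} q) + (1 : Op {x // x ∈ A} q) ⊗ₖ HB +
        ∑ k, c k • (uOn (jIn A) k.1 k.2.1 k.2.2 ⊗ₖ uOn (jOut A) k.1 k.2.1 k.2.2) ∧
      (∑ k, c k • (uOn (jIn A) k.1 k.2.1 k.2.2 ⊗ₖ uOn (jOut A) k.1 k.2.1 k.2.2)).IsHermitian ∧
      ∑ k, ‖c k‖ ≤ ∑ X, if Crosses A X ∧ h X ≠ 0 then |J| * (q : ℝ) ^ (2 * X.card) else 0 := by
  choose k hk hkJ hk0 using fun X => exists_kernel (hh X).2.1 (hh X).2.2.1 (hh X).2.2.2
  -- the three groups of terms
  have hX : ∀ X, Matrix.reindex (cut A q) (cut A q) (h X) =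
      ∑ uv : (X → Fin q) × (X → Fin q), k X uv.1 uv.2 •
        (uOn (jIn A) X uv.1 uv.2 ⊗ₖ uOn (jOut A) X uv.1 uv.2) := fun X =>
    actsOn_split A X (h X) (k X) (hk X)
  let tA : Finset V → Op {x // x ∈ A} q := fun X =>
    if Crosses A X then 0 else if ∀ x ∈ X, x ∈ A then
      ∑ uv : (X → Fin q) × (X → Fin q), k X uv.1 uv.2 • uOn (jIn A) X uv.1 uv.2 else 0
  let tB : Finset V → Op {x // ¬ x ∈ A} q := fun X =>
    if Crosses A X then 0 else if ∀ x ∈ X, x ∈ A then 0 else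
      ∑ uv : (X → Fin q) × (X → Fin q), k X uv.1 uv.2 • uOn (jOut A) X uv.1 uv.2
  let c : (Σ X : Finset V, (X → Fin q) × (X → Fin q)) → ℂ := fun z =>
    if Crosses A z.1 then k z.1 z.2.1 z.2.2 else 0
  have hsig : ∀ F : (Σ X : Finset V, (X → Fin q) × (X → Fin q)) →
      Matrix (({x // x ∈ A} → Fin q) × ({x // ¬ x ∈ A} → Fin q))
        (({x // x ∈ A} → Fin q) × ({x // ¬ x ∈ A} → Fin q)) ℂ,
      ∑ z, F z = ∑ X : Finset V, ∑ uv : (X → Fin q) × (X → Fin q), F ⟨X, uv⟩ := fun F =>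
    Fintype.sum_sigma _
  have hG : ∑ z, c z • (uOn (jIn A) z.1 z.2.1 z.2.2 ⊗ₖ uOn (jOut A) z.1 z.2.1 z.2.2) =
      ∑ X, if Crosses A X then Matrix.reindex (cut A q) (cut A q) (h X) else 0 := by
    rw [hsig]
    refine Finset.sum_congr rfl fun X _ => ?_
    by_cases hc : Crosses A X
    · rw [if_pos hc, hX]
      refine Finset.sum_congr rfl fun uv _ => ?_
      simp only [c, if_pos hc]
    · rw [if_neg hc]
      refine Finset.sum_eq_zero fun uv _ => ?_
      simp only [c, if_neg hc, zero_smul]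
  have hterm : ∀ X, Matrix.reindex (cut A q) (cut A q) (h X) =
      tA X ⊗ₖ (1 : Op {x // ¬ x ∈ A} q) + (1 : Op {x // x ∈ A} q) ⊗ₖ tB X +
      (if Crosses A X then Matrix.reindex (cut A q) (cut A q) (h X) else 0) := by
    intro X
    by_cases hc : Crosses A X
    · simp only [tA, tB, if_pos hc]
      simp
    · by_cases hin : ∀ x ∈ X, x ∈ A
      · simp only [if_neg hc, if_pos hin, tA, tB]
        rw [hX, kronecker_zero, add_zero, add_zero]
        have h1 : ∀ uv : (X → Fin q) × (X → Fin q),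
            (uOn (jOut A) X uv.1 uv.2 : Op {x // ¬ x ∈ A} q) = 1 := fun uv =>
          uOn_one (jOut A) X (fun x hx => x.2 (hin x.1 hx)) uv.1 uv.2
        simp only [h1]
        ext z w
        simp only [Matrix.sum_apply, Matrix.smul_apply, kroneckerMap_apply, smul_eq_mul, sum_mul, mul_assoc]
      · simp only [tA, tB, if_neg hc, if_neg hin]
        rw [hX, zero_kronecker, zero_add, add_zero]
        have hout : ∀ x ∈ X, x ∉ A := by
          intro x hx hxA
          apply hin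
          intro y hy
          by_contra hyA
          exact hc ⟨⟨x, hx, hxA⟩, ⟨y, hy, hyA⟩⟩
        have h1 : ∀ uv : (X → Fin q) × (X → Fin q),
            (uOn (jIn A) X uv.1 uv.2 : Op {x // x ∈ A} q) = 1 := fun uv =>
          uOn_one (jIn A) X (fun x hx => hout x.1 hx x.2) uv.1 uv.2
        simp only [h1]
        ext z w
        simp only [Matrix.sum_apply, Matrix.smul_apply, kroneckerMap_apply, smul_eq_mul,
          Finset.mul_sum]
        refine Finset.sum_congr rfl fun uv _ => by ring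
  refine ⟨∑ X, tA X, ∑ X, tB X, c, ?_, ?_, ?_⟩
  · have h1 : Matrix.reindex (cut A q) (cut A q) (∑ X, h X) =
        ∑ X, Matrix.reindex (cut A q) (cut A q) (h X) := by
      ext z w
      simp only [Matrix.reindex_apply, Matrix.submatrix_apply, Matrix.sum_apply]
    rw [h1, hG, Finset.sum_congr rfl fun X _ => hterm X, Finset.sum_add_distrib,
      Finset.sum_add_distrib]
    congr 2
    · ext z w
      simp only [Matrix.sum_apply, kroneckerMap_apply, Finset.sum_mul]
    · ext z w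
      simp only [Matrix.sum_apply, kroneckerMap_apply, Finset.mul_sum]
  · rw [hG]
    unfold Matrix.IsHermitian
    rw [conjTranspose_sum]
    refine Finset.sum_congr rfl fun X _ => ?_
    by_cases hc : Crosses A X
    · rw [if_pos hc]
      exact ((hh X).1.submatrix _)
    · rw [if_neg hc, conjTranspose_zero]
  · have h1 : ∑ z, ‖c z‖ = ∑ X : Finset V, ∑ uv : (X → Fin q) × (X → Fin q), ‖c ⟨X, uv⟩‖ :=
      Fintype.sum_sigma _
    rw [h1]
    refine Finset.sum_le_sum fun X _ => ?_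
    by_cases hc : Crosses A X ∧ h X ≠ 0
    · rw [if_pos hc]
      have h2 : ∀ uv : (X → Fin q) × (X → Fin q), ‖c ⟨X, uv⟩‖ ≤ |J| := by
        intro uv
        simp only [c, if_pos hc.1]
        exact hkJ X uv.1 uv.2
      refine (Finset.sum_le_card_nsmul _ _ _ (fun uv _ => h2 uv)).trans (le_of_eq ?_)
      rw [Finset.card_univ, Fintype.card_prod, Fintype.card_fun, Fintype.card_fin,
        Fintype.card_coe, nsmul_eq_mul]
      push_cast
      ring
    · rw [if_neg hc]
      refine le_of_eq (Finset.sum_eq_zero fun uv _ => ?_)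
      by_cases hcr : Crosses A X
      · have h0 : h X = 0 := by
          by_contra hne
          exact hc ⟨hcr, hne⟩
        simp only [c, if_pos hcr]
        rw [hk0 X h0]
        simp
      · simp only [c, if_neg hcr, norm_zero]

end split

end Vale.Agent.P356
end
end

section

section

open Matrix Finset
open scoped BigOperators ComplexOrder Kronecker

set_option linter.unusedSectionVars false

namespace Vale.Agent.P356

open Vale.Agent.P356.Path

section count
variable {L : ℕ}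

open Classical in
/-- Counting of the terms across the boundary. -/
theorem cross_count {q R : ℕ} (A : Finset (Site L)) (h : Finset (Site L) → Op (Site L) q)
    (hd : ∀ X, h X ≠ 0 → ∀ x ∈ X, ∀ y ∈ X, dist1 x y ≤ R) (J : ℝ) (hq : 1 ≤ q) :
    (∑ X, if Crosses A X ∧ h X ≠ 0 then |J| * (q : ℝ) ^ (2 * X.card) else 0) ≤
      |J| * ((q : ℝ) ^ (2 * (2 * R + 1) ^ 2) * ((2 * R + 1) ^ 4 * NR R)) * bdry A := by
  have hq1 : (1 : ℝ) ≤ q := by exact_mod_cast hq
  rw [← Finset.sum_filter]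
  set F := (Finset.univ : Finset (Finset (Site L))).filter (fun X => Crosses A X ∧ h X ≠ 0) with hF
  set P := ((univ : Finset (Site L × Site L)).filter
      (fun p => p.1 ∈ A ∧ p.2 ∉ A ∧ dist1 p.1 p.2 ≤ R)) with hP
  have hsub : F ⊆ P.biUnion (fun p => (ball p.1 R).powerset) := by
    intro X hX
    obtain ⟨⟨⟨x, hx, hxA⟩, ⟨y, hy, hyA⟩⟩, hne⟩ := (Finset.mem_filter.mp hX).2
    rw [Finset.mem_biUnion]
    refine ⟨(x, y), Finset.mem_filter.mpr ⟨Finset.mem_univ _, hxA, hyA, hd X hne x hx y hy⟩, ?_⟩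
    rw [Finset.mem_powerset]
    intro z hz
    exact Finset.mem_filter.mpr ⟨Finset.mem_univ _, hd X hne z hz x hx⟩
  have hcardF : F.card ≤ (2 * R + 1) ^ 4 * bdry A * NR R := by
    refine (Finset.card_le_card hsub).trans (Finset.card_biUnion_le.trans ?_)
    refine (Finset.sum_le_card_nsmul _ _ (NR R) (fun p _ => card_local p.1 R)).trans ?_
    rw [smul_eq_mul]
    exact Nat.mul_le_mul_right _ (card_pairs A R)
  have hX : ∀ X ∈ F, |J| * (q : ℝ) ^ (2 * X.card) ≤ |J| * (q : ℝ) ^ (2 * (2 * R + 1) ^ 2) := by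
    intro X hX
    obtain ⟨⟨⟨x, hx, hxA⟩, _⟩, hne⟩ := (Finset.mem_filter.mp hX).2
    have h1 : X ⊆ ball x R := by
      intro z hz
      exact Finset.mem_filter.mpr ⟨Finset.mem_univ _, hd X hne z hz x hx⟩
    have h2 : X.card ≤ (2 * R + 1) ^ 2 := (Finset.card_le_card h1).trans (card_ball x R)
    refine mul_le_mul_of_nonneg_left ?_ (abs_nonneg J)
    exact pow_le_pow_right₀ hq1 (by omega)
  refine (Finset.sum_le_card_nsmul _ _ _ hX).trans ?_
  rw [nsmul_eq_mul]
  have h3 : (F.card : ℝ) ≤ (2 * R + 1) ^ 4 * bdry A * NR R := by exact_mod_cast hcardF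
  have h4 : 0 ≤ |J| * (q : ℝ) ^ (2 * (2 * R + 1) ^ 2) := by positivity
  refine (mul_le_mul_of_nonneg_right h3 h4).trans (le_of_eq ?_)
  ring

end count

/-- The reduced density matrix is Hermitian. -/
theorem rdm_herm {V : Type*} [Fintype V] [DecidableEq V] {q : ℕ} (A : Finset V)
    (Ω : Conf V q → ℂ) : (rdm A Ω).IsHermitian := by
  rw [rdm_eq]
  exact redA_isHermitian _

/-- The entanglement spectrum: eigenvalues of the reduced density matrix. -/
noncomputable def spec {V : Type*} [Fintype V] [DecidableEq V] {q : ℕ} (A : Finset V)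
    (Ω : Conf V q → ℂ) : ({x // x ∈ A} → Fin q) → ℝ := (rdm_herm A Ω).eigenvalues

/-- the constant -/
noncomputable def spread_const (q R : ℕ) : ℝ :=
  9 / 4 * ((q : ℝ) ^ (2 * (2 * R + 1) ^ 2) * ((2 * R + 1) ^ 4 * NR R))

theorem admissible_herm {L q R : ℕ} {J : ℝ} {H : Op (Site L) q} (hA : Admissible L q R J H) :
    H.IsHermitian := by
  obtain ⟨h, hh, rfl⟩ := hA
  unfold Matrix.IsHermitian
  rw [conjTranspose_sum]
  exact Finset.sum_congr rfl fun X _ => (hh X).1

/-- **Entanglement spread in gapped ground states.** -/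
theorem spread_bound {L q R : ℕ} {J Δ E : ℝ} (hJ : 0 < J) (hΔ : 0 < Δ) (hq : 1 ≤ q)
    {H : Op (Site L) q} {Ω : Conf (Site L) q → ℂ} (hA : Admissible L q R J H)
    (hg : GappedGround H Δ E Ω) (A : Finset (Site L)) {K : ℝ}
    (hK : K = spread_const q R * (J / Δ) * bdry A) :
    (∀ i, 0 ≤ spec A Ω i) ∧ (∑ i, spec A Ω i = 1) ∧
    (∑ i, spec A Ω i * (Real.log (spec A Ω i) + vnEntropy (rdm A Ω)) ^ 2 ≤ K) ∧
    (∀ l : ℝ, |l| ≤ 1 / 4 → K * l ^ 2 ≤ 1 / 2 →
      ∑ i, spec A Ω i * Real.exp (l * (Real.log (spec A Ω i) + vnEntropy (rdm A Ω))) ≤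
        Real.exp (4 * K * l ^ 2)) ∧
    (∀ i, 0 < spec A Ω i →
      vnEntropy (rdm A Ω) ≤ (5 + 3 * Real.sqrt K) * (1 - Real.log (spec A Ω i))) := by
  have hHherm := admissible_herm hA
  obtain ⟨h, hh, hsum⟩ := hA
  obtain ⟨HA, HB, c, hsplit, hGh, hcsum⟩ := local_split A h (J := J)
    (fun X => ⟨(hh X).1, (hh X).2.1, (hh X).2.2.1, fun hne => ((hh X).2.2.2 hne).1⟩)
  have hcount := cross_count A h (fun X hne => ((hh X).2.2.2 hne).2) J hq
  rw [abs_of_pos hJ] at hcount hcsum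
  have hc : ∑ k, ‖c k‖ ≤ J * ((q : ℝ) ^ (2 * (2 * R + 1) ^ 2) * ((2 * R + 1) ^ 4 * NR R)) *
      bdry A := hcsum.trans hcount
  have hgap0 := gapped_reindex (cut A q) (gapped_of hHherm hg)
  rw [hsum, hsplit] at hgap0
  set x := Ω ∘ (cut A q).symm with hx
  have hKle : 9 / 4 * (∑ k, ‖c k‖) / Δ ≤ K := by
    rw [hK, spread_const, div_le_iff₀ hΔ]
    have h1 : 9 / 4 * ((q : ℝ) ^ (2 * (2 * R + 1) ^ 2) * ((2 * R + 1) ^ 4 * NR R)) * (J / Δ) *
        bdry A * Δ = 9 / 4 * (J * ((q : ℝ) ^ (2 * (2 * R + 1) ^ 2) *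
        ((2 * R + 1) ^ 4 * NR R)) * bdry A) := by
      (clear * - hΔ hJ hq; field_simp)
    rw [h1]
    linarith only [hcsum, hcount]
  have hK0 : 0 ≤ K := le_trans (div_nonneg (mul_nonneg (by norm_num)
    (Finset.sum_nonneg fun k _ => norm_nonneg _)) hΔ.le) hKle
  have hPc : ∀ k : (Σ X : Finset (Site L), (X → Fin q) × (X → Fin q)),
      Contr (uOn (jIn A) k.1 k.2.1 k.2.2) := fun k => uOn_contr _ _ _ _
  have hPc' : ∀ k : (Σ X : Finset (Site L), (X → Fin q) × (X → Fin q)),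
      Contr (uOn (jIn A) k.1 k.2.1 k.2.2)ᴴ := fun k => by rw [uOn_herm]; exact uOn_contr _ _ _ _
  have hQc : ∀ k : (Σ X : Finset (Site L), (X → Fin q) × (X → Fin q)),
      Contr (uOn (jOut A) k.1 k.2.1 k.2.2) := fun k => uOn_contr _ _ _ _
  have hQc' : ∀ k : (Σ X : Finset (Site L), (X → Fin q) × (X → Fin q)),
      Contr (uOn (jOut A) k.1 k.2.1 k.2.2)ᴴ := fun k => by rw [uOn_herm]; exact uOn_contr _ _ _ _
  have hp0 := eigp_nonneg x
  have hp1 := eigp_sum x hgap0.unit
  have hS : vnEntropy (rdm A Ω) = ent x := vnEntropy_rdm A Ω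
  have hspec : ∀ i, spec A Ω i = eigp x i := fun i => rfl
  have hmean : ∑ i, eigp x i * Real.log (eigp x i) = - ent x := by
    have : ent x = ∑ i, Real.negMulLog (eigp x i) := rfl
    rw [this, ← Finset.sum_neg_distrib]
    refine Finset.sum_congr rfl fun i _ => ?_
    rw [Real.negMulLog]
    ring
  have hmom : ∀ l : ℝ, |l| ≤ 1 / 4 → K * l ^ 2 ≤ 1 / 2 →
      ∑ i, eigp x i * Real.exp (l * (Real.log (eigp x i) + ent x)) ≤ Real.exp (4 * K * l ^ 2) :=
    fun l hl hKl => moment_bound HA HB c _ _ hPc hPc' hQc hQc' hGh hΔ hgap0 hKle hl hKl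
  refine ⟨hp0, hp1, ?_, ?_, ?_⟩
  · have hv := varBd_contr HA HB c _ _ hPc hPc' hQc hQc' hGh hΔ hgap0
    have h1 := (hv (fun i => Real.log (eigp x i)) (fun i j _ _ => le_refl _)).trans hKle
    rw [hmean] at h1
    rw [hS]
    simp only [hspec]
    refine le_trans (le_of_eq ?_) h1
    have e1 : ∀ i, eigp x i * (Real.log (eigp x i) + ent x) ^ 2 =
        eigp x i * Real.log (eigp x i) ^ 2 + 2 * ent x * (eigp x i * Real.log (eigp x i)) +
        ent x ^ 2 * eigp x i := fun i => by ring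
    simp only [e1, sum_add_distrib, ← mul_sum, hmean, hp1]
    ring
  · rw [hS]
    exact hmom
  · rw [hS]
    intro i hi
    refine ent_le_of_moment hK0 hmom i hi ?_
    rw [← hp1]
    exact Finset.single_le_sum (fun j _ => hp0 j) (Finset.mem_univ i)

/-- Exponential tails from the exponential moment. -/
theorem tail_of_moment {ι : Type*} [Fintype ι] (p X : ι → ℝ) (hp0 : ∀ i, 0 ≤ p i) {K : ℝ}
    (hK0 : 0 ≤ K)
    (hmom : ∀ l : ℝ, |l| ≤ 1 / 4 → K * l ^ 2 ≤ 1 / 2 →
      ∑ i, p i * Real.exp (l * X i) ≤ Real.exp (4 * K * l ^ 2)) (u : ℝ) :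
    ∑ i ∈ Finset.univ.filter (fun i => u ≤ |X i|), p i ≤
      6 * Real.exp (-(u / (4 + 2 * Real.sqrt K))) := by
  set s := 2 * Real.sqrt K with hs
  have hs0 : 0 ≤ s := by (clear * -; positivity)
  have hs2 : s ^ 2 = 4 * K := by
    rw [hs, mul_pow, Real.sq_sqrt hK0]
    ring
  set l := 1 / (4 + s) with hl
  have hden : 0 < 4 + s := by linarith only [hs0]
  have hl0 : 0 < l := by (clear * -; positivity)
  have hl4 : l ≤ 1 / 4 := by
    rw [hl]
    exact one_div_le_one_div_of_le (by norm_num) (by linarith only [hs0])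
  have hKl : K * l ^ 2 ≤ 1 / 4 := by
    have h1 : l * s ≤ 1 := by
      rw [hl, one_div, inv_mul_le_iff₀ hden]
      linarith only []
    have h2 : (l * s) ^ 2 ≤ 1 := by
      have h0 : 0 ≤ l * s := by (clear * -; positivity)
      nlinarith only [h1, h0]
    rw [mul_pow, hs2] at h2
    linarith only [h2]
  have h1 := hmom l (by rw [abs_of_pos hl0]; exact hl4) (by linarith only [hKl])
  have h2 := hmom (-l) (by rw [abs_neg, abs_of_pos hl0]; exact hl4)
    (by rw [neg_sq]; linarith only [hKl])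
  rw [neg_sq] at h2
  have hexp : Real.exp (4 * K * l ^ 2) ≤ 3 := by
    have h3 : Real.exp (4 * K * l ^ 2) ≤ Real.exp 1 := Real.exp_le_exp.mpr (by linarith only [hKl])
    have h4 := Real.exp_one_lt_d9
    linarith only [h3, h4]
  have hpt : ∀ i ∈ Finset.univ.filter (fun i => u ≤ |X i|), p i ≤
      (p i * Real.exp (l * X i) + p i * Real.exp (-l * X i)) * Real.exp (-(l * u)) := by
    intro i hi
    have hu := (Finset.mem_filter.mp hi).2
    have h3 : Real.exp (l * u) ≤ Real.exp (l * X i) + Real.exp (-l * X i) := by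
      rcases le_total 0 (X i) with h | h
      · rw [abs_of_nonneg h] at hu
        have h4 : Real.exp (l * u) ≤ Real.exp (l * X i) :=
          Real.exp_le_exp.mpr (mul_le_mul_of_nonneg_left hu hl0.le)
        have h5 := Real.exp_pos (-l * X i)
        linarith only [h4, h5]
      · rw [abs_of_nonpos h] at hu
        have h4 : Real.exp (l * u) ≤ Real.exp (-l * X i) := by
          refine Real.exp_le_exp.mpr ?_
          nlinarith only [hl0, hu]
        have h5 := Real.exp_pos (l * X i)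
        linarith only [h4, h5]
    have h6 : Real.exp (l * u) * Real.exp (-(l * u)) = 1 := by
      rw [← Real.exp_add]
      simp
    have h7 : 1 ≤ (Real.exp (l * X i) + Real.exp (-l * X i)) * Real.exp (-(l * u)) := by
      rw [← h6]
      exact mul_le_mul_of_nonneg_right h3 (Real.exp_pos _).le
    have h8 := mul_le_mul_of_nonneg_left h7 (hp0 i)
    rw [mul_one] at h8
    refine h8.trans (le_of_eq ?_)
    ring
  have hsum : ∑ i ∈ Finset.univ.filter (fun i => u ≤ |X i|), p i ≤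
      ∑ i, (p i * Real.exp (l * X i) + p i * Real.exp (-l * X i)) * Real.exp (-(l * u)) := by
    refine (Finset.sum_le_sum hpt).trans ?_
    refine Finset.sum_le_sum_of_subset_of_nonneg (Finset.filter_subset _ _) (fun i _ _ => ?_)
    have h3 := hp0 i
    (clear * - h3; positivity)
  rw [← Finset.sum_mul, Finset.sum_add_distrib] at hsum
  have e1 : l * u = u / (4 + s) := by
    rw [hl]
    ring
  rw [e1] at hsum
  refine hsum.trans (mul_le_mul_of_nonneg_right ?_ (Real.exp_pos _).le)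
  linarith only [h1, h2, hexp]

theorem eig_of_herm {ι : Type*} [Fintype ι] [DecidableEq ι] {ρ : Matrix ι ι ℂ}
    (h : ρ.IsHermitian) (i : ι) : eig ρ i = h.eigenvalues i := by
  rw [eig, dif_pos h]

theorem eig_spec {V : Type*} [Fintype V] [DecidableEq V] {q : ℕ} (A : Finset V)
    (Ω : Conf V q → ℂ) (i : {x // x ∈ A} → Fin q) : eig (rdm A Ω) i = spec A Ω i := by
  rw [eig_of_herm (rdm_herm A Ω), spec]

/-- The three forms of the spread law. -/
theorem spread_law {L q R : ℕ} {J Δ E : ℝ} (hJ : 0 < J) (hΔ : 0 < Δ) (hq : 1 ≤ q)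
    {H : Op (Site L) q} {Ω : Conf (Site L) q → ℂ} (hA : Admissible L q R J H)
    (hg : GappedGround H Δ E Ω) (A : Finset (Site L)) :
    VarLe (rdm A Ω) (spread_const q R * (J / Δ) * bdry A) ∧
      TailLe (rdm A Ω) (spread_const q R * (J / Δ) * bdry A) ∧
      SingleLe (rdm A Ω) (spread_const q R * (J / Δ) * bdry A) := by
  obtain ⟨h1, h2, h3, h4, h5⟩ := spread_bound hJ hΔ hq hA hg A rfl
  set K := spread_const q R * (J / Δ) * bdry A with hK
  set S := vnEntropy (rdm A Ω) with hS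
  have hK0 : 0 ≤ K := le_trans (Finset.sum_nonneg fun i _ =>
    mul_nonneg (h1 i) (sq_nonneg _)) h3
  have e3 : ∀ i, dev (rdm A Ω) i = -(Real.log (spec A Ω i) + S) := fun i => by
    rw [dev, eig_spec]
    ring
  refine ⟨?_, ?_, ?_⟩
  · refine le_trans (le_of_eq ?_) h3
    exact Finset.sum_congr rfl fun i _ => by rw [eig_spec, e3]; ring
  · intro u
    have := tail_of_moment (spec A Ω) (fun i => Real.log (spec A Ω i) + S) h1 hK0 h4 u
    rw [Finset.sum_filter] at this
    refine le_trans (le_of_eq ?_) this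
    refine Finset.sum_congr rfl fun i _ => ?_
    rw [eig_spec, e3, abs_neg]
  · intro i hi
    rw [eig_spec] at hi ⊢
    exact h5 i hi

end Vale.Agent.P356
end
end
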